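import Vale.Agent.P097C.Spec

/-!
# P097C: the differentiated identities of the leaf
-/

set_option linter.all false

open Filter Topology Set Metric

namespace Vale.Agent.P097C

theorem alg1_uniq {ρ : ℝ} {f g : ℂ → ℂ} {f' g' x : ℂ} (hx : x ∈ St ρ) (e : ∀ y ∈ St ρ, f y = g y)
    (hf : HasDerivAt f f' x) (hg : HasDerivAt g g' x) : f' = g' := by
  have op : IsOpen (St ρ) := isOpen_lt (by fun_prop) continuous_const
  exact hf.unique (hg.congr_of_eventuallyEq (eventually_of_mem (op.mem_nhds hx) e))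

theorem alg1 : Spec_ALG1 := by
  intro r ρ c C θ h g Q Y φ p n hS hL
  have im0 : ((1 : ℂ) / n).im = 0 := by
    rw [show ((1 : ℂ) / n) = ((1 / n : ℝ) : ℂ) by push_cast; rfl, Complex.ofReal_im]
  have sm : ∀ x ∈ St ρ, x - 1 / n ∈ St ρ := fun x hx => by
    simpa only [St, mem_setOf_eq, Complex.sub_im, im0, sub_zero] using hx
  have sp : ∀ x ∈ St ρ, x + 1 / n ∈ St ρ := fun x hx => by
    simpa only [St, mem_setOf_eq, Complex.add_im, im0, add_zero] using hx
  have key : ∀ x ∈ St ρ, deriv φ x + deriv φ (x - 1 / n) = 2 * g (Y x) * deriv Y x ∧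
      g (Y x) ^ 2 * eA h n Y φ p x = c * sA n φ x ^ 2 * deriv Y x ∧
      Am h n Y φ p x * deriv φ (x - 1 / n) = sA n φ x * deriv p (x - 1 / n) + eA h n Y φ p x := by
    intro x hx
    have hy := hL.maps hx
    have dY := (hL.anY x hx).differentiableAt.hasDerivAt
    have dφ := (hL.anφ x hx).differentiableAt.hasDerivAt
    have dp := (hL.anp x hx).differentiableAt.hasDerivAt
    have dφ' := (hL.anφ _ (sm x hx)).differentiableAt.hasDerivAt.comp_sub_const x (1 / (n : ℂ))
    have dp' := (hL.anp _ (sm x hx)).differentiableAt.hasDerivAt.comp_sub_const x (1 / (n : ℂ))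
    have dθ := (hS.anθ _ hy).differentiableAt.hasDerivAt.comp x dY
    have dh := (hS.anh _ hy).differentiableAt.hasDerivAt.comp x dY
    have dg := (hS.ang _ hy).differentiableAt.hasDerivAt.comp x dY
    have dh' := (hS.anh.deriv _ hy).differentiableAt.hasDerivAt.comp x dY
    have dδ : HasDerivAt (de n φ) ((deriv φ x - deriv φ (x - 1 / n)) / 2) x :=
      (dφ.sub dφ').div_const 2
    have e1 := alg1_uniq hx hL.th (dφ.add dφ') (dθ.const_mul 2)
    have e2 := alg1_uniq hx hL.pc (dp.add dp') ((dh.const_mul 2).mul dδ.ccos)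
    have e3 := alg1_uniq hx hL.ps ((dp.sub dp').mul dg) ((dh'.const_mul 2).mul dδ.csin)
    have e4 := hS.wr _ hy
    have e5 := hL.ps x hx
    rw [hS.dθ _ hy] at e1
    simp only [Function.comp, Pi.sub_apply] at e2 e3
    simp only [eA, Ap, Am, sA]
    generalize Complex.sin (de n φ x) = s at *
    generalize Complex.cos (de n φ x) = k at *
    refine ⟨by linear_combination e1, ?_, ?_⟩
    · linear_combination g (Y x) ^ 2 * s / 2 * e2 + g (Y x) * s / 2 * e3 + s ^ 2 * deriv Y x * e4 -
        (s * deriv g (Y x) * deriv Y x / 2 + g (Y x) * k * deriv φ x / 2) * e5 +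
        (g (Y x) ^ 2 * h (Y x) * s ^ 2 / 2 - g (Y x) * s * deriv h (Y x) * k / 2) * e1
    · linear_combination -s * e2 + k * (p x - p (x - 1 / n)) / 2 * e1 + k * deriv Y x * e5
  refine ⟨fun x hx => ?_, fun x hx => (key x hx).1, fun x hx => (key x hx).2.1⟩
  have e := (key _ (sp x hx)).2.2
  rw [add_sub_cancel_right] at e
  rw [lA, eA]
  linear_combination sA n φ x * e

end Vale.Agent.P097C
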