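import Vale.Agent.P097C.Spec

/-!
# P097C: the anchor barrier
-/

open Filter Topology Set Metric ComplexConjugate

namespace Vale.Agent.P097C

namespace Anc

/-- truncated quotient with a penalty -/
noncomputable def ch (k P a T : ℝ) : ℝ := P / max a (T / 10) + k * max 0 (2 - 10 * a / T)

variable {k P a T r M C u s : ℝ} {y : ℂ}

lemma ch_eq (hT : 0 < T) (h : T / 5 ≤ a) : ch k P a T = P / a := by
  rw [ch, max_eq_left (by linarith), max_eq_left, mul_zero, add_zero]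
  rw [sub_nonpos, le_div_iff₀ hT]
  linarith

lemma ch_nonneg (hT : 0 < T) (hP : 0 ≤ P) (hk : 0 ≤ k) : 0 ≤ ch k P a T :=
  add_nonneg (div_nonneg hP (le_max_of_le_right (by linarith))) (mul_nonneg hk (le_max_left _ _))

lemma ch_lt (hT : 0 < T) (hP : 0 ≤ P) (hk : 0 ≤ k) (h : ch k P a T < k) :
    T / 10 ≤ a ∧ P / a ≤ ch k P a T := by
  have h1 : 0 ≤ P / max a (T / 10) := div_nonneg hP (le_max_of_le_right (by linarith))
  have h2 : T / 10 ≤ a := by
    by_contra h3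
    have : 1 ≤ 2 - 10 * a / T := by
      have : 10 * a / T ≤ 1 := (div_le_one hT).2 (by linarith)
      linarith
    have := mul_le_mul_of_nonneg_left (le_max_of_le_right this : 1 ≤ max (0 : ℝ) _) hk
    unfold ch at h
    linarith
  refine ⟨h2, ?_⟩
  rw [ch, max_eq_left h2]
  exact le_add_of_nonneg_right (mul_nonneg hk (le_max_left _ _))

lemma ch_cont {P a T : ℂ → ℝ} {S : Set ℂ} (hP : ContinuousOn P S) (ha : ContinuousOn a S)
    (hT : ContinuousOn T S) (h0 : ∀ y ∈ S, 0 < T y) :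
    ContinuousOn (fun y => ch k (P y) (a y) (T y)) S :=
  (hP.div (fun y hy => Tendsto.max (ha y hy) ((hT.div_const 10) y hy)) fun y hy =>
    (lt_max_of_lt_right (by linarith [h0 y hy])).ne').add (continuousOn_const.mul fun y hy =>
      Tendsto.max tendsto_const_nhds ((continuousOn_const.sub ((continuousOn_const.mul ha).div hT
        fun y hy => (h0 y hy).ne')) y hy))

lemma dd_pos (hy : y ∈ St r) : 0 < dd r y :=
  sub_pos.2 (sq_lt_sq' (abs_lt.1 hy).1 (abs_lt.1 hy).2)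

lemma sqrt_le (hr : 0 < r) (y : ℂ) : √(dd r y) ≤ r :=
  Real.sqrt_le_iff.2 ⟨hr.le, sub_le_self _ (sq_nonneg _)⟩

lemma dd_cont (r : ℝ) : Continuous (dd r) := by
  unfold dd
  fun_prop

lemma sq_jet (hy : y ∈ St r) : ∃ b, EJ (fun x => √(dd r x)) y b (-(r ^ 2 / √(dd r y) ^ 3)) ∧
    ‖b‖ * √(dd r y) ≤ r := by
  have hd := dd_pos hy
  have hs := Real.sqrt_pos.2 hd
  have h1 : EJ (dd r) y _ _ := ((EJ.im (F := fun x => x) (z := y) analyticAt_id).sq).const_sub (r ^ 2)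
  have h2 : E1 Real.sqrt (dd r y) (1 / (2 * √(dd r y))) (-(1 / (4 * √(dd r y) ^ 3))) :=
    E1.of_deriv (β' := fun t => 1 / (2 * √t))
      ((eventually_ne_nhds hd.ne').mono fun _ ht => Real.hasDerivAt_sqrt ht)
      (((hasDerivAt_const _ 1).div ((Real.hasDerivAt_sqrt hd.ne').const_mul 2)
        (by positivity)).congr_deriv (by field_simp; ring))
  have h3 : √(dd r y) ^ 2 = r ^ 2 - y.im ^ 2 := Real.sq_sqrt hd.le
  refine ⟨_, (h1.comp h2).cast rfl ?_, ?_⟩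
  · simp only [deriv_id'', mul_one, norm_neg, norm_mul, Complex.norm_I, Complex.norm_real,
      Complex.norm_ofNat, Real.norm_eq_abs, mul_pow, sq_abs]
    field_simp
    linear_combination (-4 : ℝ) * h3
  · simp only [deriv_id'', mul_one, norm_neg, norm_mul, Complex.norm_I, Complex.norm_real,
      Complex.norm_ofNat, Real.norm_eq_abs, abs_of_pos (show 0 < 1 / (2 * √(dd r y)) by positivity)]
    field_simp
    exact le_of_lt hy

/-- the local form of both charts -/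
lemma core {Z F : ℂ → ℂ} {C₁ C' K : ℝ} (hy : y ∈ St r) (hZ : AnalyticAt ℂ Z y)
    (hF : AnalyticAt ℂ F y) (hM : 0 ≤ M) (h1 : ‖F y‖ * √(dd r y) ^ 2 ≤ 2)
    (h2 : ‖deriv F y‖ * √(dd r y) ^ 4 ≤ C₁) (h3 : ‖deriv Z y‖ ^ 2 * √(dd r y) ^ 3 ≤ M * K)
    (h4 : 80 * r ^ 2 + 4 * C₁ ^ 2 + 40 * C₁ * r + 4 * K ≤ C' * r ^ 2) :
    UJ (fun x => ‖Z x‖ ^ 2 + M * (√(dd r x) ^ 5 * ‖F x‖ ^ 2) + M * C' * √(dd r x)) y 0 := by
  obtain ⟨b, j, hb⟩ := sq_jet hy
  have hs := Real.sqrt_pos.2 (dd_pos hy)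
  refine (((EJ.normSq hZ).add (((j.comp (E1.pow 5 _)).mul (EJ.normSq hF)).smul M)).add
    (j.smul (M * C'))).uj.mono ?_
  generalize √(dd r y) = s at *
  have hr : 0 ≤ r := le_trans (by positivity) hb
  have e1 : ((((5 : ℕ) * s ^ (5 - 1) : ℝ) : ℂ) * b * conj (2 * conj (F y) * deriv F y)).re ≤
      5 * s ^ 4 * ‖b‖ * (2 * ‖F y‖ * ‖deriv F y‖) := by
    refine (Complex.re_le_norm _).trans_eq ?_
    simp [abs_of_pos hs]
  generalize (_ * b * _ : ℂ).re = X at *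
  have hf := norm_nonneg (F y)
  generalize ‖F y‖ = f at *
  have hf' := norm_nonneg (deriv F y)
  have hb0 := norm_nonneg b
  generalize ‖deriv F y‖ = f' at *
  generalize ‖deriv Z y‖ ^ 2 = z at *
  generalize ‖b‖ = β at *
  have a1 : (f' * s ^ 4) ^ 2 ≤ C₁ ^ 2 := by gcongr
  have a2 : (f * s ^ 2) ^ 2 * (β * s) ^ 2 ≤ 2 ^ 2 * r ^ 2 := by gcongr
  have a3 : β * s * (f * s ^ 2) * (f' * s ^ 4) ≤ r * 2 * C₁ := by gcongr
  have a4 := mul_le_mul_of_nonneg_right e1 (pow_pos hs 3).le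
  have a5 : 4 * (f' * s ^ 4) ^ 2 - 5 * ((f * s ^ 2) * r) ^ 2 + 20 * ((f * s ^ 2) ^ 2 * (β * s) ^ 2) +
      2 * (X * s ^ 3) + 4 * K ≤ C' * r ^ 2 := by
    linarith [sq_nonneg ((f * s ^ 2) * r)]
  refine le_of_mul_le_mul_right ?_ (pow_pos hs 3)
  have := mul_le_mul_of_nonneg_left a5 hM
  refine (Eq.le (b := 4 * (z * s ^ 3) + M * (4 * (f' * s ^ 4) ^ 2 - 5 * ((f * s ^ 2) * r) ^ 2 +
    20 * ((f * s ^ 2) ^ 2 * (β * s) ^ 2) + 2 * (X * s ^ 3)) - M * (C' * r ^ 2)) ?_).trans (by linarith)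
  field_simp
  norm_num
  ring

lemma dif {n n' g g' : ℂ} (hs : 0 < s) (hT : 0 < T) (h : s ≤ u ^ 2 * T)
    (he : ‖n' * g - n * g'‖ ≤ u) (h1 : T / 10 ≤ ‖g‖ ^ 2) (h2 : T / 10 ≤ (s ^ 2 * ‖g'‖) ^ 2) :
    ‖n' / g' - n / g‖ ≤ 10 * u ^ 3 * s := by
  have g0 : g ≠ 0 := by
    rintro rfl
    norm_num at h1
    linarith
  have g1 : g' ≠ 0 := by
    rintro rfl
    norm_num at h2
    linarith
  have h3 : T / 10 ≤ ‖g‖ * (s ^ 2 * ‖g'‖) := (sq_le_sq₀ (by linarith) (by positivity)).1 (by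
    rw [mul_pow, sq (T / 10)]
    gcongr)
  have h4 : 1 ≤ 10 * u ^ 2 * s * (‖g'‖ * ‖g‖) := le_of_mul_le_mul_left (a := s) (by
    nlinarith [mul_le_mul_of_nonneg_left h3 (sq_nonneg u)]) hs
  rw [div_sub_div _ _ g1 g0, norm_div, norm_mul, div_le_iff₀ (by positivity), mul_comm g' n]
  nlinarith [mul_le_mul_of_nonneg_left h4 ((norm_nonneg _).trans he)]

lemma sqd {z w : ℂ} (hu : 1 ≤ u) (hs : 0 < s) (hr : s ≤ r) (hz : ‖z‖ ^ 2 ≤ u ^ 8)
    (h : ‖w - z‖ ≤ 10 * u ^ 3 * s) : ‖w‖ ^ 2 ≤ ‖z‖ ^ 2 + (20 + 100 * r) * u ^ 7 * s := by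
  have h1 : ‖z‖ ≤ u ^ 4 := (sq_le_sq₀ (norm_nonneg _) (by positivity)).1 (by linarith)
  have h2 : ‖w‖ ≤ ‖z‖ + 10 * u ^ 3 * s := (norm_le_insert' w z).trans (by linarith)
  have h3 : u ^ 6 * s * s ≤ u ^ 7 * s * r := by gcongr; norm_num
  have h4 : ‖z‖ * (u ^ 3 * s) ≤ u ^ 4 * (u ^ 3 * s) := by gcongr
  nlinarith [pow_le_pow_left₀ (norm_nonneg _) h2 2]

lemma Ibd {z e q : ℂ} (hu : 1 + 3 * r ≤ u) (hs : 0 < s) (hr : s ≤ r) (h : s ≤ u ^ 2 * T)
    (hT : 0 < T) (hz : ‖z‖ ^ 2 ≤ u ^ 8) (he : ‖e‖ ≤ u) (hq : ‖q‖ ≤ 3 * s ^ 2) :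
    ‖z * T + e * q‖ ≤ u ^ 5 * T := by
  have hu1 : 1 ≤ u := by linarith
  have h1 : ‖z‖ ≤ u ^ 4 := (sq_le_sq₀ (norm_nonneg _) (by positivity)).1 (by linarith)
  have hr0 : 0 ≤ r := by linarith
  calc _ ≤ ‖z‖ * T + ‖e‖ * ‖q‖ := by
        simpa [abs_of_pos hT] using norm_add_le (z * T) (e * q)
    _ ≤ u ^ 4 * T + u * (3 * (r * (u ^ 2 * T))) := by
        gcongr
        refine hq.trans ?_
        rw [sq s]
        gcongr
    _ = (u ^ 4 + 3 * r * u ^ 3) * T := by ring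
    _ ≤ (u ^ 4 + 3 * r * u ^ 4) * T := by gcongr; norm_num
    _ = (1 + 3 * r) * u ^ 4 * T := by ring
    _ ≤ u * u ^ 4 * T := by gcongr
    _ = _ := by ring

/-- the chart `N / g` -/
noncomputable def A1 (r u M C' : ℝ) (N g : ℂ → ℂ) (y : ℂ) : ℝ :=
  ch (u ^ 8) (‖N y‖ ^ 2 + M * √(dd r y) * (dd r y * ‖deriv g y‖) ^ 2) (‖g y‖ ^ 2) (TT r 1 g y) +
    M * C' * √(dd r y)

/-- the chart `N' / g'` -/
noncomputable def A2 (r u M C' : ℝ) (N g : ℂ → ℂ) (y : ℂ) : ℝ :=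
  ch (u ^ 8) ((dd r y * ‖deriv N y‖) ^ 2) ((dd r y * ‖deriv g y‖) ^ 2) (TT r 1 g y) +
    M * (C' + 1) * √(dd r y)

variable {θ h g Q N : ℂ → ℂ} {c C' : ℝ}

lemma TT_eq (r : ℝ) (g : ℂ → ℂ) (y : ℂ) :
    TT r 1 g y = ‖g y‖ ^ 2 + (dd r y * ‖deriv g y‖) ^ 2 := by
  unfold TT
  ring

lemma TT_pos (H : SD r θ h g Q c C) (hy : y ∈ St r) : 0 < TT r 1 g y := by
  rw [TT_eq]
  have hd := dd_pos hy
  by_cases h0 : g y = 0
  · have h1 : deriv g y ≠ 0 := fun h1 => by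
      have := H.wr y hy
      simp only [h0, h1, mul_zero, sub_zero, zero_pow three_ne_zero, add_zero] at this
      exact H.c0.ne (by exact_mod_cast this)
    positivity
  · positivity

lemma q1 (hy : y ∈ St r) (n g g' : ℂ) : (‖n‖ ^ 2 + M * √(dd r y) * (dd r y * ‖g'‖) ^ 2) / ‖g‖ ^ 2 =
    ‖n / g‖ ^ 2 + M * (√(dd r y) ^ 5 * ‖g' / g‖ ^ 2) := by
  have := Real.sq_sqrt (dd_pos hy).le
  generalize √(dd r y) = s at *
  rw [← this, norm_div, norm_div]
  ring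

lemma q2 (hy : y ∈ St r) (n g : ℂ) : (dd r y * ‖n‖) ^ 2 / (dd r y * ‖g‖) ^ 2 = ‖n / g‖ ^ 2 := by
  rw [← div_pow, mul_div_mul_left _ _ (dd_pos hy).ne', norm_div]

lemma isOpen_St (r : ℝ) : IsOpen (St r) := isOpen_lt (by fun_prop) continuous_const

lemma TT_cont (H : SD r θ h g Q c C) : ContinuousOn (TT r 1 g) (St r) :=
  (H.ang.continuousOn.norm.pow 2).add ((continuousOn_const.mul ((dd_cont r).continuousOn.pow 2)).mul
    (H.ang.deriv.continuousOn.norm.pow 2))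

lemma uj1 {K : ℝ} (H : SD r θ h g Q c C) (hN : AnalyticOnNhd ℂ N (St r)) (hy : y ∈ St r)
    (hM : u ^ 6 ≤ M) (he : ‖deriv N y * g y - N y * deriv g y‖ ≤ u)
    (hT : √(dd r y) ≤ u ^ 2 * TT r 1 g y) (h5 : TT r 1 g y / 5 < ‖g y‖ ^ 2) (hK : 25 * r ≤ K)
    (h4 : 80 * r ^ 2 + 4 * (C + 4) ^ 2 + 40 * (C + 4) * r + 4 * K ≤ C' * r ^ 2) :
    UJ (A1 r u M C' N g) y 0 := by
  have T0 := TT_pos H hy
  have g0 : g y ≠ 0 := fun e => by
    rw [e, norm_zero] at h5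
    linarith
  have gp := norm_pos_iff.2 g0
  have hd := Real.sq_sqrt (dd_pos hy).le
  have hs := Real.sqrt_pos.2 (dd_pos hy)
  have hr := sqrt_le H.r0 y
  have hF : ‖deriv g y / g y‖ * √(dd r y) ^ 2 ≤ 2 := by
    rw [hd, norm_div, div_mul_eq_mul_div, div_le_iff₀ gp]
    refine (sq_le_sq₀ (by have := dd_pos hy; positivity) (by positivity)).1 ?_
    rw [TT_eq] at h5
    linarith
  refine (core (K := K) (C₁ := C + 4) (C' := C') (M := M) hy ((hN y hy).div (H.ang y hy) g0)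
    ((H.ang y hy).deriv.div (H.ang y hy) g0) (le_trans (by positivity) hM) hF ?_ ?_ h4).congr ?_
  · have e : deriv (deriv g / g) y = Q y - (deriv g y / g y) ^ 2 := by
      rw [deriv_div (H.ang y hy).deriv.differentiableAt (H.ang y hy).differentiableAt g0,
        H.ode y hy]
      field_simp
    have b1 := H.bQ y hy
    have b2 := norm_sub_le (Q y) ((deriv g y / g y) ^ 2)
    rw [e, show (4 : ℕ) = 2 * 2 from rfl, pow_mul, hd]
    rw [hd] at hF
    rw [norm_pow] at b2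
    nlinarith [pow_le_pow_left₀ (by have := dd_pos hy; positivity) hF 2,
      mul_le_mul_of_nonneg_right b2 (sq_nonneg (dd r y))]
  · rw [deriv_div (hN y hy).differentiableAt (H.ang y hy).differentiableAt g0, norm_div, norm_pow,
      div_pow, div_mul_eq_mul_div, div_le_iff₀ (by positivity)]
    generalize √(dd r y) = s at *
    have b1 : s ≤ 5 * u ^ 2 * ‖g y‖ ^ 2 := by nlinarith [sq_nonneg u]
    have hu := (norm_nonneg _).trans he
    calc _ ≤ u ^ 2 * s ^ 3 := by gcongr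
      _ = u ^ 2 * s * s ^ 2 := by ring
      _ ≤ u ^ 2 * r * (5 * u ^ 2 * ‖g y‖ ^ 2) ^ 2 := by have := H.r0; gcongr
      _ = u ^ 6 * (25 * r) * (‖g y‖ ^ 2) ^ 2 := by ring
      _ ≤ _ := by gcongr <;> linarith [pow_nonneg hu 6]
  · have hS := (isOpen_St r).mem_nhds hy
    filter_upwards [hS, (((TT_cont H).continuousAt hS).div_const 5).eventually_lt
      ((H.ang y hy).continuousAt.norm.pow 2) h5] with x hx h6
    rw [A1, ch_eq (a := ‖g x‖ ^ 2) (TT_pos H hx) h6.le, q1 hx]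
    rfl

lemma uj2 {K : ℝ} {e : ℂ} (H : SD r θ h g Q c C) (hN : AnalyticOnNhd ℂ N (St r)) (hy : y ∈ St r)
    (hu : 1 ≤ u) (hM : u ^ 6 ≤ M) (he : ‖deriv N y * g y - N y * deriv g y‖ ≤ u)
    (h2 : deriv (deriv N) y = Q y * N y + e) (he' : ‖e‖ ≤ u)
    (hT : √(dd r y) ≤ u ^ 2 * TT r 1 g y) (h5 : TT r 1 g y / 5 < (dd r y * ‖deriv g y‖) ^ 2)
    (hK : 10 * r ^ 6 + 50 * C ^ 2 * r ≤ K)
    (h4 : 80 * r ^ 2 + 4 * (C + 4) ^ 2 + 40 * (C + 4) * r + 4 * K ≤ C' * r ^ 2) :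
    UJ (A2 r u M C' N g) y 0 := by
  have T0 := TT_pos H hy
  have g0 : deriv g y ≠ 0 := fun e => by
    rw [e, norm_zero] at h5
    linarith
  have gp := norm_pos_iff.2 g0
  have hd := Real.sq_sqrt (dd_pos hy).le
  have hs := Real.sqrt_pos.2 (dd_pos hy)
  have hr := sqrt_le H.r0 y
  have b1 := H.bQ y hy
  have C0 : 0 ≤ C := le_trans (by positivity) b1
  refine (core (F := fun _ => 0) (K := K) (C₁ := C + 4) (C' := C' + 1) (M := M) hy
    ((hN y hy).deriv.div (H.ang y hy).deriv g0) analyticAt_const (le_trans (by positivity) hM)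
    (by simp) (by simp; linarith) ?_ (by linarith [sq_nonneg r])).congr ?_
  · have e1 : deriv (deriv N / deriv g) y =
        e / deriv g y - Q y * (deriv N y * g y - N y * deriv g y) / deriv g y ^ 2 := by
      rw [deriv_div (hN y hy).deriv.differentiableAt (H.ang y hy).deriv.differentiableAt g0,
        H.ode y hy, h2]
      field_simp
      ring
    rw [e1]
    rw [← hd] at b1 h5
    generalize √(dd r y) = s at *
    obtain ⟨v, hv⟩ : ∃ v, v = (s ^ 2 * ‖deriv g y‖)⁻¹ := ⟨_, rfl⟩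
    have v0 : 0 < v := by rw [hv]; positivity
    have b2 : v ^ 2 * s ≤ 5 * u ^ 2 := by
      rw [hv, inv_pow, inv_mul_le_iff₀ (by positivity)]
      nlinarith [sq_nonneg u]
    have b3 : ‖e / deriv g y - Q y * (deriv N y * g y - N y * deriv g y) / deriv g y ^ 2‖ ≤
        u * (s ^ 2 * v + C * v ^ 2) := by
      refine (norm_sub_le _ _).trans ?_
      rw [norm_div, norm_div, norm_mul, norm_pow]
      calc _ = ‖e‖ * (s ^ 2 * v) + ‖deriv N y * g y - N y * deriv g y‖ *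
            (‖Q y‖ * (s ^ 2) ^ 2 * v ^ 2) := by
            rw [hv]
            field_simp
        _ ≤ u * (s ^ 2 * v) + u * (C * v ^ 2) := by gcongr
        _ = _ := by ring
    have r0 := H.r0
    calc _ ≤ (u * (s ^ 2 * v + C * v ^ 2)) ^ 2 * s ^ 3 := by gcongr
      _ ≤ u ^ 2 * (2 * (s ^ 2 * v) ^ 2 + 2 * (C * v ^ 2) ^ 2) * s ^ 3 := by
        rw [mul_pow]
        gcongr
        nlinarith [sq_nonneg (s ^ 2 * v - C * v ^ 2)]
      _ = u ^ 2 * (2 * s ^ 6 * (v ^ 2 * s) * 1 + 2 * C ^ 2 * s * (v ^ 2 * s) ^ 2) := by ring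
      _ ≤ u ^ 2 * (2 * r ^ 6 * (5 * u ^ 2) * u ^ 2 + 2 * C ^ 2 * r * (5 * u ^ 2) ^ 2) := by
        gcongr
        exact one_le_pow₀ hu
      _ = u ^ 6 * (10 * r ^ 6 + 50 * C ^ 2 * r) := by ring
      _ ≤ _ := by gcongr; exact le_trans (by positivity) hM
  · have hS := (isOpen_St r).mem_nhds hy
    filter_upwards [hS, (((TT_cont H).continuousAt hS).div_const 5).eventually_lt
      (((dd_cont r).continuousAt.mul (H.ang y hy).deriv.continuousAt.norm).pow 2) h5] with x hx h6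
    rw [A2, ch_eq (a := (dd r x * ‖deriv g x‖) ^ 2) (TT_pos H hx) h6.le, q2 hx]
    simp

lemma TT_coe (r : ℝ) (g : ℂ → ℂ) (y : ℂ) : (TT r 1 g y : ℂ) =
    g y * conj (g y) + (dd r y : ℂ) ^ 2 * (deriv g y * conj (deriv g y)) := by
  rw [TT_eq, Complex.mul_conj', Complex.mul_conj']
  push_cast
  ring

section

variable (H : SD r θ h g Q c C) (hy : y ∈ St r) (hu : 1 + 3 * r ≤ u)
  (hM : M = 2 * (20 + 100 * r) * u ^ 7) (he : ‖deriv N y * g y - N y * deriv g y‖ ≤ u)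
  (hT : √(dd r y) ≤ u ^ 2 * TT r 1 g y) (hC : 0 ≤ C')

include H hy hu hM he hT hC

lemma pt1 (hc : A1 r u M C' N g y ≤ A2 r u M C' N g y) (hlt : A1 r u M C' N g y < u ^ 8) :
    TT r 1 g y / 5 < ‖g y‖ ^ 2 ∧
      ‖N y * conj (g y) + (dd r y : ℂ) ^ 2 * deriv N y * conj (deriv g y)‖ ≤ u ^ 5 * TT r 1 g y := by
  have T0 := TT_pos H hy
  have d0 := dd_pos hy
  have hd := Real.sq_sqrt d0.le
  have hs := Real.sqrt_pos.2 d0
  have hr := sqrt_le H.r0 y
  have r0 := H.r0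
  have u1 : 1 ≤ u := by linarith
  have M0 : 0 < M := by rw [hM]; positivity
  have Ms : 0 < M * √(dd r y) := by positivity
  have hTe := TT_eq r g y
  have hM' : (20 + 100 * r) * u ^ 7 * √(dd r y) = M * √(dd r y) / 2 := by rw [hM]; ring
  have MC : 0 ≤ M * C' * √(dd r y) := by positivity
  rw [A1] at hlt
  obtain ⟨a1, a2⟩ := ch_lt T0 (by positivity) (by positivity)
    ((le_add_of_nonneg_right MC).trans_lt hlt)
  rw [q1 hy] at a2
  have g0 : g y ≠ 0 := fun e => by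
    rw [e, norm_zero] at a1
    linarith
  have gp := norm_pos_iff.2 g0
  have hz : ‖N y / g y‖ ^ 2 ≤ u ^ 8 := by
    linarith [show 0 ≤ M * (√(dd r y) ^ 5 * ‖deriv g y / g y‖ ^ 2) by positivity]
  refine ⟨not_le.1 fun h5 => ?_, ?_⟩
  · rw [A1, A2, ch_eq (a := (dd r y * ‖deriv g y‖) ^ 2) T0 (by linarith), q2 hy] at hc
    have b1 := sqd u1 hs hr hz (dif hs T0 hT he a1 (by rw [hd]; linarith))
    have b2 : 4 * √(dd r y) ≤ √(dd r y) ^ 5 * ‖deriv g y / g y‖ ^ 2 := by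
      rw [norm_div, div_pow, ← mul_div_assoc, le_div_iff₀ (by positivity)]
      rw [← hd] at hTe
      linarith [mul_le_mul_of_nonneg_left h5 hs.le, congrArg (√(dd r y) * ·) hTe]
    linarith [mul_le_mul_of_nonneg_left b2 M0.le]
  · refine le_of_eq_of_le (congrArg norm ?_) (Ibd (q := (dd r y : ℂ) ^ 2 * conj (deriv g y) / g y)
      hu hs hr hT T0 hz he ?_)
    · rw [TT_coe]
      field_simp
      ring
    · have : dd r y * ‖deriv g y‖ ≤ 3 * ‖g y‖ :=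
        (sq_le_sq₀ (by positivity) (by positivity)).1 (by linarith)
      rw [norm_div, norm_mul, norm_pow, Complex.norm_conj, Complex.norm_of_nonneg d0.le, hd,
        div_le_iff₀ gp]
      linarith [mul_le_mul_of_nonneg_left this d0.le]

lemma pt2 (hc : A2 r u M C' N g y ≤ A1 r u M C' N g y) (hlt : A2 r u M C' N g y < u ^ 8) :
    TT r 1 g y / 5 < (dd r y * ‖deriv g y‖) ^ 2 ∧
      ‖N y * conj (g y) + (dd r y : ℂ) ^ 2 * deriv N y * conj (deriv g y)‖ ≤ u ^ 5 * TT r 1 g y := by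
  have T0 := TT_pos H hy
  have d0 := dd_pos hy
  have hd := Real.sq_sqrt d0.le
  have hs := Real.sqrt_pos.2 d0
  have hr := sqrt_le H.r0 y
  have r0 := H.r0
  have u1 : 1 ≤ u := by linarith
  have M0 : 0 < M := by rw [hM]; positivity
  have Ms : 0 < M * √(dd r y) := by positivity
  have hTe := TT_eq r g y
  have hM' : (20 + 100 * r) * u ^ 7 * √(dd r y) = M * √(dd r y) / 2 := by rw [hM]; ring
  have MC : 0 ≤ M * (C' + 1) * √(dd r y) := by positivity
  rw [A2] at hlt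
  obtain ⟨a1, a2⟩ := ch_lt T0 (by positivity) (by positivity)
    ((le_add_of_nonneg_right MC).trans_lt hlt)
  rw [q2 hy] at a2
  have g0 : deriv g y ≠ 0 := fun e => by
    rw [e, norm_zero] at a1
    linarith
  have gp := norm_pos_iff.2 g0
  have hz : ‖deriv N y / deriv g y‖ ^ 2 ≤ u ^ 8 := by linarith
  refine ⟨not_le.1 fun h5 => ?_, ?_⟩
  · rw [A1, A2, ch_eq (a := ‖g y‖ ^ 2) T0 (by linarith), q1 hy] at hc
    have b1 := sqd u1 hs hr hz ((norm_sub_rev _ _).trans_le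
      (dif hs T0 hT he (by linarith) (by rw [hd]; linarith)))
    have b2 : √(dd r y) ^ 5 * ‖deriv g y / g y‖ ^ 2 ≤ √(dd r y) / 4 := by
      rw [norm_div, div_pow, ← mul_div_assoc]
      refine div_le_of_le_mul₀ (by positivity) (by positivity) ?_
      rw [← hd] at hTe h5
      linarith [mul_le_mul_of_nonneg_left h5 hs.le, congrArg (√(dd r y) * ·) hTe]
    linarith [mul_le_mul_of_nonneg_left b2 M0.le]
  · refine le_of_eq_of_le (congrArg norm ?_) (Ibd (q := -conj (g y) / deriv g y)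
      hu hs hr hT T0 hz he ?_)
    · rw [TT_coe]
      field_simp
      ring
    · have : ‖g y‖ ≤ 3 * (dd r y * ‖deriv g y‖) :=
        (sq_le_sq₀ (by positivity) (by positivity)).1 (by linarith)
      rw [norm_div, norm_neg, Complex.norm_conj, hd, div_le_iff₀ gp]
      linarith

end

lemma bnd (H : SD r θ h g Q c C) (hy : y ∈ St r) (hM : 0 ≤ M) (hC : 0 ≤ C') :
    min (A1 r u M C' N g y) (A2 r u M C' N g y) ≤
      5 * (‖N y‖ ^ 2 + (dd r y * ‖deriv N y‖) ^ 2) / TT r 1 g y + M * (C' + 1) * r := by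
  have T0 := TT_pos H hy
  have hTe := TT_eq r g y
  have b0 : M * (C' + 1) * √(dd r y) ≤ M * (C' + 1) * r := by
    gcongr
    exact sqrt_le H.r0 y
  have b1 : ∀ p a : ℝ, 0 ≤ p → p ≤ ‖N y‖ ^ 2 + (dd r y * ‖deriv N y‖) ^ 2 → TT r 1 g y / 5 ≤ a →
      p / a ≤ 5 * (‖N y‖ ^ 2 + (dd r y * ‖deriv N y‖) ^ 2) / TT r 1 g y := fun p a h0 h1 h2 => by
    rw [mul_comm, ← div_div_eq_mul_div]
    gcongr
  rcases le_total ((dd r y * ‖deriv g y‖) ^ 2) (‖g y‖ ^ 2) with hc | hc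
  · refine (min_le_left _ _).trans ?_
    have h5 : TT r 1 g y / 5 ≤ ‖g y‖ ^ 2 := by linarith
    have : M * √(dd r y) * (dd r y * ‖deriv g y‖) ^ 2 / ‖g y‖ ^ 2 ≤ M * √(dd r y) :=
      div_le_of_le_mul₀ (by positivity) (by positivity) (by gcongr)
    rw [A1, ch_eq T0 h5, add_div]
    linarith [b1 _ _ (sq_nonneg _) (le_add_of_nonneg_right (sq_nonneg _)) h5]
  · refine (min_le_right _ _).trans ?_
    have h5 : TT r 1 g y / 5 ≤ (dd r y * ‖deriv g y‖) ^ 2 := by linarith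
    rw [A2, ch_eq T0 h5]
    linarith [b1 _ _ (sq_nonneg _) (le_add_of_nonneg_left (sq_nonneg _)) h5]

end Anc

open Anc in
theorem anc : Spec_ANC := by
  intro r c C θ h g Q H N E E₁ hN hE hE₁ F ε hε
  have r0 := H.r0
  obtain ⟨K, hK⟩ : ∃ K, K = 25 * r + (10 * r ^ 6 + 50 * C ^ 2 * r) := ⟨_, rfl⟩
  obtain ⟨C', hC'⟩ : ∃ C', C' = (80 * r ^ 2 + 4 * (C + 4) ^ 2 + 40 * (C + 4) * r + 4 * K) / r ^ 2 :=
    ⟨_, rfl⟩
  have C0 : 0 ≤ C := le_trans (by positivity) (H.bQ 0 (by simpa [St] using r0))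
  have hC : 0 ≤ C' := by rw [hC', hK]; positivity
  have h4 : 80 * r ^ 2 + 4 * (C + 4) ^ 2 + 40 * (C + 4) * r + 4 * K ≤ C' * r ^ 2 := by
    rw [hC', div_mul_cancel₀ _ (by positivity)]
  let L : ℝ → ℝ := fun t => 5 * (‖N t‖ ^ 2 + (dd r t * ‖deriv N t‖) ^ 2) / TT r 1 g t +
    2 * (20 + 100 * r) * (C' + 1) * r
  have hR : ∀ t : ℝ, (t : ℂ) ∈ St r := fun t => by simpa [St] using r0
  have L0 : ∀ t, 0 ≤ L t / ε := fun t => by
    have := TT_pos H (hR t)
    positivity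
  refine ⟨3 * r + ∑ t ∈ F, L t / ε, fun lam hl => ?_⟩
  have hs := Finset.sum_nonneg fun t (_ : t ∈ F) => L0 t
  have h1 := Real.add_one_le_exp lam
  have e2 : Real.exp (-2 * lam) = (Real.exp lam ^ 2)⁻¹ := by
    rw [← Real.exp_nat_mul, ← Real.exp_neg]
    norm_num
  have e5 : Real.exp (5 * lam) = Real.exp lam ^ 5 := by
    rw [← Real.exp_nat_mul]
    norm_num
  rw [e2, e5]
  generalize Real.exp lam = u at *
  have hu : 1 + 3 * r ≤ u := by linarith
  have u1 : 1 ≤ u := by linarith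
  obtain ⟨M, hM⟩ : ∃ M, M = 2 * (20 + 100 * r) * u ^ 7 := ⟨_, rfl⟩
  have M0 : 0 ≤ M := by rw [hM]; positivity
  have cd := (dd_cont r).continuousOn (s := St r)
  have cg := (cd.mul H.ang.deriv.continuousOn.norm).pow 2
  refine ⟨fun y => (u ^ 8)⁻¹ * min (A1 r u M C' N g y) (A2 r u M C' N g y),
    ⟨continuousOn_const.mul fun y hy => Tendsto.min ?_ ?_, fun y hy => ?_⟩, fun t ht => ?_,
    fun y hy he hT hW => ?_⟩
  · exact (ch_cont ((hN.continuousOn.norm.pow 2).add ((continuousOn_const.mul cd.sqrt).mul cg))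
      (H.ang.continuousOn.norm.pow 2) (TT_cont H) fun _ => TT_pos H).add
      (continuousOn_const.mul cd.sqrt) y hy
  · exact (ch_cont ((cd.mul hN.deriv.continuousOn.norm).pow 2) cg (TT_cont H) fun _ => TT_pos H).add
      (continuousOn_const.mul cd.sqrt) y hy
  · have T0 := TT_pos H hy
    exact mul_nonneg (by positivity) (le_min
      (add_nonneg (ch_nonneg T0 (by positivity) (by positivity)) (by positivity))
      (add_nonneg (ch_nonneg T0 (by positivity) (by positivity)) (by positivity)))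
  · have b1 : L t / ε ≤ u := (Finset.single_le_sum (fun t _ => L0 t) ht).trans (by linarith)
    have T0 := TT_pos H (hR t)
    rw [inv_mul_le_iff₀ (by positivity)]
    refine (bnd H (hR t) M0 hC).trans (le_trans (b := u ^ 7 * L t) ?_ ?_)
    · simp only [L, hM, mul_add (u ^ 7)]
      exact add_le_add (le_mul_of_one_le_left (by positivity) (one_le_pow₀ u1)) (le_of_eq (by ring))
    · rw [pow_succ u 7, mul_assoc]
      gcongr
      exact (div_le_iff₀ hε).1 b1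
  · rw [inv_mul_lt_iff₀ (by positivity), mul_one] at hW
    rw [inv_mul_le_iff₀ (by positivity)] at hT
    have he' := (hE₁ y hy).2.trans he
    rw [← hE y hy] at he
    have M6 : u ^ 6 ≤ M := by
      rw [hM]
      exact (pow_le_pow_right₀ u1 (by norm_num)).trans
        (le_mul_of_one_le_left (by positivity) (by linarith))
    have key : ∀ {P : Prop}, UJ (fun x => min (A1 r u M C' N g x) (A2 r u M C' N g x)) y 0 → P →
        UJ (fun x => (u ^ 8)⁻¹ * min (A1 r u M C' N g x) (A2 r u M C' N g x)) y 0 ∧ P :=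
      fun j p => ⟨by simpa using j.smul (k := (u ^ 8)⁻¹) (by positivity), p⟩
    rcases le_total (A1 r u M C' N g y) (A2 r u M C' N g y) with hc | hc
    · have := pt1 H hy hu hM he hT hC hc (min_eq_left hc ▸ hW)
      exact key ((uj1 H hN hy M6 he hT this.1 (by rw [hK]; exact le_add_of_nonneg_right (by positivity))
        h4).min_left hc) this.2
    · have := pt2 H hy hu hM he hT hC hc (min_eq_right hc ▸ hW)
      exact key ((uj2 H hN hy u1 M6 he (hE₁ y hy).1 he' hT this.1 (by linarith) h4).min_right hc) this.2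

end Vale.Agent.P097C
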