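import Mathlib

/-!
# P097C: Cauchy estimates on the strip and the pointwise form of the no-calm-disc property
-/

open Set Metric Filter Topology

namespace Vale.Agent.P097C

theorem abs_im_le_of_mem {y z : ℂ} {ρ : ℝ} (hz : z ∈ closedBall y ρ) : |z.im| ≤ |y.im| + ρ := by
  have h1 : |(z - y).im| ≤ ρ := (Complex.abs_im_le_norm _).trans (mem_closedBall_iff_norm.1 hz)
  have h2 : z.im = y.im + (z - y).im := by simp
  rw [h2]
  exact (abs_add_le _ _).trans (by linarith)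

theorem d_lower {r : ℝ} {y : ℂ} (hy : |y.im| < r) : r * (r - |y.im|) ≤ r ^ 2 - y.im ^ 2 := by
  rw [← sq_abs y.im]
  nlinarith [abs_nonneg y.im]

theorem d_upper {r : ℝ} {y : ℂ} (hy : |y.im| < r) : r ^ 2 - y.im ^ 2 ≤ 2 * r * (r - |y.im|) := by
  rw [← sq_abs y.im]
  nlinarith [abs_nonneg y.im]

/-- Cauchy estimate at the scale of the distance to the boundary of the strip. -/
theorem cau_dist {r C : ℝ} {Q : ℂ → ℂ} (hQ : AnalyticOnNhd ℂ Q {y | |y.im| < r})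
    (hC : ∀ y : ℂ, |y.im| < r → ‖Q y‖ * (r ^ 2 - y.im ^ 2) ^ 2 ≤ C) (j : ℕ) {y : ℂ}
    (hy : |y.im| < r) :
    (r - |y.im|) ^ (j + 2) * ‖iteratedDeriv j Q y‖ ≤ j.factorial * 2 ^ j * (4 * C / r ^ 2) := by
  set t := r - |y.im| with ht
  have ht0 : 0 < t := sub_pos.2 hy
  have hr : 0 < r := (abs_nonneg _).trans_lt hy
  have hsub : ∀ z ∈ closedBall y (t / 2), |z.im| < r := fun z hz =>
    (abs_im_le_of_mem hz).trans_lt (by linarith)
  have hb : ∀ z ∈ sphere y (t / 2), ‖Q z‖ ≤ 4 * C / r ^ 2 / t ^ 2 := by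
    intro z hz
    have h1 := abs_im_le_of_mem (sphere_subset_closedBall hz)
    have h2 := hsub z (sphere_subset_closedBall hz)
    have h3 : r * (t / 2) ≤ r ^ 2 - z.im ^ 2 :=
      (mul_le_mul_of_nonneg_left (by linarith) hr.le).trans (d_lower h2)
    have h4 : ‖Q z‖ * (r * (t / 2)) ^ 2 ≤ C :=
      (mul_le_mul_of_nonneg_left (pow_le_pow_left₀ (by positivity) h3 2) (norm_nonneg _)).trans
        (hC z h2)
    rw [div_div, le_div_iff₀ (by positivity)]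
    nlinarith
  have hd : DiffContOnCl ℂ Q (ball y (t / 2)) := by
    refine DifferentiableOn.diffContOnCl ?_
    rw [closure_ball _ (by positivity)]
    exact fun z hz => (hQ z (hsub z hz)).differentiableAt.differentiableWithinAt
  have h := Complex.norm_iteratedDeriv_le_of_forall_mem_sphere_norm_le j (by positivity) hd hb
  refine (mul_le_mul_of_nonneg_left h (by positivity)).trans_eq ?_
  rw [div_pow]
  field_simp
  ring

/-- **CAU** -/
theorem cau {r C : ℝ} {Q : ℂ → ℂ} (hQ : AnalyticOnNhd ℂ Q {y | |y.im| < r})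
    (hC : ∀ y : ℂ, |y.im| < r → ‖Q y‖ * (r ^ 2 - y.im ^ 2) ^ 2 ≤ C) (j : ℕ) :
    ∃ Cj : ℝ, ∀ y : ℂ, |y.im| < r →
      (r ^ 2 - y.im ^ 2) ^ (j + 2) * ‖iteratedDeriv j Q y‖ ≤ Cj := by
  refine ⟨(2 * r) ^ (j + 2) * (j.factorial * 2 ^ j * (4 * C / r ^ 2)), fun y hy => ?_⟩
  have hr : 0 < r := (abs_nonneg _).trans_lt hy
  have h0 : 0 ≤ r ^ 2 - y.im ^ 2 :=
    (mul_nonneg hr.le (sub_pos.2 hy).le).trans (d_lower hy)
  refine (mul_le_mul_of_nonneg_right (pow_le_pow_left₀ h0 (d_upper hy) _) (norm_nonneg _)).trans ?_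
  rw [mul_pow, mul_assoc]
  exact mul_le_mul_of_nonneg_left (cau_dist hQ hC j hy) (by positivity)

/-- A solution of `g'' = Q g` with small `Q` is controlled on a disc by its 1-jet. -/
theorem norm_le_of_ode {Q g : ℂ → ℂ} {y : ℂ} {ρ K : ℝ} (hρ : 0 ≤ ρ)
    (hg : AnalyticOnNhd ℂ g (closedBall y ρ))
    (hode : ∀ z ∈ closedBall y ρ, deriv (deriv g) z = Q z * g z)
    (hK : ∀ z ∈ closedBall y ρ, ‖Q z‖ ≤ K) (hKρ : K * ρ ^ 2 ≤ 1 / 2) :
    ∀ z ∈ closedBall y ρ, ‖g z‖ ≤ 2 * (‖g y‖ + ρ * ‖deriv g y‖) := by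
  obtain ⟨z₀, hz₀, hmax⟩ := (isCompact_closedBall y ρ).exists_isMaxOn ⟨y, mem_closedBall_self hρ⟩
    hg.continuousOn.norm
  have hy : y ∈ closedBall y ρ := mem_closedBall_self hρ
  have hK0 : 0 ≤ K := (norm_nonneg _).trans (hK y hy)
  have h1 : ∀ z ∈ closedBall y ρ, ‖deriv g z‖ ≤ ‖deriv g y‖ + K * ‖g z₀‖ * ρ := by
    intro z hz
    have := (convex_closedBall y ρ).norm_image_sub_le_of_norm_deriv_le (C := K * ‖g z₀‖)
      (fun x hx => (hg.deriv x hx).differentiableAt) (fun x hx => by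
        rw [hode x hx, norm_mul]
        exact mul_le_mul (hK x hx) (hmax hx) (norm_nonneg _) hK0) hy hz
    have h2 := norm_sub_norm_le (deriv g z) (deriv g y)
    have h3 : K * ‖g z₀‖ * ‖z - y‖ ≤ K * ‖g z₀‖ * ρ :=
      mul_le_mul_of_nonneg_left (mem_closedBall_iff_norm.1 hz) (by positivity)
    linarith
  have h2 := (convex_closedBall y ρ).norm_image_sub_le_of_norm_deriv_le
    (fun x hx => (hg x hx).differentiableAt) h1 hy hz₀
  have h3 : (‖deriv g y‖ + K * ‖g z₀‖ * ρ) * ‖z₀ - y‖ ≤ (‖deriv g y‖ + K * ‖g z₀‖ * ρ) * ρ :=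
    mul_le_mul_of_nonneg_left (mem_closedBall_iff_norm.1 hz₀) (by positivity)
  have h4 := norm_sub_norm_le (g z₀) (g y)
  have h5 : K * ρ ^ 2 * ‖g z₀‖ ≤ 1 / 2 * ‖g z₀‖ := mul_le_mul_of_nonneg_right hKρ (norm_nonneg _)
  intro z hz
  have h6 : ‖g z‖ ≤ ‖g z₀‖ := hmax hz
  nlinarith

/-- Small derivatives up to order `k` make `Q` small on the disc of radius `dist / 8`. -/
theorem norm_le_of_jets {r C ε : ℝ} {Q : ℂ → ℂ} (hQ : AnalyticOnNhd ℂ Q {y | |y.im| < r})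
    (hC : ∀ y : ℂ, |y.im| < r → ‖Q y‖ * (r ^ 2 - y.im ^ 2) ^ 2 ≤ C) {k : ℕ}
    (hk : 4 * C / r ^ 2 * (1 / 2) ^ k ≤ ε / 2) {y : ℂ} (hy : |y.im| < r)
    (hj : ∀ j ≤ k, (r - |y.im|) ^ (j + 2) * ‖iteratedDeriv j Q y‖ ≤ ε / 2) :
    ∀ z ∈ ball y ((r - |y.im|) / 8), ‖Q z‖ * (r - |y.im|) ^ 2 ≤ ε := by
  intro z hz
  have hcau := fun j => cau_dist hQ hC j hy
  set t := r - |y.im| with ht
  have ht0 : 0 < t := sub_pos.2 hy
  have hd : DifferentiableOn ℂ Q (ball y (t / 8)) := fun x hx =>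
    (hQ x ((abs_im_le_of_mem (ball_subset_closedBall hx)).trans_lt
      (by linarith))).differentiableAt.differentiableWithinAt
  have hs := Complex.hasSum_taylorSeries_on_ball hd hz
  have hM : 0 ≤ 4 * C / r ^ 2 := by
    have := (by positivity : 0 ≤ t ^ (0 + 2) * ‖iteratedDeriv 0 Q y‖).trans (hcau 0)
    simpa using this
  have hε : 0 ≤ ε / 2 := le_trans (by positivity) hk
  have hb : ∀ j : ℕ, ‖(j.factorial : ℂ)⁻¹ • (z - y) ^ j • iteratedDeriv j Q y‖ ≤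
      ε / 2 / t ^ 2 * (1 / 2) ^ j := by
    intro j
    have hf : (1 : ℝ) ≤ j.factorial := by exact_mod_cast j.factorial_pos
    have h1 : ‖z - y‖ ^ j ≤ (t / 8) ^ j :=
      pow_le_pow_left₀ (norm_nonneg _) (mem_ball_iff_norm.1 hz).le j
    rw [norm_smul, norm_smul, norm_inv, norm_pow, Complex.norm_natCast]
    refine (mul_le_mul_of_nonneg_left (mul_le_mul_of_nonneg_right h1 (norm_nonneg _))
      (by positivity)).trans ?_
    have h2 : (j.factorial : ℝ)⁻¹ * ((t / 8) ^ j * ‖iteratedDeriv j Q y‖) =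
        (t ^ (j + 2) * ‖iteratedDeriv j Q y‖ / (j.factorial * 4 ^ j)) / t ^ 2 * (1 / 2) ^ j := by
      rw [show (8 : ℝ) = 4 * 2 by norm_num, div_pow, mul_pow, one_div_pow]
      field_simp
      ring
    rw [h2]
    refine mul_le_mul_of_nonneg_right (div_le_div_of_nonneg_right ?_ (by positivity))
      (by positivity)
    rw [div_le_iff₀ (by positivity)]
    have h4 : (1 : ℝ) ≤ 4 ^ j := one_le_pow₀ (by norm_num)
    by_cases hjk : j ≤ k
    · exact (hj j hjk).trans (le_mul_of_one_le_right hε (one_le_mul_of_one_le_of_one_le hf h4))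
    · refine (hcau j).trans ?_
      have h5 : (1 / 2 : ℝ) ^ j ≤ (1 / 2) ^ k :=
        pow_le_pow_of_le_one (by norm_num) (by norm_num) (by omega)
      have h6 : 4 * C / r ^ 2 * (1 / 2) ^ j ≤ ε / 2 := (mul_le_mul_of_nonneg_left h5 hM).trans hk
      have h7 : (j.factorial : ℝ) * 2 ^ j * (4 * C / r ^ 2) =
          4 * C / r ^ 2 * (1 / 2) ^ j * (j.factorial * 4 ^ j) := by
        rw [show (4 : ℝ) ^ j = 2 ^ j * 2 ^ j by rw [← mul_pow]; norm_num, one_div_pow]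
        field_simp
      rw [h7]
      exact mul_le_mul_of_nonneg_right h6 (by positivity)
  have h := hs.norm_le_of_bounded (hasSum_geometric_two.mul_left (ε / 2 / t ^ 2)) hb
  rw [← le_div_iff₀ (by positivity)]
  refine h.trans_eq ?_
  ring

/-- **NCP** -/
theorem ncp {r C : ℝ} {Q g : ℂ → ℂ} (hQ : AnalyticOnNhd ℂ Q {y | |y.im| < r})
    (hg : AnalyticOnNhd ℂ g {y | |y.im| < r})
    (hode : ∀ y : ℂ, |y.im| < r → deriv (deriv g) y = Q y * g y)
    (hC : ∀ y : ℂ, |y.im| < r → ‖Q y‖ * (r ^ 2 - y.im ^ 2) ^ 2 ≤ C)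
    (hNC : ∃ ε d₁ : ℝ, 0 < ε ∧ 0 < d₁ ∧ ∀ y₀ : ℂ, |y₀.im| < r → r ^ 2 - y₀.im ^ 2 < d₁ →
      ¬ ∀ y ∈ ball y₀ ((r - |y₀.im|) / 8),
        ‖Q y‖ * (r - |y₀.im|) ^ 2 ≤ ε ∧ ‖g y‖ * (r - |y₀.im|) ≤ ε) (A : ℝ) :
    ∃ (k : ℕ) (c d₁ : ℝ), 0 < c ∧ 0 < d₁ ∧ ∀ y : ℂ, |y.im| < r → r ^ 2 - y.im ^ 2 < d₁ →
      ‖g y‖ ≤ A → (r ^ 2 - y.im ^ 2) * ‖deriv g y‖ ≤ ‖g y‖ →
      c ≤ ∑ j ∈ Finset.range (k + 1),
        (r ^ 2 - y.im ^ 2) ^ (2 * j + 4) * ‖iteratedDeriv j Q y‖ ^ 2 := by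
  obtain ⟨ε₀, d₀, hε₀, hd₀, hNC⟩ := hNC
  rcases le_or_gt r 0 with hr | hr
  · exact ⟨0, 1, 1, one_pos, one_pos, fun y hy => absurd ((abs_nonneg _).trans_lt hy) hr.not_gt⟩
  set ε := min ε₀ 1 with hεd
  have hε : 0 < ε := lt_min hε₀ one_pos
  obtain ⟨k, hk⟩ : ∃ k : ℕ, 4 * C / r ^ 2 * (1 / 2) ^ k ≤ ε / 2 := by
    have := (tendsto_pow_atTop_nhds_zero_of_lt_one (r := (1 / 2 : ℝ)) (by norm_num)
      (by norm_num)).const_mul (4 * C / r ^ 2)
    rw [mul_zero] at this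
    exact (this.eventually_le_const (half_pos hε)).exists
  set m := min 1 r with hm
  have hm0 : 0 < m := lt_min one_pos hr
  set B := 2 * (|A| + 1) * (1 + 1 / r) with hB
  have hB0 : 0 < B := by positivity
  refine ⟨k, (ε / 2 * m ^ (k + 2)) ^ 2, min d₀ (r * ε / B), by positivity,
    lt_min hd₀ (by positivity), fun y hy hd hA hg' => ?_⟩
  by_contra hlt
  push Not at hlt
  set t := r - |y.im| with ht
  have ht0 : 0 < t := sub_pos.2 hy
  have hdl : r * t ≤ r ^ 2 - y.im ^ 2 := d_lower hy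
  have hd0 : 0 < r ^ 2 - y.im ^ 2 := (mul_pos hr ht0).trans_le hdl
  have hj : ∀ j ≤ k, t ^ (j + 2) * ‖iteratedDeriv j Q y‖ ≤ ε / 2 := by
    intro j hjk
    have h1 : (r ^ 2 - y.im ^ 2) ^ (2 * j + 4) * ‖iteratedDeriv j Q y‖ ^ 2 ≤
        (ε / 2 * m ^ (k + 2)) ^ 2 :=
      (Finset.single_le_sum (f := fun j => (r ^ 2 - y.im ^ 2) ^ (2 * j + 4) *
        ‖iteratedDeriv j Q y‖ ^ 2) (fun i _ => by positivity)
        (Finset.mem_range.2 (Nat.lt_succ_of_le hjk))).trans hlt.le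
    rw [show 2 * j + 4 = (j + 2) * 2 by ring, pow_mul, ← mul_pow] at h1
    have h2 := (pow_le_pow_iff_left₀ (by positivity) (by positivity) two_ne_zero).1 h1
    have h3 : m ^ (k + 2) ≤ r ^ (j + 2) :=
      (pow_le_pow_of_le_one hm0.le (min_le_left _ _) (by omega)).trans
        (pow_le_pow_left₀ hm0.le (min_le_right _ _) _)
    have h4 : (r * t) ^ (j + 2) * ‖iteratedDeriv j Q y‖ ≤ ε / 2 * r ^ (j + 2) :=
      ((mul_le_mul_of_nonneg_right (pow_le_pow_left₀ (by positivity) hdl _)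
        (norm_nonneg _)).trans h2).trans (mul_le_mul_of_nonneg_left h3 (by positivity))
    rw [mul_pow, mul_assoc, mul_comm (ε / 2)] at h4
    exact le_of_mul_le_mul_left h4 (by positivity)
  have hQs := norm_le_of_jets hQ hC hk hy hj
  refine hNC y hy (hd.trans_le (min_le_left _ _)) fun z hz =>
    ⟨(hQs z hz).trans (min_le_left _ _), ?_⟩
  have hρ : ‖z - y‖ < t / 8 := mem_ball_iff_norm.1 hz
  have hsub : closedBall y ‖z - y‖ ⊆ ball y (t / 8) := closedBall_subset_ball hρ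
  have hS : ∀ x ∈ closedBall y ‖z - y‖, |x.im| < r := fun x hx =>
    (abs_im_le_of_mem hx).trans_lt (by linarith)
  have h1 := norm_le_of_ode (Q := Q) (K := 1 / t ^ 2) (norm_nonneg (z - y))
    (fun x hx => hg x (hS x hx)) (fun x hx => hode x (hS x hx)) (fun x hx => by
      rw [le_div_iff₀ (by positivity)]
      exact (hQs x (hsub hx)).trans (min_le_right _ _)) (by
      rw [one_div, inv_mul_le_iff₀ (by positivity)]
      nlinarith [norm_nonneg (z - y)]) z (mem_closedBall_iff_norm.2 le_rfl)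
  have hA' : ‖g y‖ ≤ |A| + 1 := hA.trans (by linarith [le_abs_self A])
  have h2 : ‖z - y‖ * ‖deriv g y‖ ≤ (|A| + 1) * (1 / r) := by
    rw [mul_one_div, le_div_iff₀ hr]
    have h3 : r * t * ‖deriv g y‖ ≤ |A| + 1 :=
      ((mul_le_mul_of_nonneg_right hdl (norm_nonneg _)).trans hg').trans hA'
    have h4 : ‖z - y‖ * ‖deriv g y‖ ≤ t * ‖deriv g y‖ :=
      mul_le_mul_of_nonneg_right (by linarith) (norm_nonneg _)
    nlinarith
  have h3 : ‖g z‖ ≤ B := by rw [hB]; nlinarith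
  have h4 : t ≤ ε / B := by
    have := (hdl.trans hd.le).trans (min_le_right _ _)
    rw [mul_div_assoc] at this
    exact le_of_mul_le_mul_left this hr
  calc ‖g z‖ * t ≤ B * (ε / B) := mul_le_mul h3 h4 ht0.le hB0.le
    _ = ε := by field_simp
    _ ≤ ε₀ := min_le_left _ _

end Vale.Agent.P097C
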