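import Vale.Agent.P097C.Dd
import Vale.Agent.P097C.Ncp
import Vale.Agent.P097Top.Defs

/-!
# P097C: from the interface of `P097Top` to the core
-/

open Filter Topology Set Metric

namespace Vale.Agent.P097C

theorem deriv_im {f : ℂ → ℂ} {t : ℝ} (hf : DifferentiableAt ℂ f t) (h : ∀ s : ℝ, (f s).im = 0) :
    (deriv f t).im = 0 := by
  have h1 : HasDerivAt (fun s : ℝ => (f s).im) (deriv f t).im t :=
    Complex.imCLM.hasFDerivAt.comp_hasDerivAt t hf.hasDerivAt.comp_ofReal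
  rw [funext h] at h1
  exact h1.unique (hasDerivAt_const _ _)

theorem top_of (hC : Spec_CORE) : P097Top.Spec_CORE := by
  intro r c T θ H Q Y φ p n hc ⟨C, hcr⟩ ⟨e, d, e0, d0, hn⟩ hl hr
  have r0 := hc.rpos
  have an : ∀ {s : ℝ} {f : ℂ → ℂ}, DifferentiableOn ℂ f (P097T.Strip s) →
      AnalyticOnNhd ℂ f (St s) := fun h => h.analyticOnNhd (St_open _)
  have C0 : 0 ≤ C := le_trans (mul_nonneg (norm_nonneg _) (by simpa [P097Top.dp] using r0.le))
    (hcr 0 (St_zero r0)).1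
  refine hC r T c ((2 * r + 1) ^ 2 * C) θ H (deriv θ) Q Y φ p n
    ⟨r0, hc.cpos, an hc.dθ, an hc.dH, (an hc.dθ).deriv, an hc.dQ, fun _ _ => rfl, hc.ode, hc.laz,
      fun y hy => ?_, fun y hy => ?_, hc.perθ, hc.perH, hc.reθ, fun t =>
        ⟨deriv_im (an hc.dθ _ (St_real r0 t)).differentiableAt hc.reθ, hc.pos t⟩⟩
    ⟨e / 2, r * d, by positivity, by positivity, fun y hy h1 h2 => ?_⟩
    ⟨hl.odd, hl.pos, an hl.dY, an hl.dφ, an hl.dp, hl.mem, hl.perY, hl.perφ, hl.perp, hl.th, hl.pc,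
      hl.ps, fun t => (hl.re t).1, fun t => ⟨deriv_im (an hl.dY _ (St_real hl.pos t)).differentiableAt
        fun s => (hl.re s).1, (hl.sgn t).1⟩, fun t => ⟨deriv_im (an hl.dφ _
          (St_real hl.pos t)).differentiableAt fun s => (hl.re s).2.1, (hl.sgn t).2.1⟩,
      fun t => ?_, hl.wr, fun x₀ σ Z h1 h2 h3 => hr x₀ h1 ⟨σ, Z, h2, h3⟩⟩
  · have h1 : dd r y ≤ 2 * r * P097Top.dp r y := d_upper hy
    have h2 := mul_le_mul_of_nonneg_left (hcr y hy).1 (by positivity : 0 ≤ 2 * r)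
    nlinarith [mul_le_mul_of_nonneg_left h1 (norm_nonneg (deriv θ y)), mul_nonneg r0.le C0,
      mul_nonneg (sq_nonneg r) C0]
  · have h1 : dd r y ≤ 2 * r * P097Top.dp r y := d_upper hy
    have h2 := mul_le_mul_of_nonneg_left (hcr y hy).2 (by positivity : 0 ≤ (2 * r) ^ 2)
    have h3 := mul_le_mul_of_nonneg_left (pow_le_pow_left₀ (dd_pos hy).le h1 2) (norm_nonneg (Q y))
    nlinarith [mul_nonneg r0.le C0]
  · obtain ⟨z, hz, h3⟩ := hn y hy (lt_of_mul_lt_mul_left ((d_lower hy).trans_lt h1) r0.le)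
    have := h2 z hz
    simp only [P097Top.dp] at h3
    rcases h3 with h3 | h3 <;> linarith [this.1, this.2]
  · have h1 : (de n φ t).im = 0 := by
      have := (hl.re (t - 1 / n)).2.1
      push_cast at this
      simp only [de, Complex.div_ofNat_im, Complex.sub_im, (hl.re t).2.1, this]
      simp
    have h2 : de n φ t = ((de n φ t).re : ℝ) := Complex.ext (by simp) (by simpa using h1)
    rw [h2, ← Complex.ofReal_sin]
    exact ⟨Complex.ofReal_im _, by
      rw [Complex.ofReal_re]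
      exact Real.sin_pos_of_pos_of_lt_pi (hl.sgn t).2.2.1
        ((hl.sgn t).2.2.2.trans (half_lt_self Real.pi_pos))⟩

end Vale.Agent.P097C
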