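import Vale.Agent.P097C.TopA

/-!
# P097C: no exit through the top
-/

open Filter Topology Set Metric

namespace Vale.Agent.P097C
namespace Tx

variable {n : ℕ} [NeZero n] {r ρ c C : ℝ} {θ h g Q : ℂ → ℂ} {Y : ℂ → ZMod n → ℂ}
  {s l : ZMod n → (ZMod n → ℂ) → ℂ} {τ η : ZMod n → ℂ → ℂ}

/-- tame configurations, with one constant -/
structure Tm (c : ℝ) (g : ℂ → ℂ) (s l : ZMod n → (ZMod n → ℂ) → ℂ) (b : ℝ) (y : ZMod n → ℂ) :
    Prop where
  sl : ∀ j, Real.exp (-b) ≤ ‖s j y‖ ∧ ‖s j y‖ ≤ Real.exp b ∧ ‖l j y‖ ≤ Real.exp b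
  gg : ∀ j, ‖g (y j)‖ ≤ Real.exp b
  det : ∀ i, Real.exp (-b) ≤ ‖FF c g s l (piv i) y‖

lemma tm (hS : SD r θ h g Q c C) (K lam N : ℝ) : ∃ b : ℝ, 1 ≤ b ∧ ∀ y ∈ Cf n r,
    Lev r y Finset.univ N → Good r c g s l K lam {N} y → Tm c g s l b y := by
  have a1 := le_abs_self (K * lam)
  have a2 := le_abs_self (K * (lam + N))
  have a3 := le_abs_self N
  have a4 := le_abs_self C
  have p1 := abs_nonneg (K * lam)
  have p2 := abs_nonneg (K * (lam + N))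
  have p3 := abs_nonneg N
  have p4 := abs_nonneg C
  refine ⟨1 + |K * lam| + |K * (lam + N)| + |N| + |C|, by linarith, fun y hy hL hG => ⟨?_, ?_, ?_⟩⟩
  · intro j
    obtain ⟨h1, h2, h3⟩ := hG.1 j
    exact ⟨(Real.exp_le_exp.2 (by linarith)).trans h1, h2.trans (Real.exp_le_exp.2 (by linarith)),
      h3.trans (Real.exp_le_exp.2 (by linarith))⟩
  · intro j
    have h1 := hS.bg _ (hy j)
    have h2 := hL j (Finset.mem_univ j)
    have h3 : ‖g (y j)‖ * Real.exp (-N) ≤ Real.exp |C| :=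
      ((mul_le_mul_of_nonneg_left h2 (norm_nonneg _)).trans h1).trans
        (by linarith [Real.add_one_le_exp |C|])
    rw [← le_div_iff₀ (Real.exp_pos _), ← Real.exp_sub] at h3
    exact h3.trans (Real.exp_le_exp.2 (by linarith))
  · intro i
    refine (Real.exp_le_exp.2 (by linarith)).trans
      (hG.2 N (Finset.mem_singleton_self N) (piv i) ⟨i, by simp [piv]⟩ fun j _ => hL j (Finset.mem_univ j))

lemma eqs (H : AL n r ρ c θ h g Y s l τ η) {x : ℂ} (hx : x ∈ St ρ) :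
    Eqs c (fun j => s j (Y x)) (fun j => l j (Y x)) (fun j => g (Y x j)) (fun j => τ j x)
      (fun j => η j x) fun j => deriv (fun x => Y x j) x :=
  ⟨fun j => H.eqE j x hx, fun j => H.eqθ j x hx, fun j => H.eqη j x hx⟩

lemma ratio (hR : Spec_RIG) (hc : 0 < c) (H : AL n r ρ c θ h g Y s l τ η) {b : ℝ} (hb : 1 ≤ b) :
    ∃ k : ℝ, ∀ x ∈ St ρ, Tm c g s l b (Y x) → ∀ i j, ‖η j x‖ ≤ Real.exp k * ‖η i x‖ := by
  obtain ⟨k, -, hk⟩ := hR n c hc
  exact ⟨k * b, fun x hx T i j =>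
    (hk b hb _ _ _ _ _ _ (eqs H hx) T.sl).2 i T.gg (T.det i) j⟩

lemma upper (H : AL n r ρ c θ h g Y s l τ η) {b k : ℝ} : ∃ M : ℝ, ∀ x ∈ St ρ,
    (∀ j, ‖l j (Y x)‖ ≤ Real.exp b) → (∀ j, ‖η 0 x‖ ≤ Real.exp k * ‖η j x‖) →
    ‖η 0 x‖ ≤ Real.exp M := by
  obtain ⟨C₀, h0, hw⟩ := H.wron
  refine ⟨n * (Real.exp b * Real.exp k ^ 2) / ‖C₀‖, fun x hx hl hk => ?_⟩
  by_cases e : η 0 x = 0
  · rw [e, norm_zero]; exact (Real.exp_pos _).le
  have e0 : 0 < ‖η 0 x‖ := norm_pos_iff.2 e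
  have ne : ∀ j, η j x ≠ 0 := fun j hj => by
    have := hk j; rw [hj, norm_zero, mul_zero] at this; linarith
  have h1 : ‖C₀‖ ≤ ∑ _j : ZMod n, Real.exp b * Real.exp k ^ 2 / ‖η 0 x‖ ^ 2 := by
    rw [← hw x hx ne]
    refine norm_sum_le_of_le _ fun j _ => ?_
    have q1 := norm_pos_iff.2 (ne j)
    have q2 := norm_pos_iff.2 (ne (j + 1))
    rw [norm_div, norm_mul, div_le_div_iff₀ (by positivity) (by positivity)]
    have h2 : ‖η 0 x‖ ^ 2 ≤ (Real.exp k * ‖η j x‖) * (Real.exp k * ‖η (j + 1) x‖) := by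
      rw [sq]; exact mul_le_mul (hk j) (hk (j + 1)) e0.le (by positivity)
    calc ‖l j (Y x)‖ * ‖η 0 x‖ ^ 2
        ≤ Real.exp b * ((Real.exp k * ‖η j x‖) * (Real.exp k * ‖η (j + 1) x‖)) :=
          mul_le_mul (hl j) h2 (by positivity) (by positivity)
      _ = _ := by ring
  rw [Finset.sum_const, Finset.card_univ, ZMod.card, nsmul_eq_mul, ← mul_div_assoc,
    le_div_iff₀ (by positivity)] at h1
  have h2 : ‖η 0 x‖ ^ 2 ≤ n * (Real.exp b * Real.exp k ^ 2) / ‖C₀‖ := by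
    rw [le_div_iff₀ (norm_pos_iff.2 h0)]; linarith
  nlinarith [Real.add_one_le_exp (n * (Real.exp b * Real.exp k ^ 2) / ‖C₀‖), sq_nonneg (‖η 0 x‖ - 1)]

/-- the direction field -/
noncomputable def RR (c : ℝ) (g : ℂ → ℂ) (s l : ZMod n → (ZMod n → ℂ) → ℂ) (y : ZMod n → ℂ)
    (j : ZMod n) : ℂ :=
  AA c g s l j y * g (y j) ^ 2 / (FF c g s l (piv 0) y * (c * s j y ^ 2))

/-- the square of the speed -/
noncomputable def GG (c : ℝ) (g : ℂ → ℂ) (s l : ZMod n → (ZMod n → ℂ) → ℂ) (C₀ : ℂ)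
    (y : ZMod n → ℂ) : ℂ :=
  FF c g s l (piv 0) y ^ 2 * (∑ j, l j y / (AA c g s l j y * AA c g s l (j + 1) y)) / C₀

/-- regular configurations -/
def Rg (r c : ℝ) (g : ℂ → ℂ) (s l : ZMod n → (ZMod n → ℂ) → ℂ) : Set (ZMod n → ℂ) :=
  {y | y ∈ Cf n r ∧ FF c g s l (piv 0) y ≠ 0 ∧ ∀ j, AA c g s l j y ≠ 0 ∧ s j y ≠ 0}

section
variable (hS : SD r θ h g Q c C) (H : AL n r ρ c θ h g Y s l τ η)
include hS H

omit H in
lemma an_g {y : ZMod n → ℂ} (hy : y ∈ Cf n r) (j : ZMod n) :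
    AnalyticAt ℂ (fun z : ZMod n → ℂ => g (z j)) y := by
  have h1 : AnalyticAt ℂ (fun z : ZMod n → ℂ => z j) y :=
    (ContinuousLinearMap.proj j : (ZMod n → ℂ) →L[ℂ] ℂ).analyticAt y
  exact (hS.ang _ (hy j)).fun_comp_of_eq h1 rfl

lemma an_ent {y : ZMod n → ℂ} (hy : y ∈ Cf n r) (a b : ZMod n ⊕ ZMod n) : AnalyticAt ℂ
    (fun z => MM c (piv 0) (fun j => s j z) (fun j => l j z) (fun j => g (z j)) a b) y := by
  have := an_MM (c := c) (t := piv 0) (s := s) (l := l) (g := fun j z => g (z j))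
    (fun j => H.ans j y hy) (fun j => H.anl j y hy) (fun j => an_g hS hy j) a b
  exact this

lemma an_FF {y : ZMod n → ℂ} (hy : y ∈ Cf n r) : AnalyticAt ℂ (FF c g s l (piv 0)) y :=
  an_det (an_ent hS H hy)

lemma an_AA {y : ZMod n → ℂ} (hy : y ∈ Cf n r) (j : ZMod n) : AnalyticAt ℂ (AA c g s l j) y :=
  an_adj (an_ent hS H hy) _ _

lemma an_RR {y : ZMod n → ℂ} (hy : y ∈ Rg r c g s l) : AnalyticAt ℂ (RR c g s l) y := by
  refine AnalyticAt.pi (f := fun j y => RR c g s l y j) fun j => ?_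
  refine ((an_AA hS H hy.1 j).mul ((an_g hS hy.1 j).pow 2)).div
    ((an_FF hS H hy.1).mul (analyticAt_const.mul ((H.ans j y hy.1).pow 2))) ?_
  have := hy.2.1
  have := (hy.2.2 j).2
  have : (c : ℂ) ≠ 0 := by exact_mod_cast hS.c0.ne'
  simp [*]

lemma an_GG {y : ZMod n → ℂ} (hy : y ∈ Rg r c g s l) (C₀ : ℂ) :
    AnalyticAt ℂ (GG c g s l C₀) y := by
  refine AnalyticAt.div_const (((an_FF hS H hy.1).pow 2).mul
    (Finset.analyticAt_fun_sum _ fun j _ => ?_))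
  exact (H.anl j y hy.1).div ((an_AA hS H hy.1 j).mul (an_AA hS H hy.1 _))
    (mul_ne_zero (hy.2.2 j).1 (hy.2.2 _).1)

lemma rg_nhds {y : ZMod n → ℂ} (hy : y ∈ Rg r c g s l) : Rg r c g s l ∈ 𝓝 y := by
  have h1 := (opnC n r).mem_nhds hy.1
  have h2 := (an_FF hS H hy.1).continuousAt.eventually_ne hy.2.1
  have h3 : ∀ᶠ z in 𝓝 y, ∀ j, AA c g s l j z ≠ 0 ∧ s j z ≠ 0 := eventually_all.2 fun j =>
    ((an_AA hS H hy.1 j).continuousAt.eventually_ne (hy.2.2 j).1).and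
      ((H.ans j y hy.1).continuousAt.eventually_ne (hy.2.2 j).2)
  filter_upwards [h1, h2, h3] with z a b c using ⟨a, b, c⟩

lemma per {y : ZMod n → ℂ} (hy : y ∈ Cf n r) (m : ZMod n → ℤ) :
    FF c g s l (piv 0) (fun i => y i + m i) = FF c g s l (piv 0) y ∧
    ∀ j, AA c g s l j (fun i => y i + m i) = AA c g s l j y := by
  simp only [FF, AA, H.pers _ y hy, H.perl _ y hy, g_per hS (hy _), implies_true, and_self]

omit hS in
lemma cr {x : ℂ} (hx : x ∈ St ρ) (j : ZMod n) :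
    FF c g s l (piv 0) (Y x) * η j x = η 0 x * AA c g s l j (Y x) := cram (eqs H hx) j

lemma flow {C₀ : ℂ} (h0 : C₀ ≠ 0) (hw : ∀ x ∈ St ρ, (∀ j, η j x ≠ 0) →
    ∑ j, l j (Y x) / (η j x * η (j + 1) x) = C₀) (m : ZMod n → ℤ) {x : ℂ} (hx : x ∈ St ρ)
    (hy : (fun i => Y x i + m i) ∈ Rg r c g s l) (hu : η 0 x ≠ 0) :
    deriv (fun x i => Y x i + m i) x = η 0 x • RR c g s l (fun i => Y x i + m i) ∧
      η 0 x ^ 2 = GG c g s l C₀ fun i => Y x i + m i := by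
  have hY := H.maps hx
  obtain ⟨p1, p2⟩ := per hS H hY m
  obtain ⟨-, n1, n2⟩ := hy
  simp only [p1, p2, H.pers _ _ hY] at n1 n2
  have c0 : (c : ℂ) ≠ 0 := by exact_mod_cast hS.c0.ne'
  have e : ∀ j, η j x = η 0 x * AA c g s l j (Y x) / FF c g s l (piv 0) (Y x) := fun j => by
    rw [← cr H hx j]; field_simp
  constructor
  · rw [deriv_pi fun i => (H.anY i x hx).differentiableAt.add_const _]
    funext j
    have h1 := H.eqη j x hx
    have h2 := (n2 j).2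
    simp only [deriv_add_const, Pi.smul_apply, RR, p1, p2, H.pers _ _ hY, g_per hS (hY _),
      smul_eq_mul]
    rw [e j] at h1
    field_simp at h1 ⊢
    linear_combination -h1
  · have ne : ∀ j, η j x ≠ 0 := fun j => by
      rw [e j]; exact div_ne_zero (mul_ne_zero hu (n2 j).1) n1
    simp only [GG, p1, p2, H.perl _ _ hY]
    rw [eq_div_iff h0, ← hw x hx ne, Finset.mul_sum, Finset.mul_sum]
    refine Finset.sum_congr rfl fun j _ => ?_
    have h1 := (n2 j).1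
    have h2 := (n2 (j + 1)).1
    rw [e j, e (j + 1)]
    field_simp

/-- a regular cluster point at the top is impossible -/
lemma exit (hO : Spec_ODE) {C₀ : ℂ} (h0 : C₀ ≠ 0) (hw : ∀ x ∈ St ρ, (∀ j, η j x ≠ 0) →
    ∑ j, l j (Y x) / (η j x * η (j + 1) x) = C₀) {w : ZMod n → ℂ} (hw1 : w ∈ Rg r c g s l)
    (hw2 : GG c g s l C₀ w ≠ 0) {x : ℕ → ℂ} {m : ℕ → ZMod n → ℤ} (hx : ∀ k, x k ∈ St ρ)
    (hu : ∀ k, η 0 (x k) ≠ 0) (ht : Tendsto (fun k => |(x k).im|) atTop (𝓝 ρ))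
    (hy : Tendsto (fun k => fun i => Y (x k) i + m k i) atTop (𝓝 w)) : False := by
  obtain ⟨σ, σ0, V, hV, hZ⟩ := hO (ZMod n) (RR c g s l) (GG c g s l C₀) w (Rg r c g s l)
    (an_RR hS H hw1) (an_GG hS H hw1 C₀) hw2 (rg_nhds hS H hw1)
  obtain ⟨k, k1, k2⟩ := ((hy.eventually hV).and
    (ht.eventually (lt_mem_nhds (show ρ - σ / 2 < ρ by linarith)))).exists
  obtain ⟨Z, z1, z2, z3⟩ := hZ (St ρ) (fun x i => Y x i + m k i) (η 0) (opn ρ) (cvx ρ)
    (fun x hx => AnalyticAt.pi fun i => (H.anY i x hx).add analyticAt_const)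
    (H.anη 0).continuousOn (fun x hx => flow hS H h0 hw (m k) hx) (x k) (hx k) k1 (hu k)
  have hk : |(x k).im| < ρ := hx k
  obtain ⟨x₀, a1, a2⟩ : ∃ x₀ : ℂ, |x₀.im| = ρ ∧ dist x₀ (x k) < σ / 2 := by
    have hd : ∀ t : ℝ, dist (⟨(x k).re, t⟩ : ℂ) (x k) = |t - (x k).im| := fun t => by
      rw [Complex.dist_of_re_eq (z := ⟨(x k).re, t⟩) (w := x k) rfl, Real.dist_eq]
    rcases le_total 0 (x k).im with e | e
    · rw [abs_of_nonneg e] at k2 hk
      exact ⟨⟨(x k).re, ρ⟩, abs_of_pos H.ρ0, by rw [hd, abs_lt]; constructor <;> linarith⟩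
    · rw [abs_of_nonpos e] at k2 hk
      exact ⟨⟨(x k).re, -ρ⟩, by simp [abs_of_pos H.ρ0], by
        rw [hd, abs_lt]; constructor <;> linarith⟩
  have sub : ball x₀ (σ / 2) ⊆ ball (x k) σ := ball_subset_ball' (by linarith)
  refine H.noreg x₀ (σ / 2) (fun x i => Z x i + ((-m k i : ℤ) : ℂ)) a1 (by linarith)
    (fun j x hx => (analyticAt_pi_iff.1 (z1 x (sub hx)) j).add analyticAt_const)
    (fun x hx => ?_) fun x hx => cf_add (z3 (sub hx)).1 _
  funext i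
  simp [z2 ⟨sub hx.1, hx.2⟩]

end

end Tx

open Tx in
theorem topx (hR : Spec_RIG) (hO : Spec_ODE) : Spec_TOP := by
  intro n _ r ρ c C θ h g Q Y s l τ η hS H K lam N
  obtain ⟨b₀, b1, hT⟩ := tm (n := n) (s := s) (l := l) hS K lam N
  obtain ⟨k, hk⟩ := ratio hR hS.c0 H b1
  constructor
  · obtain ⟨M, hM⟩ := upper H (b := b₀) (k := k)
    refine ⟨M, fun x hx hL hG => ?_⟩
    have T := hT _ (H.maps hx) hL hG
    exact hM x hx (fun j => (T.sl j).2.2) fun j => hk x hx T j 0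
  intro b
  by_contra hcon
  have hex : ∀ j : ℕ, ∃ x ∈ St ρ, Lev r (Y x) Finset.univ N ∧ Tm c g s l b₀ (Y x) ∧
      Real.exp (-b) ≤ ‖η 0 x‖ ∧ ρ - 1 / ((j : ℝ) + 1) < |x.im| := fun j => by
    by_contra hn
    refine hcon ⟨ρ - 1 / ((j : ℝ) + 1), by simp; positivity, fun x hx hL hG he => ?_⟩
    by_contra hlt
    exact hn ⟨x, hx, hL, hT _ (H.maps hx) hL hG, he, not_le.1 hlt⟩
  choose x hx hL hm he hi using hex
  obtain ⟨m, φ, w, hw, hφ, ht⟩ := clus hS.r0 (Real.exp_pos (-N)) (fun j => Y (x j))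
    fun j i => hL j i (Finset.mem_univ i)
  obtain ⟨C₀, h0, hW⟩ := H.wron
  have hu : ∀ j, η 0 (x j) ≠ 0 := fun j => norm_pos_iff.1 ((Real.exp_pos _).trans_le (he j))
  have lim : ∀ {F : (ZMod n → ℂ) → ℂ} {a : ℝ}, ContinuousAt F w → 0 < a →
      (∀ᶠ j in atTop, a ≤ ‖F fun i => Y (x (φ j)) i + m (φ j) i‖) → F w ≠ 0 :=
    fun hF ha h => norm_pos_iff.1 (ha.trans_le (ge_of_tendsto (hF.tendsto.comp ht).norm h))
  have hw1 : w ∈ Rg r c g s l := by
    refine ⟨hw, lim (an_FF hS H hw).continuousAt (Real.exp_pos (-b₀)) (.of_forall fun j => ?_),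
      fun i => ⟨lim (an_AA hS H hw i).continuousAt (a := Real.exp (-b₀) / Real.exp k)
        (by positivity) (.of_forall fun j => ?_),
      lim (H.ans i w hw).continuousAt (Real.exp_pos (-b₀)) (.of_forall fun j => ?_)⟩⟩
    · rw [(per hS H (H.maps (hx _)) _).1]; exact (hm _).det 0
    · rw [(per hS H (H.maps (hx _)) _).2]
      have h1 := congrArg norm (cr H (hx (φ j)) i)
      rw [norm_mul, norm_mul] at h1
      have h2 := hk _ (hx (φ j)) (hm _) i 0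
      have h3 := (hm (φ j)).det 0
      have h4 := norm_pos_iff.2 (hu (φ j))
      rw [div_le_iff₀ (Real.exp_pos k)]
      refine le_of_mul_le_mul_left ?_ h4
      calc _ ≤ Real.exp k * ‖η i (x (φ j))‖ * ‖FF c g s l (piv 0) (Y (x (φ j)))‖ :=
            mul_le_mul h2 h3 (Real.exp_pos _).le (by positivity)
        _ = _ := by linear_combination Real.exp k * h1
    · rw [H.pers _ _ (H.maps (hx _))]; exact ((hm _).sl i).1
  have hw2 : GG c g s l C₀ w ≠ 0 := by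
    refine lim (an_GG hS H hw1 C₀).continuousAt (a := Real.exp (-b) ^ 2) (by positivity) ?_
    filter_upwards [ht.eventually (rg_nhds hS H hw1)] with j hj
    rw [← (flow hS H h0 hW _ (hx _) hj (hu _)).2, norm_pow]
    exact pow_le_pow_left₀ (Real.exp_pos _).le (he _) 2
  refine exit hS H hO h0 hW hw1 hw2 (x := fun j => x (φ j)) (m := fun j => m (φ j))
    (fun j => hx _) (fun j => hu _) ?_ ht
  have h1 : Tendsto (fun j : ℕ => ρ - 1 / ((j : ℝ) + 1)) atTop (𝓝 ρ) := by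
    simpa using tendsto_one_div_add_atTop_nhds_zero_nat.const_sub ρ
  exact tendsto_of_tendsto_of_tendsto_of_le_of_le (h1.comp hφ.tendsto_atTop) tendsto_const_nhds
    (fun j => (hi _).le) fun j => le_of_lt (hx _)

end Vale.Agent.P097C
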