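import Vale.Agent.P097C.Spec

/-!
# P097C: the barrier for the angles (row **WR**)
-/

set_option linter.all false

open Filter Topology Set Metric

namespace Vale.Agent.P097C

namespace WrA

/-- the clock -/
noncomputable def ck (r k : ℝ) (y : ℂ) : ℝ := Real.log (dd r y + k) - Real.log k

theorem dd_pos {r : ℝ} {y : ℂ} (hy : y ∈ St r) : 0 < dd r y := by
  have h : |y.im| < r := hy
  have := sq_lt_sq' (abs_lt.1 h).1 (abs_lt.1 h).2
  unfold dd
  linarith

theorem ck_nn {r k : ℝ} {y : ℂ} (hy : y ∈ St r) (hk : 0 < k) : 0 ≤ ck r k y :=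
  sub_nonneg.2 (Real.log_le_log hk (by linarith [dd_pos hy]))

theorem ck_jet {r k : ℝ} {y : ℂ} (hy : y ∈ St r) (hk : 0 < k) :
    ∃ b a, EJ (ck r k) y b a ∧ a ≤ -(2 * r ^ 2 / (dd r y + k) ^ 2) := by
  have d0 := dd_pos hy
  have h0 : r ^ 2 - y.im ^ 2 + k ≠ 0 := (add_pos d0 hk).ne'
  have h1 := ((((EJ.im (F := fun x => x) (z := y) analyticAt_id).sq.const_sub (r ^ 2)).add_const
    k).log h0).add_const (-Real.log k)
  refine ⟨_, _, h1.congr (.of_forall fun x => (sub_eq_add_neg _ _).symm), ?_⟩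
  have e : r ^ 2 - y.im ^ 2 + k = dd r y + k := rfl
  simp only [deriv_id'', mul_one, norm_neg, Complex.norm_I, norm_mul, Complex.norm_ofNat,
    Complex.norm_real, Real.norm_eq_abs, mul_pow, sq_abs, e]
  have p : 0 < dd r y + k := add_pos d0 hk
  have e2 : r ^ 2 = dd r y + y.im ^ 2 := by unfold dd; ring
  rw [e2, ← sub_nonneg]
  have : -(2 * (dd r y + y.im ^ 2) / (dd r y + k) ^ 2) -
      (-(2 * y.im * 0 + 2 * 1 ^ 2) / (dd r y + k) - 2 ^ 2 * y.im ^ 2 / (dd r y + k) ^ 2) =
      (2 * k + 2 * y.im ^ 2) / (dd r y + k) ^ 2 := by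
    field_simp
    ring
  rw [this]
  positivity

theorem ck_pull {r k : ℝ} {F : ℂ → ℂ} {x : ℂ} (hF : AnalyticAt ℂ F x) (hy : F x ∈ St r)
    (hk : 0 < k) : ContinuousAt (fun x => ck r k (F x)) x ∧ UJ (fun x => ck r k (F x)) x
      (-(2 * r ^ 2 / (dd r (F x) + k) ^ 2 * ‖deriv F x‖ ^ 2)) := by
  obtain ⟨b, a, h1, h2⟩ := ck_jet hy hk
  refine ⟨(h1.pull hF).continuousAt, (h1.pull hF).uj.mono ?_⟩
  rw [← neg_mul]
  exact mul_le_mul_of_nonneg_right h2 (sq_nonneg _)

theorem ck_real {r k : ℝ} {y : ℂ} (hy : y.im = 0) (hk : 0 < k) :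
    ck r k y ≤ r ^ 2 / k ∧ (k ≤ 1 → ck r k y ≤ r ^ 2 - Real.log k) := by
  have e : dd r y = r ^ 2 := by simp [dd, hy]
  have p : 0 < r ^ 2 + k := by positivity
  unfold ck
  rw [e]
  constructor
  · rw [← Real.log_div p.ne' hk.ne']
    refine (Real.log_le_sub_one_of_pos (by positivity)).trans_eq ?_
    field_simp
    ring
  · intro h
    linarith [Real.log_le_sub_one_of_pos p]

/-- a free band -/
theorem free {n : ℕ} [NeZero n] (d : ZMod n → ℝ) {e : ℕ → ℝ} (he : Antitone e) {i : ZMod n}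
    (hi : d i < e n) : ∃ s < n, ∀ j, d j < e s → d j < e (s + 1) := by
  by_contra hc
  push Not at hc
  choose! f hf using hc
  have h1 := Finset.card_le_card_of_injOn (s := Finset.range n) (t := Finset.univ.erase i) f
    (fun s hs => by
      have hs' := Finset.mem_range.1 (Finset.mem_coe.1 hs)
      refine Finset.mem_coe.2 (Finset.mem_erase.2 ⟨fun h => ?_, Finset.mem_univ _⟩)
      have := (hf s hs').2
      rw [h] at this
      linarith [he (show s + 1 ≤ n from hs')])
    (fun s hs t ht h => by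
      have hs' := hf s (Finset.mem_range.1 (Finset.mem_coe.1 hs))
      have ht' := hf t (Finset.mem_range.1 (Finset.mem_coe.1 ht))
      rw [h] at hs'
      rcases lt_trichotomy s t with k | k | k
      · linarith [he (show s + 1 ≤ t from k), hs'.2, ht'.1]
      · exact k
      · linarith [he (show t + 1 ≤ s from k), hs'.1, ht'.2])
  rw [Finset.card_range, Finset.card_erase_of_mem (Finset.mem_univ _), Finset.card_univ,
    ZMod.card] at h1
  have := NeZero.pos n
  omega

end WrA

open WrA in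
theorem wr : Spec_WR := by
  intro n _ r ρ c C θ h g Q Y sd cv K ε K1 ε0
  have r0 := sd.r0
  set A : ℝ := 4 * C ^ 2 / r ^ 2 with hA
  have A0 : 0 ≤ A := by positivity
  set M : ℝ := n * (A * (r ^ 2 + (4 * K) ^ n)) + n * (n * (4 * n)) with hM
  refine ⟨max 1 (M / ε), fun lam hl => ?_⟩
  have l1 : 1 ≤ lam := (le_max_left _ _).trans hl
  have l2 : M ≤ lam * ε := (div_le_iff₀ ε0).1 ((le_max_right _ _).trans hl)
  set L : ℕ → ℝ := fun s => lam * (4 * K) ^ s with hL
  have K4 : 1 ≤ 4 * K := by linarith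
  have Ll : ∀ s, lam ≤ L s := fun s => le_mul_of_one_le_right (by linarith) (one_le_pow₀ K4)
  set e : ℕ → ℝ := fun s => Real.exp (-L s) with he
  have e0 : ∀ s, 0 < e s := fun s => Real.exp_pos _
  have ea : Antitone e := fun s t hst => Real.exp_le_exp.2 (neg_le_neg
    (mul_le_mul_of_nonneg_left (pow_le_pow_right₀ K4 hst) (by linarith)))
  set B : ℕ → ℝ := fun s => 4 * n * Real.exp (K * (lam + L s)) ^ 2 / r ^ 2 * e (s + 1) ^ 2 with hB
  have B0 : ∀ s, 0 ≤ B s := fun s => by positivity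
  have q0 : 0 < (lam ^ 2)⁻¹ := by positivity
  have jθ : ∀ x ∈ St ρ, ∀ i, ∃ b, EJ (fun x => (θ (Y x i)).im ^ 2) x b
      (2 * ‖g (Y x i) * deriv (fun x => Y x i) x‖ ^ 2) := fun x hx i => by
    have a1 := sd.anθ _ (cv.maps hx i)
    have a2 := cv.anY i x hx
    have d1 : deriv (fun x => θ (Y x i)) x = g (Y x i) * deriv (fun x => Y x i) x := by
      rw [← sd.dθ _ (cv.maps hx i)]
      exact (a1.differentiableAt.hasDerivAt.comp x a2.differentiableAt.hasDerivAt).deriv
    refine ⟨_, (EJ.im (F := fun x => θ (Y x i)) (a1.comp_of_eq a2 rfl)).sq.cast rfl ?_⟩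
    rw [d1, norm_mul (-Complex.I), norm_neg, Complex.norm_I]
    ring
  have ck1 := fun x (hx : x ∈ St ρ) j s =>
    ck_pull (F := fun x => Y x j) (cv.anY j x hx) (cv.maps hx j) (e0 s)
  have nn : ∀ x ∈ St ρ, 0 ≤ ∑ i, A * ck r (e n) (Y x i) +
      ∑ s ∈ Finset.range n, ∑ j, B s * ck r (e (s + 1)) (Y x j) := fun x hx =>
    add_nonneg (Finset.sum_nonneg fun i _ => mul_nonneg A0 (ck_nn (cv.maps hx i) (e0 _)))
      (Finset.sum_nonneg fun s _ => Finset.sum_nonneg fun j _ =>
        mul_nonneg (B0 s) (ck_nn (cv.maps hx j) (e0 _)))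
  refine ⟨(Finset.range n).image L, fun x => (lam ^ 2)⁻¹ * (∑ i, (θ (Y x i)).im ^ 2 +
    (∑ i, A * ck r (e n) (Y x i) + ∑ s ∈ Finset.range n, ∑ j, B s * ck r (e (s + 1)) (Y x j))),
    Finset.card_image_le.trans_eq (Finset.card_range n), fun L' hL' => ?_, ⟨fun x hx => ?_,
    fun x hx => mul_nonneg q0.le (add_nonneg (Finset.sum_nonneg fun i _ => sq_nonneg _) (nn x hx))⟩,
    ?_, fun x hx => ⟨fun hW j => ?_, fun hD => ?_⟩⟩
  · obtain ⟨s, -, rfl⟩ := Finset.mem_image.1 hL'
    exact Ll s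
  · refine ContinuousAt.continuousWithinAt (continuousAt_const.mul (ContinuousAt.add
      (tendsto_finset_sum _ fun i _ => (jθ x hx i).choose_spec.continuousAt) (ContinuousAt.add
      (tendsto_finset_sum _ fun i _ => (ck1 x hx i n).1.const_mul A)
      (tendsto_finset_sum _ fun s _ => tendsto_finset_sum _ fun j _ =>
        (ck1 x hx j (s + 1)).1.const_mul (B s)))))
  · have z1 : ∑ i, (θ (Y 0 i)).im ^ 2 = 0 := Finset.sum_eq_zero fun i _ => by
      have : Y 0 i = ((Y 0 i).re : ℝ) := Complex.ext rfl (by simp [cv.re0 i])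
      rw [this, sd.reθ]
      ring
    have z2 : ∑ i, A * ck r (e n) (Y 0 i) ≤ n * (A * (r ^ 2 + (4 * K) ^ n)) * lam := by
      have : ∀ i ∈ (Finset.univ : Finset (ZMod n)),
          A * ck r (e n) (Y 0 i) ≤ A * (r ^ 2 + (4 * K) ^ n) * lam := fun i _ => by
        have := (ck_real (r := r) (cv.re0 i) (e0 n)).2
          (Real.exp_le_one_iff.2 (by linarith [Ll n]))
        rw [he, Real.log_exp] at this
        rw [mul_assoc]
        refine mul_le_mul_of_nonneg_left (this.trans ?_) A0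
        have : r ^ 2 ≤ r ^ 2 * lam := le_mul_of_one_le_right (sq_nonneg r) l1
        simp only [hL]
        linarith
      have := Finset.sum_le_card_nsmul _ _ _ this
      rw [Finset.card_univ, ZMod.card, nsmul_eq_mul] at this
      linarith
    have z3 : ∑ s ∈ Finset.range n, ∑ j, B s * ck r (e (s + 1)) (Y 0 j) ≤ n * (n * (4 * n)) := by
      have : ∀ s ∈ Finset.range n, ∑ j, B s * ck r (e (s + 1)) (Y 0 j) ≤ n * (4 * n) := by
        intro s _
        have : ∀ j ∈ (Finset.univ : Finset (ZMod n)),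
            B s * ck r (e (s + 1)) (Y 0 j) ≤ 4 * n := fun j _ => by
          refine (mul_le_mul_of_nonneg_left (ck_real (r := r) (cv.re0 j) (e0 _)).1 (B0 s)).trans ?_
          have h1 : Real.exp (K * (lam + L s)) ^ 2 * e (s + 1) ≤ 1 := by
            rw [he, ← Real.exp_nat_mul, ← Real.exp_add, Real.exp_le_one_iff]
            have h2 : L (s + 1) = 4 * K * L s := by simp only [hL]; ring
            have h3 := mul_le_mul_of_nonneg_left (Ll s) (show 0 ≤ K by linarith)
            rw [h2]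
            push_cast
            linarith
          have h2 : B s * (r ^ 2 / e (s + 1)) =
              4 * n * (Real.exp (K * (lam + L s)) ^ 2 * e (s + 1)) := by
            have := (e0 (s + 1)).ne'
            simp only [hB]
            field_simp
          rw [h2]
          exact mul_le_of_le_one_right (by positivity) h1
        have := Finset.sum_le_card_nsmul _ _ _ this
        rwa [Finset.card_univ, ZMod.card, nsmul_eq_mul] at this
      have := Finset.sum_le_card_nsmul _ _ _ this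
      rwa [Finset.card_range, nsmul_eq_mul] at this
    show (lam ^ 2)⁻¹ * _ ≤ ε
    rw [inv_mul_le_iff₀ (by positivity), z1, zero_add]
    have z4 : (n : ℝ) * (n * (4 * n)) ≤ n * (n * (4 * n)) * lam :=
      le_mul_of_one_le_right (by positivity) l1
    have z5 := mul_le_mul_of_nonneg_right l2 (show 0 ≤ lam by linarith)
    rw [hM] at z5
    nlinarith
  · have h1 : (θ (Y x j)).im ^ 2 ≤ ∑ i, (θ (Y x i)).im ^ 2 :=
      Finset.single_le_sum (f := fun i => (θ (Y x i)).im ^ 2) (fun i _ => sq_nonneg _)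
        (Finset.mem_univ j)
    have h2 := (inv_mul_lt_iff₀ (show 0 < lam ^ 2 by positivity)).1 hW
    exact abs_le_of_sq_le_sq' (by linarith [nn x hx]) (by linarith) |> abs_le.2
  · set v : ZMod n → ℂ := fun j => deriv (fun x => Y x j) x with hv
    set P : ℕ → ZMod n → ℝ := fun s j => 2 * r ^ 2 / (dd r (Y x j) + e s) ^ 2 * ‖v j‖ ^ 2 with hP
    have P0 : ∀ s j, 0 ≤ P s j := fun s j => by positivity
    have J := (((UJ.sum Finset.univ fun i _ => (jθ x hx i).choose_spec.uj).add
      ((UJ.sum Finset.univ fun i _ => (ck1 x hx i n).2.smul A0).add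
        (UJ.sum (Finset.range n) fun s _ => UJ.sum Finset.univ fun j _ =>
          (ck1 x hx j (s + 1)).2.smul (B0 s)))).smul q0.le)
    refine J.mono (mul_nonpos_of_nonneg_of_nonpos q0.le ?_)
    show ∑ i, 2 * ‖g (Y x i) * v i‖ ^ 2 + (∑ i, A * -P n i +
      ∑ s ∈ Finset.range n, ∑ j, B s * -P (s + 1) j) ≤ 0
    simp only [mul_neg, Finset.sum_neg_distrib]
    have s1 : 0 ≤ ∑ i, A * P n i := Finset.sum_nonneg fun i _ => mul_nonneg A0 (P0 _ _)
    have s2 : ∀ s, 0 ≤ ∑ j, B s * P (s + 1) j := fun s =>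
      Finset.sum_nonneg fun j _ => mul_nonneg (B0 s) (P0 _ _)
    by_cases hc : ∀ i, e n ≤ dd r (Y x i)
    · have h1 : ∑ i, 2 * ‖g (Y x i) * v i‖ ^ 2 ≤ ∑ i, A * P n i := Finset.sum_le_sum fun i _ => by
        have d0 := dd_pos (cv.maps hx i)
        have h2 := sd.bg _ (cv.maps hx i)
        have h3 : ‖g (Y x i)‖ * (dd r (Y x i) + e n) ≤ 2 * C := by
          nlinarith [mul_le_mul_of_nonneg_left (hc i) (norm_nonneg (g (Y x i)))]
        have h4 := pow_le_pow_left₀ (mul_nonneg (norm_nonneg _) (add_pos d0 (e0 n)).le) h3 2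
        have h5 : A * P n i = 2 * ((2 * C) ^ 2 / (dd r (Y x i) + e n) ^ 2 * ‖v i‖ ^ 2) := by
          simp only [hA, hP]
          field_simp
          ring
        rw [h5, norm_mul, mul_pow]
        refine mul_le_mul_of_nonneg_left (mul_le_mul_of_nonneg_right ?_ (sq_nonneg _)) zero_le_two
        rw [le_div_iff₀ (pow_pos (add_pos d0 (e0 n)) 2), ← mul_pow]
        exact h4
      linarith [Finset.sum_nonneg fun s (_ : s ∈ Finset.range n) => s2 s]
    · push Not at hc
      obtain ⟨i, hi⟩ := hc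
      obtain ⟨s, hs, hf⟩ := free (fun j => dd r (Y x j)) ea hi
      obtain ⟨k, hk, h1, -⟩ := hD (L s) (Finset.mem_image_of_mem L (Finset.mem_range.2 hs))
        (Finset.univ.filter fun j => e s ≤ dd r (Y x j)) (fun h => by
          have := (Finset.mem_filter.1 (Finset.eq_univ_iff_forall.1 h i)).2
          linarith [ea hs.le])
        fun j hj => (Finset.mem_filter.1 hj).2
      have hk' : dd r (Y x k) < e (s + 1) :=
        hf k (not_le.1 fun h => hk (Finset.mem_filter.2 ⟨Finset.mem_univ _, h⟩))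
      have h2 : ∑ i, 2 * ‖g (Y x i) * v i‖ ^ 2 ≤
          n * (2 * (Real.exp (K * (lam + L s)) * ‖v k‖) ^ 2) := by
        have := Finset.sum_le_card_nsmul Finset.univ (fun i => 2 * ‖g (Y x i) * v i‖ ^ 2) _
          fun i _ => mul_le_mul_of_nonneg_left (pow_le_pow_left₀ (norm_nonneg _) (h1 i) 2)
            zero_le_two
        rwa [Finset.card_univ, ZMod.card, nsmul_eq_mul] at this
      have h3 : n * (2 * (Real.exp (K * (lam + L s)) * ‖v k‖) ^ 2) ≤ B s * P (s + 1) k := by
        have d0 := dd_pos (cv.maps hx k)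
        have p := add_pos d0 (e0 (s + 1))
        have h4 : B s * P (s + 1) k = n * (2 * (Real.exp (K * (lam + L s)) * ‖v k‖) ^ 2) *
            ((2 * e (s + 1)) ^ 2 / (dd r (Y x k) + e (s + 1)) ^ 2) := by
          simp only [hB, hP]
          field_simp
          ring
        rw [h4]
        refine le_mul_of_one_le_right (by positivity) ?_
        rw [one_le_div (pow_pos p 2)]
        exact pow_le_pow_left₀ p.le (by linarith) 2
      have h5 : B s * P (s + 1) k ≤ ∑ j, B s * P (s + 1) j :=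
        Finset.single_le_sum (f := fun j => B s * P (s + 1) j)
          (fun j _ => mul_nonneg (B0 s) (P0 _ _)) (Finset.mem_univ k)
      have h6 : ∑ j, B s * P (s + 1) j ≤ ∑ s ∈ Finset.range n, ∑ j, B s * P (s + 1) j :=
        Finset.single_le_sum (f := fun s => ∑ j, B s * P (s + 1) j) (fun s _ => s2 s)
          (Finset.mem_range.2 hs)
      linarith

end Vale.Agent.P097C
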