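import Vale.Agent.P097C.Core0
import Vale.Agent.P097C.Anc
import Vale.Agent.P097C.Wr
import Vale.Agent.P097C.TopX

/-!
# P097C: the core of the critical case
-/

namespace Vale.Agent.P097C

theorem core : P097Top.Spec_CORE := core0 anc wr topx

end Vale.Agent.P097C
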