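import Mathlib

/-!
# P097C: the modified Jacobi systems on a real leaf with an odd number of vertices are injective
-/

open Finset

namespace Vale.Agent.P097C

variable {n : ℕ} [NeZero n]

theorem sum_shift (f : ZMod n → ℝ) : ∑ j, f (j + 1) = ∑ j, f j :=
  Equiv.sum_comp (Equiv.addRight (1 : ZMod n)) f

/-- A property which passes from `j - 1` to `j` and holds somewhere holds everywhere. -/
theorem zmod_propagate {p : ZMod n → Prop} (h : ∀ j, p (j - 1) → p j) {j₀ : ZMod n} (h0 : p j₀)
    (j : ZMod n) : p j := by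
  have : ∀ k : ℕ, p (j₀ + k) := by
    intro k
    induction k with
    | zero => simpa using h0
    | succ k ih => exact h _ (by push_cast; rwa [← add_assoc, add_sub_cancel_right])
  simpa using this (j - j₀).val

omit [NeZero n] in
/-- An alternating function on an odd cycle vanishes. -/
theorem eq_zero_of_alt (hn : Odd n) {t : ZMod n → ℝ} (h : ∀ j, t j + t (j - 1) = 0)
    (j : ZMod n) : t j = 0 := by
  have key : ∀ k : ℕ, t (j + k) = (-1) ^ k * t j := by
    intro k
    induction k with
    | zero => simp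
    | succ k ih =>
      have := h (j + (k + 1 : ℕ))
      rw [show j + ((k + 1 : ℕ) : ZMod n) - 1 = j + k by push_cast; ring, ih] at this
      rw [pow_succ]
      linarith
  have := key n
  rw [ZMod.natCast_self, add_zero, hn.neg_one_pow] at this
  linarith

theorem minor_inj (hn : Odd n) {l J T κ : ZMod n → ℝ} (hl : ∀ j, 0 < l j) (hJ : ∀ j, 0 < J j)
    (h1 : ∀ j, J j + J (j + 1) = l j * T j) (h2 : ∀ j, T j + T (j - 1) = κ j * J j)
    {W D : Set (ZMod n)} (hne : (W ∪ D).Nonempty) {s τ : ZMod n → ℝ}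
    (e1 : ∀ j, s j + s (j + 1) = l j * τ j)
    (eI : ∀ j, j ∉ W → j ∉ D → τ j + τ (j - 1) = κ j * s j)
    (eW : ∀ j ∈ W, j ∉ D → τ j + τ (j - 1) = 0) (eD : ∀ j ∈ D, s j = 0) :
    s = 0 ∧ τ = 0 := by
  classical
  have hτ : s = 0 → τ = 0 := fun hs => funext fun j => by
    have := e1 j
    simp only [hs, Pi.zero_apply, add_zero] at this
    exact (mul_eq_zero.1 this.symm).resolve_left (hl j).ne'
  suffices s = 0 from ⟨this, hτ this⟩
  -- weak vertices
  let w : ZMod n → Prop := fun j => j ∈ W ∧ j ∉ D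
  by_cases hall : ∀ j, w j
  · have ht : ∀ j, τ j = 0 := eq_zero_of_alt hn fun j => eW j (hall j).1 (hall j).2
    refine funext (eq_zero_of_alt hn fun j => ?_)
    have := e1 (j - 1)
    rw [sub_add_cancel, ht, mul_zero] at this
    linarith
  set u : ZMod n → ℝ := fun j => s j / J j with hu
  set ω : ZMod n → ℝ := fun j => τ j * J j - T j * s j with hω
  set a : ZMod n → ℝ := fun j => l j / (J j * J (j + 1)) with ha
  have ha0 : ∀ j, 0 < a j := fun j => div_pos (hl j) (mul_pos (hJ j) (hJ _))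
  have hsu : ∀ j, s j = u j * J j := fun j => (div_mul_cancel₀ _ (hJ j).ne').symm
  have hdu : ∀ j, u (j + 1) - u j = a j * ω j := fun j => by
    have h3 := (hJ j).ne'
    have h4 := (hJ (j + 1)).ne'
    simp only [hu, hω, ha]
    field_simp
    linear_combination J j * e1 j - s j * h1 j
  have hdω : ∀ j, ω (j - 1) - ω j = (T j + T (j - 1)) * s j - (τ j + τ (j - 1)) * J j := fun j => by
    have h3 := e1 (j - 1)
    have h4 := h1 (j - 1)
    rw [sub_add_cancel] at h3 h4
    simp only [hω]
    linear_combination τ (j - 1) * h4 - T (j - 1) * h3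
  -- the two parts of the weight at a weak vertex
  set A : ZMod n → ℝ := fun j => T (j - 1) * J j with hA
  set B : ZMod n → ℝ := fun j => T j * J j with hB
  have hT : ∀ j, 0 < T j := fun j => by
    have := add_pos (hJ j) (hJ (j + 1))
    rw [h1] at this
    exact (mul_pos_iff_of_pos_left (hl j)).1 this
  have hA0 : ∀ j, 0 < A j := fun j => mul_pos (hT _) (hJ _)
  have hB0 : ∀ j, 0 < B j := fun j => mul_pos (hT _) (hJ _)
  have hAB : ∀ j, 1 / B j + 1 / A (j + 1) = a j := fun j => by
    have h3 := (hJ j).ne'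
    have h4 := (hJ (j + 1)).ne'
    have h5 := (hT j).ne'
    simp only [hA, hB, ha, add_sub_cancel_right]
    field_simp
    linear_combination h1 j
  have hw : ∀ j, w j → ω (j - 1) - ω j = (A j + B j) * u j := fun j hj => by
    rw [hdω, eW j hj.1 hj.2, hsu j]
    simp only [hA, hB]
    ring
  -- defect of the Cauchy-Schwarz inequality at each vertex
  let E : ZMod n → ℝ := fun j => ω (j - 1) ^ 2 / A j + ω j ^ 2 / B j - u j * (ω (j - 1) - ω j)
  have hEw : ∀ j, w j → E j = (B j * ω (j - 1) + A j * ω j) ^ 2 / (A j * B j * (A j + B j)) := by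
    intro j hj
    have h3 := (hA0 j).ne'
    have h4 := (hB0 j).ne'
    have h5 := (add_pos (hA0 j) (hB0 j)).ne'
    have h6 : u j = (ω (j - 1) - ω j) / (A j + B j) := by rw [hw j hj]; field_simp
    simp only [E]
    rw [h6]
    field_simp
    ring
  have hEn : ∀ j, ¬ w j → E j = ω (j - 1) ^ 2 / A j + ω j ^ 2 / B j := by
    intro j hj
    simp only [E]
    by_cases hD : j ∈ D
    · have : u j = 0 := by simp [hu, eD j hD]
      rw [this, zero_mul, sub_zero]
    · have hW : j ∉ W := fun h => hj ⟨h, hD⟩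
      rw [hdω, eI j hW hD, h2 j]
      ring
  have hE0 : ∀ j, 0 ≤ E j := fun j => by
    have h3 := hA0 j
    have h4 := hB0 j
    by_cases hj : w j
    · rw [hEw j hj]; positivity
    · rw [hEn j hj]; positivity
  have hsum : ∑ j, E j = 0 := by
    have h3 : ∑ j, ω (j - 1) ^ 2 / A j = ∑ j, ω j ^ 2 / A (j + 1) := by
      rw [← sum_shift]
      simp only [add_sub_cancel_right]
    have h4 : ∑ j, u j * ω (j - 1) = ∑ j, u (j + 1) * ω j := by
      rw [← sum_shift]
      simp only [add_sub_cancel_right]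
    simp only [E, mul_sub, sum_sub_distrib, sum_add_distrib, h3, h4]
    rw [← sum_add_distrib, ← sum_sub_distrib, ← sum_sub_distrib]
    refine sum_eq_zero fun j _ => ?_
    have h5 := hAB j
    have h6 := hdu j
    linear_combination ω j ^ 2 * h5 - ω j * h6
  have hE : ∀ j, E j = 0 := fun j =>
    (sum_eq_zero_iff_of_nonneg fun j _ => hE0 j).1 hsum j (mem_univ j)
  have hnw : ∀ j, ¬ w j → ω j = 0 := fun j hj => by
    have h3 := hE j
    rw [hEn j hj] at h3
    have h4 : 0 ≤ ω (j - 1) ^ 2 / A j := div_nonneg (sq_nonneg _) (hA0 j).le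
    have h5 : ω j ^ 2 / B j ≤ 0 := by linarith
    have h6 : ω j ^ 2 ≤ 0 := by
      by_contra h
      exact absurd h5 (not_le.2 (div_pos (not_le.1 h) (hB0 j)))
    exact pow_eq_zero_iff (two_ne_zero) |>.1 (le_antisymm h6 (sq_nonneg _))
  have hω0 : ∀ j, ω j = 0 := by
    push Not at hall
    obtain ⟨j₀, hj₀⟩ := hall
    refine zmod_propagate (fun j hj => ?_) (hnw j₀ hj₀)
    by_cases hwj : w j
    · have h3 := hE j
      rw [hEw j hwj, hj, mul_zero, zero_add, div_eq_zero_iff] at h3
      have h4 := h3.resolve_right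
        (mul_pos (mul_pos (hA0 j) (hB0 j)) (add_pos (hA0 j) (hB0 j))).ne'
      exact (mul_eq_zero.1 (pow_eq_zero_iff two_ne_zero |>.1 h4)).resolve_left (hA0 j).ne'
    · exact hnw j hwj
  obtain ⟨j₀, hj₀⟩ : ∃ j, u j = 0 := by
    obtain ⟨j, hj⟩ := hne
    by_cases hD : j ∈ D
    · exact ⟨j, by simp [hu, eD j hD]⟩
    · have := hw j ⟨hj.resolve_right hD, hD⟩
      rw [hω0, hω0, sub_self] at this
      exact ⟨j, (mul_eq_zero.1 this.symm).resolve_left (add_pos (hA0 j) (hB0 j)).ne'⟩
  have hu0 : ∀ j, u j = 0 := zmod_propagate (fun j hj => by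
    have := hdu (j - 1)
    rwa [sub_add_cancel, hj, hω0, mul_zero, sub_zero] at this) hj₀
  exact funext fun j => by rw [hsu j, hu0, zero_mul, Pi.zero_apply]

/-- Complex solutions of the real modified system vanish too. -/
theorem minor_inj_complex (hn : Odd n) {l J T κ : ZMod n → ℝ} (hl : ∀ j, 0 < l j)
    (hJ : ∀ j, 0 < J j) (h1 : ∀ j, J j + J (j + 1) = l j * T j)
    (h2 : ∀ j, T j + T (j - 1) = κ j * J j) {W D : Set (ZMod n)} (hne : (W ∪ D).Nonempty)
    {s τ : ZMod n → ℂ} (e1 : ∀ j, s j + s (j + 1) = l j * τ j)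
    (eI : ∀ j, j ∉ W → j ∉ D → τ j + τ (j - 1) = κ j * s j)
    (eW : ∀ j ∈ W, j ∉ D → τ j + τ (j - 1) = 0) (eD : ∀ j ∈ D, s j = 0) :
    s = 0 ∧ τ = 0 := by
  obtain ⟨r1, r2⟩ := minor_inj hn hl hJ h1 h2 hne (s := fun j => (s j).re) (τ := fun j => (τ j).re)
    (fun j => by simpa using congrArg Complex.re (e1 j))
    (fun j a b => by simpa using congrArg Complex.re (eI j a b))
    (fun j a b => by simpa using congrArg Complex.re (eW j a b)) (fun j a => by simp [eD j a])
  obtain ⟨i1, i2⟩ := minor_inj hn hl hJ h1 h2 hne (s := fun j => (s j).im) (τ := fun j => (τ j).im)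
    (fun j => by simpa using congrArg Complex.im (e1 j))
    (fun j a b => by simpa using congrArg Complex.im (eI j a b))
    (fun j a b => by simpa using congrArg Complex.im (eW j a b)) (fun j a => by simp [eD j a])
  exact ⟨funext fun j => Complex.ext (congrFun r1 j) (congrFun i1 j),
    funext fun j => Complex.ext (congrFun r2 j) (congrFun i2 j)⟩

end Vale.Agent.P097C
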