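import Vale.Agent.P097C.Spec
import Vale.Agent.P097C.Minor

/-!
# P097C: the determinants do not vanish on the real leaf, and are of moderate size
-/

set_option linter.all false

open Matrix

namespace Vale.Agent.P097C

section
variable {n : ℕ} [NeZero n] (c : ℝ) (t : ZMod n → Fin 3) (s l g : ZMod n → ℂ)
  (u : ZMod n ⊕ ZMod n → ℂ) (j : ZMod n)

theorem MM_mulVec_inl : (MM c t s l g *ᵥ u) (.inl j) =
    l j * u (.inl j) - s (j + 1) * u (.inr j) - s j * u (.inr (j + 1)) := by
  simp [mulVec, dotProduct, MM, sub_mul, Finset.sum_sub_distrib, sub_eq_add_neg, add_mul,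
    Finset.sum_add_distrib, add_assoc]

theorem MM_mulVec_inr : (MM c t s l g *ᵥ u) (.inr j) =
    al c (t j) (s j) * (u (.inl j) + u (.inl (j - 1))) + be (t j) (g j) * u (.inr j) := by
  simp [mulVec, dotProduct, MM, mul_add, add_mul, Finset.sum_add_distrib]

end

theorem det_ne : Spec_DET := by
  intro n _ c s l g τ η v hn hc e hp t ⟨j₀, h₀⟩ h0
  have r : ∀ {z : ℂ}, PR z → ∃ x : ℝ, 0 < x ∧ z = x := fun h =>
    ⟨_, h.2, Complex.ext rfl (by simpa using h.1)⟩
  choose S S0 hS using fun j => r (hp j).1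
  choose L L0 hL using fun j => r (hp j).2.1
  choose H H0 hH using fun j => r (hp j).2.2.1
  choose G G0 hG using fun j => r (hp j).2.2.2
  obtain rfl : s = fun j => (S j : ℂ) := funext hS
  obtain rfl : l = fun j => (L j : ℂ) := funext hL
  obtain rfl : η = fun j => (H j : ℂ) := funext hH
  obtain rfl : g = fun j => (G j : ℂ) := funext hG
  have s0 : ∀ j, (S j : ℂ) ≠ 0 := fun j => Complex.ofReal_ne_zero.2 (S0 j).ne'
  have l0 : ∀ j, (L j : ℂ) ≠ 0 := fun j => Complex.ofReal_ne_zero.2 (L0 j).ne'
  have c0 : (c : ℂ) ≠ 0 := Complex.ofReal_ne_zero.2 hc.ne'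
  have hτ : ∀ j, (((S (j + 1) * H j + S j * H (j + 1)) / L j : ℝ) : ℂ) = τ j := fun j => by
    push_cast
    rw [div_eq_iff (l0 j), mul_comm (τ j)]
    exact (e.eqE j).symm
  obtain ⟨u, u0, hu⟩ := exists_mulVec_eq_zero_iff.2 h0
  have a := fun j => (MM_mulVec_inl c t _ _ _ u j).symm.trans (congrFun hu _)
  have b := fun j => (MM_mulVec_inr c t _ _ _ u j).symm.trans (congrFun hu _)
  simp only [Pi.zero_apply] at a b
  have f3 : ∀ x : Fin 3, x ≠ 1 → x ≠ 2 → x = 0 := by decide
  obtain ⟨h1, h2⟩ := minor_inj_complex hn (l := fun j => L j / (S j * S (j + 1)))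
    (J := fun j => H j / S j) (T := fun j => (S (j + 1) * H j + S j * H (j + 1)) / L j)
    (κ := fun j => 2 * G j ^ 3 / (c * S j)) (W := {j | t j = 1}) (D := {j | t j = 2})
    (s := fun j => u (.inr j) / S j) (τ := fun j => u (.inl j))
    (fun j => div_pos (L0 j) (mul_pos (S0 j) (S0 _))) (fun j => div_pos (H0 j) (S0 j))
    (fun j => by
      have := (S0 j).ne'
      have := (S0 (j + 1)).ne'
      have := (L0 j).ne'
      field_simp)
    (fun j => Complex.ofReal_injective (by
      rw [Complex.ofReal_add, hτ, hτ, e.eqθ]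
      have := s0 j
      push_cast
      field_simp
      linear_combination -G j * e.eqη j))
    ⟨j₀, by_contra fun h => h₀ (f3 _ (fun x => h (.inl x)) fun x => h (.inr x))⟩
    (fun j => by
      have := s0 j
      have := s0 (j + 1)
      push_cast
      field_simp
      linear_combination -a j)
    (fun j x y => by
      have := s0 j
      have k := b j
      rw [f3 _ x y] at k
      simp only [al, be, if_true] at k
      push_cast
      field_simp
      linear_combination k)
    (fun j x _ => by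
      have k := b j
      rw [show t j = 1 from x] at k
      simpa [al, be] using k)
    (fun j x => by
      have k := b j
      rw [show t j = 2 from x] at k
      simp [al, be] at k
      simp [k])
  refine u0 (funext fun i => ?_)
  rcases i with i | i
  · exact congrFun h2 i
  · exact (div_eq_zero_iff.1 (congrFun h1 i)).resolve_right (s0 i)

theorem MM_le {n : ℕ} (c : ℝ) {b : ℝ} (hb : 1 ≤ b) (t : ZMod n → Fin 3) {s l g : ZMod n → ℂ}
    (h : ∀ j, ‖s j‖ ≤ Real.exp b ∧ ‖l j‖ ≤ Real.exp b) (hg : ∀ j, t j = 0 → ‖g j‖ ≤ Real.exp b)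
    (i j : ZMod n ⊕ ZMod n) : ‖MM c t s l g i j‖ ≤ Real.exp ((2 * |c| + 5) * b) := by
  have c0 := abs_nonneg c
  have e1 : 1 ≤ Real.exp b := Real.one_le_exp (by linarith)
  have e3 : Real.exp b ≤ Real.exp b ^ 2 := le_self_pow₀ e1 two_ne_zero
  have e4 : Real.exp b ^ 2 ≤ Real.exp b ^ 3 := pow_le_pow_right₀ e1 (by norm_num)
  have key : (2 * |c| + 2) * Real.exp b ^ 3 ≤ Real.exp ((2 * |c| + 5) * b) := by
    rw [← Real.exp_nat_mul, show (2 * |c| + 5) * b = (2 * |c| + 2) * b + (3 : ℕ) * b by
      push_cast; ring, Real.exp_add]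
    gcongr
    nlinarith [Real.add_one_le_exp ((2 * |c| + 2) * b)]
  have it : ∀ (p : Prop) [Decidable p] (z : ℂ), ‖if p then z else 0‖ ≤ ‖z‖ := fun p _ z => by
    split_ifs <;> simp
  have p3 := mul_nonneg c0 (pow_pos (Real.exp_pos b) 3).le
  refine le_trans ?_ key
  rcases i with i | i <;> rcases j with j | j <;> simp only [MM]
  · have := (it (j = i) _).trans (h i).2
    nlinarith
  · have := (it (j = i) _).trans (h (i + 1)).1
    have := (it (j = i + 1) _).trans (h i).1
    refine (norm_sub_le _ _).trans ?_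
    rw [norm_neg]
    nlinarith
  · have a : ‖al c (t i) (s i)‖ ≤ (|c| + 1) * Real.exp b ^ 3 := by
      unfold al
      split_ifs
      · rw [norm_mul, norm_pow, Complex.norm_real, Real.norm_eq_abs]
        have := mul_le_mul_of_nonneg_left ((pow_le_pow_left₀ (norm_nonneg _) (h i).1 2).trans e4) c0
        nlinarith
      · rw [norm_one]
        nlinarith
      · rw [norm_zero]
        positivity
    rw [norm_mul]
    refine (mul_le_mul a ((norm_add_le _ _).trans (add_le_add (it _ _) (it _ _))) (norm_nonneg _)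
      (by positivity)).trans_eq ?_
    rw [norm_one]
    ring
  · refine (it _ _).trans ?_
    unfold be
    split_ifs with x
    · rw [norm_mul, norm_pow, norm_neg, Complex.norm_two]
      have := pow_le_pow_left₀ (norm_nonneg _) (hg i x) 3
      nlinarith
    · rw [norm_zero]
      positivity
    · rw [norm_one]
      nlinarith

theorem ent : Spec_ENT := by
  intro n _ c
  set N := Fintype.card (ZMod n ⊕ ZMod n)
  have f1 : (1 : ℝ) ≤ N.factorial := Nat.one_le_cast.2 N.factorial_pos
  refine ⟨N.factorial + N * (2 * |c| + 5), le_add_of_le_of_nonneg f1 (by positivity),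
    fun b hb t s l g h hg => (det_le (abv := NormedField.toAbsoluteValue ℂ)
      (MM_le c hb t h hg)).trans ?_⟩
  rw [nsmul_eq_mul, ← Real.exp_nat_mul, add_mul (N.factorial : ℝ), Real.exp_add,
    mul_assoc (N : ℝ)]
  gcongr
  nlinarith [Real.add_one_le_exp (N.factorial * b)]

end Vale.Agent.P097C
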