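import Vale.Agent.P097C.Spec

/-!
# P097C: the depth function and the basic barriers
-/

open Filter Topology Set Metric

namespace Vale.Agent.P097C

variable {r ρ k : ℝ} {y : ℂ}

theorem St_open (r : ℝ) : IsOpen (St r) := isOpen_lt (by fun_prop) continuous_const

theorem St_convex (r : ℝ) : Convex ℝ (St r) := by
  have : St r = {y : ℂ | -r < y.im} ∩ {y | y.im < r} := by ext y; simp [St, abs_lt]
  rw [this]
  exact (convex_halfSpace_im_gt _).inter (convex_halfSpace_im_lt _)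

theorem St_real (hr : 0 < r) (t : ℝ) : (t : ℂ) ∈ St r := by simpa [St] using hr

theorem St_zero (hr : 0 < r) : (0 : ℂ) ∈ St r := by simpa [St] using hr

theorem St_add (hy : y ∈ St r) {z : ℂ} (hz : z.im = 0) : y + z ∈ St r := by simpa [St, hz] using hy

theorem St_sub (hy : y ∈ St r) {z : ℂ} (hz : z.im = 0) : y - z ∈ St r := by simpa [St, hz] using hy

/-- identity theorem from the real line -/
theorem St_id {f g : ℂ → ℂ} (hr : 0 < r) (hf : AnalyticOnNhd ℂ f (St r))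
    (hg : AnalyticOnNhd ℂ g (St r)) (h : ∀ t : ℝ, f t = g t) : EqOn f g (St r) := by
  refine hf.eqOn_of_preconnected_of_frequently_eq hg (St_convex r).isPreconnected (St_zero hr) ?_
  have t : Tendsto (fun t : ℝ => (t : ℂ)) (𝓝[≠] 0) (𝓝[≠] 0) :=
    tendsto_nhdsWithin_iff.2 ⟨by
      simpa using (Complex.continuous_ofReal.tendsto 0).mono_left nhdsWithin_le_nhds,
      eventually_mem_nhdsWithin.mono fun t ht => by simpa using ht⟩
  exact t.frequently (.of_forall h)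

@[fun_prop] theorem dd_cont (r : ℝ) : Continuous (dd r) := by unfold dd; fun_prop

theorem dd_pos (hy : y ∈ St r) : 0 < dd r y := by
  have : |y.im| < r := hy
  unfold dd
  nlinarith [abs_nonneg y.im, sq_abs y.im]

theorem dd_le (r : ℝ) (y : ℂ) : dd r y ≤ r ^ 2 := sub_le_self _ (sq_nonneg _)

theorem dd_real (h : y.im = 0) : dd r y = r ^ 2 := by simp [dd, h]

theorem dd_ej (r : ℝ) (y : ℂ) : EJ (dd r) y (2 * y.im * Complex.I) (-2) :=
  ((EJ.im (F := fun x => x) (z := y) analyticAt_id).sq.const_sub (r ^ 2)).cast (by simp) (by simp)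

theorem dd_b (y : ℂ) : ‖2 * (y.im : ℂ) * Complex.I‖ ^ 2 = 4 * y.im ^ 2 := by
  simp [mul_pow]; norm_num

theorem dd_uj (r : ℝ) (y : ℂ) : UJ (dd r) y (-2) := (dd_ej r y).uj

/-- the clock -/
theorem clock_uj (hy : y ∈ St r) (hk : 0 ≤ k) :
    UJ (fun y => Real.log (dd r y + k)) y (-(2 * r ^ 2) / (dd r y + k) ^ 2) := by
  have h0 : 0 < dd r y + k := add_pos_of_pos_of_nonneg (dd_pos hy) hk
  refine (((dd_ej r y).add_const k).log h0.ne').uj.mono ?_
  rw [dd_b, div_sub_div _ _ h0.ne' (pow_ne_zero 2 h0.ne'), div_le_div_iff₀ (by positivity) (by positivity)]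
  have : r ^ 2 = dd r y + y.im ^ 2 := by simp [dd]
  rw [this]
  nlinarith [mul_nonneg (pow_nonneg h0.le 3) (add_nonneg hk (sq_nonneg y.im))]

/-- the normalised clock `log (1 + d / k)` -/
theorem mu_uj (hy : y ∈ St r) (hk : 0 < k) :
    UJ (fun y => Real.log (1 + dd r y / k)) y (-(2 * r ^ 2) / (dd r y + k) ^ 2) := by
  have := (clock_uj hy hk.le).add (UJ.const (-Real.log k) y)
  rw [add_zero] at this
  refine this.congr ?_
  filter_upwards [(St_open r).mem_nhds hy] with x hx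
  rw [← sub_eq_add_neg, ← Real.log_div (add_pos (dd_pos hx) hk).ne' hk.ne', add_div, div_self hk.ne',
    add_comm]

theorem mu_bar (hk : 0 < k) : Bar (St r) fun y => Real.log (1 + dd r y / k) :=
  ⟨(by fun_prop : Continuous fun y => 1 + dd r y / k).continuousOn.log fun y hy =>
    (add_pos one_pos (div_pos (dd_pos hy) hk)).ne',
   fun y hy => Real.log_nonneg (le_add_of_nonneg_right (div_pos (dd_pos hy) hk).le)⟩

namespace Bar

variable {S : Set ℂ} {W W' : ℂ → ℝ}

theorem add (h : Bar S W) (h' : Bar S W') : Bar S fun x => W x + W' x :=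
  ⟨h.1.add h'.1, fun y hy => add_nonneg (h.2 y hy) (h'.2 y hy)⟩

theorem smul (hk : 0 ≤ k) (h : Bar S W) : Bar S fun x => k * W x :=
  ⟨continuousOn_const.mul h.1, fun y hy => mul_nonneg hk (h.2 y hy)⟩

theorem const (hk : 0 ≤ k) : Bar S fun _ => k := ⟨continuousOn_const, fun _ _ => hk⟩

theorem min (h : Bar S W) (h' : Bar S W') : Bar S fun x => min (W x) (W' x) :=
  ⟨fun y hy => Tendsto.min (h.1 y hy) (h'.1 y hy), fun y hy => le_min (h.2 y hy) (h'.2 y hy)⟩

theorem sum {ι : Type*} (I : Finset ι) {W : ι → ℂ → ℝ} (h : ∀ i ∈ I, Bar S (W i)) :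
    Bar S fun x => ∑ i ∈ I, W i x :=
  ⟨continuousOn_finset_sum _ fun i hi => (h i hi).1,
    fun y hy => Finset.sum_nonneg fun i hi => (h i hi).2 y hy⟩

theorem comp {S' : Set ℂ} {F : ℂ → ℂ} (h : Bar S W) (hF : ContinuousOn F S') (hm : MapsTo F S' S) :
    Bar S' fun x => W (F x) := ⟨h.1.comp hF hm, fun y hy => h.2 _ (hm hy)⟩

theorem mono {S' : Set ℂ} (h : Bar S W) (e : S' ⊆ S) : Bar S' W :=
  ⟨h.1.mono e, fun y hy => h.2 y (e hy)⟩

end Bar

theorem dd_bar (r : ℝ) : Bar (St r) (dd r) := ⟨(dd_cont r).continuousOn, fun _ hy => (dd_pos hy).le⟩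

theorem Cv.bar {n : ℕ} {Y : ℂ → ZMod n → ℂ} (h : Cv r ρ Y) {W : ℂ → ℝ} (hW : Bar (St r) W)
    (j : ZMod n) : Bar (St ρ) fun x => W (Y x j) :=
  hW.comp (h.anY j).continuousOn fun _ hx => h.maps hx j

theorem AL.cv {n : ℕ} [NeZero n] {c C : ℝ} {θ h g Q : ℂ → ℂ} {Y s l τ η}
    (H : AL n r ρ c θ h g Y s l τ η) (hS : SD r θ h g Q c C) : Cv r ρ Y :=
  ⟨hS.r0, H.ρ0, H.anY, H.maps, H.re0⟩

end Vale.Agent.P097C
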