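import Vale.Agent.P097C.OccJ
import Vale.Agent.P097C.Ncp
import Vale.Agent.P097C.Dd

/-!
# P097C: occupation of the moderate band on the strip
-/

set_option linter.all false

open Filter Topology

namespace Vale.Agent.P097C

variable {r c C : ℝ} {θ h g Q : ℂ → ℂ}

theorem SD.cr (H : SD r θ h g Q c C) :
    OC.Cr (St r) (dd r) g Q (max 1 (2 * r)) (max 1 C) where
  opn := St_open r
  K1 := le_max_left _ _
  C1 := le_max_left _ _
  pos := fun _ => dd_pos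
  jet := fun y hy => by
    have hy : |y.im| < r := hy
    refine ⟨_, _, dd_ej r y, le_max_of_le_right ?_, ?_⟩
    · simpa using hy.le
    · have := pow_le_pow_left₀ (mul_pos two_pos H.r0).le (le_max_right 1 (2 * r)) 2
      have := dd_le r y
      rw [abs_neg, abs_two]
      linarith [sq_nonneg r]
  ang := H.ang
  anQ := H.anQ
  ode := H.ode
  bd := fun y hy => (H.bQ y hy).trans (le_max_right _ _)
  nd := fun y hy => by
    by_contra! e
    have := H.wr y hy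
    rw [e.1, e.2] at this
    exact H.c0.ne (by exact_mod_cast (by simpa using this : (0 : ℂ) = c))

open Classical in
/-- the occupation potential, a function of the data, in the form used by `tame_strip` -/
theorem occ_strip (H : SD r θ h g Q c C) (hN : NoCalm r g Q) {A ε : ℝ} (hA : 1 ≤ A) (hε : 0 < ε) :
    ∃ (M d₁ : ℝ) (Ξ : ℂ → ℝ), 0 < d₁ ∧ ContinuousOn Ξ (St r) ∧ (∀ y ∈ St r, 0 ≤ Ξ y ∧ Ξ y ≤ M) ∧
      (∀ x y, OC.Sm (dd r) g Q x y → Ξ x = Ξ y) ∧ ∀ y ∈ St r,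
        UJ Ξ y ((ε - if (A⁻¹ ≤ ‖g y‖ ∧ ‖g y‖ ≤ A) ∧ dd r y < d₁ then 1 else 0) / dd r y ^ 2) := by
  obtain ⟨k, c', d₁, c0, d0, hn⟩ := ncp H.anQ H.ang H.ode H.bQ hN A
  obtain ⟨M, Ξ, h⟩ := H.cr.occ0 (cau H.anQ H.bQ) hA hε c0 hn
  exact ⟨M, d₁, Ξ, d0, h⟩

theorem occ : Spec_OCC := fun r c C θ h g Q H hN A ε hA hε => by
  obtain ⟨M, d₁, Ξ, d0, h1, h2, -, h3⟩ := occ_strip H hN hA hε
  refine ⟨M, d₁, Ξ, d0, ⟨h1, fun y hy => (h2 y hy).1⟩, fun y hy => ⟨(h2 y hy).2,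
    (h3 y hy).mono (div_le_div_of_nonneg_right (sub_le_self _ ?_) (sq_nonneg _)),
    fun a1 a2 a3 => ?_⟩⟩
  · split_ifs <;> norm_num
  · simpa only [if_pos (And.intro (And.intro a1 a2) a3)] using h3 y hy

end Vale.Agent.P097C
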