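import Vale.Agent.P097C.Spec

/-!
# P097C: occupation up to depth `N` (row OCC2)

With `k = exp (-2 N)`, `W = min (Ξ + κ (log (d + k) + 2 N) + 1) (d / k) + d / (2 d₁ ^ 2)`.
-/

set_option linter.all false

open Filter Topology

namespace Vale.Agent.P097C

lemma oc2_dd (r : ℝ) (y : ℂ) : ∃ b : ℂ, EJ (dd r) y b (-2) ∧ ‖b‖ ^ 2 = 4 * (r ^ 2 - dd r y) := by
  have h := (EJ.im (F := fun x => x) (z := y) analyticAt_id).sq.const_sub (r ^ 2)
  refine ⟨_, h.cast rfl (by simp), ?_⟩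
  simp [mul_pow, dd]
  norm_num

lemma oc2_pos {r : ℝ} {y : ℂ} (hy : y ∈ St r) : 0 < dd r y ∧ dd r y ≤ r ^ 2 := by
  have h : |y.im| < r := hy
  have := sq_lt_sq' (abs_lt.1 h).1 (abs_lt.1 h).2
  exact ⟨by unfold dd; linarith, by unfold dd; nlinarith [sq_nonneg y.im]⟩

lemma oc2_log {r k : ℝ} {y : ℂ} (hy : y ∈ St r) (hk : 0 < k) (hkd : k ≤ dd r y) :
    UJ (fun x => Real.log (dd r x + k)) y (-(r ^ 2 / 2) / dd r y ^ 2) := by
  obtain ⟨b, h, hb⟩ := oc2_dd r y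
  obtain ⟨d0, d1⟩ := oc2_pos hy
  have p : 0 < dd r y + k := by linarith
  refine ((h.add_const k).log p.ne').uj.mono ?_
  rw [hb]
  set d := dd r y
  have e : -2 / (d + k) - 4 * (r ^ 2 - d) / (d + k) ^ 2
      = -(2 * (d + k) + 4 * (r ^ 2 - d)) / (d + k) ^ 2 := by field_simp; ring
  rw [e, neg_div, neg_div, neg_le_neg_iff, div_le_div_iff₀ (by positivity) (by positivity)]
  have h1 : (d + k) ^ 2 ≤ 4 * d ^ 2 := by nlinarith
  have h2 : r ^ 2 / 2 * (d + k) ^ 2 ≤ r ^ 2 / 2 * (4 * d ^ 2) := by gcongr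
  have h3 : 2 * r ^ 2 * d ^ 2 ≤ (2 * (d + k) + 4 * (r ^ 2 - d)) * d ^ 2 := by gcongr; linarith
  linarith

theorem occ2 : Spec_OCC2 := by
  intro r g hr H A ε hA hε
  obtain ⟨M, d₁, Ξ, hd, ⟨Xc, X0⟩, HX⟩ := H A (ε * r ^ 2 / 8) hA (by positivity)
  refine ⟨max 0 (2 * (M + ε / 4 * r ^ 2 + 1 + r ^ 2 / (2 * d₁ ^ 2)) / ε), fun N hN => ?_⟩
  have N0 : 0 ≤ N := (le_max_left _ _).trans hN
  have N1 : 2 * (M + ε / 4 * r ^ 2 + 1 + r ^ 2 / (2 * d₁ ^ 2)) ≤ N * ε :=
    (div_le_iff₀ hε).1 ((le_max_right _ _).trans hN)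
  set a := Real.exp (-N) with ha
  have a0 : 0 < a := Real.exp_pos _
  have a1 : a ≤ 1 := Real.exp_le_one_iff.2 (by linarith)
  have k0 : 0 < a ^ 2 := by positivity
  have k1 : a ^ 2 ≤ 1 := by nlinarith
  have lk : Real.log (a ^ 2) = -2 * N := by rw [Real.log_pow, ha, Real.log_exp]; push_cast; ring
  have dc : Continuous (dd r) := by unfold dd; fun_prop
  let U : ℂ → ℝ := fun y => Ξ y + (ε / 4 * Real.log (dd r y + a ^ 2) + (ε / 2 * N + 1))
  let V : ℂ → ℝ := fun y => (a ^ 2)⁻¹ * dd r y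
  have U1 : ∀ y ∈ St r, 1 ≤ U y := fun y hy => by
    have h1 : Real.log (a ^ 2) ≤ Real.log (dd r y + a ^ 2) :=
      Real.log_le_log k0 (by linarith [(oc2_pos hy).1])
    have h2 := mul_le_mul_of_nonneg_left h1 (show 0 ≤ ε / 4 by positivity)
    have := X0 y hy
    rw [lk] at h2
    simp only [U]
    linarith
  have Uc : ContinuousOn U (St r) := Xc.add ((continuousOn_const.mul
    ((dc.continuousOn.add continuousOn_const).log fun y hy =>
      (add_pos (oc2_pos hy).1 k0).ne')).add continuousOn_const)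
  have Vc : Continuous V := continuous_const.mul dc
  refine ⟨fun y => min (U y) (V y) + (2 * d₁ ^ 2)⁻¹ * dd r y, ⟨ContinuousOn.add
    (fun y hy => Tendsto.min (Uc y hy) Vc.continuousWithinAt) (continuous_const.mul dc).continuousOn,
    fun y hy => ?_⟩, fun y hy => ?_⟩
  · have := (oc2_pos hy).1
    exact add_nonneg (le_min (by linarith [U1 y hy]) (by simp only [V]; positivity)) (by positivity)
  obtain ⟨d0, d1⟩ := oc2_pos hy
  obtain ⟨XM, X1, X2⟩ := HX y hy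
  obtain ⟨b, hb, -⟩ := oc2_dd r y
  have JT : UJ (fun y => (2 * d₁ ^ 2)⁻¹ * dd r y) y (-1 / d₁ ^ 2) :=
    (hb.smul _).uj.mono (le_of_eq (by field_simp))
  have JT0 := JT.mono (show _ ≤ 0 from div_nonpos_of_nonpos_of_nonneg (by norm_num) (by positivity))
  have JU : ∀ s : ℝ, U y ≤ V y → UJ Ξ y ((ε * r ^ 2 / 8 - s) / dd r y ^ 2) →
      UJ (fun y => min (U y) (V y)) y (-s / dd r y ^ 2) := fun s e h => by
    have e1 : a ^ 2 ≤ dd r y := by
      have : 1 ≤ (a ^ 2)⁻¹ * dd r y := (U1 y hy).trans e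
      rwa [le_inv_mul_iff₀ k0, mul_one] at this
    exact ((h.add (((oc2_log hy k0 e1).smul (show 0 ≤ ε / 4 by positivity)).add
      (UJ.const _ y))).mono (le_of_eq (by ring))).min_left e
  have JV : V y ≤ U y → UJ (fun y => min (U y) (V y)) y (-1 / (dd r y + a) ^ 2) := fun e => by
    refine ((hb.smul _).uj.mono ?_).min_right e
    have : 1 / (dd r y + a) ^ 2 ≤ 1 / a ^ 2 := by gcongr; linarith
    have h2 : 0 < (a ^ 2)⁻¹ := by positivity
    rw [neg_div]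
    rw [one_div (a ^ 2)] at this
    linarith
  have n0 : -1 / (dd r y + a) ^ 2 ≤ 0 :=
    div_nonpos_of_nonpos_of_nonneg (by norm_num) (by positivity)
  have J0 : UJ (fun y => min (U y) (V y)) y 0 := (le_total (U y) (V y)).elim
    (fun e => (JU 0 e (by rwa [sub_zero])).mono (by simp)) fun e => (JV e).mono n0
  refine ⟨?_, (J0.add JT0).mono (by simp), fun g1 g2 => ?_⟩
  · have h1 : Real.log (dd r y + a ^ 2) ≤ r ^ 2 :=
      (Real.log_le_sub_one_of_pos (by positivity)).trans (by linarith)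
    have h2 := mul_le_mul_of_nonneg_left h1 (show 0 ≤ ε / 4 by positivity)
    have h3 : (2 * d₁ ^ 2)⁻¹ * dd r y ≤ r ^ 2 / (2 * d₁ ^ 2) := by
      rw [div_eq_inv_mul]; gcongr
    have h4 : min (U y) (V y) ≤ U y := min_le_left _ _
    simp only [U] at h4 ⊢
    linarith
  rcases lt_or_ge (dd r y) d₁ with h | h
  · refine (UJ.add ?_ JT0).mono (add_zero _).le
    refine (le_total (U y) (V y)).elim (fun e => (JU 1 e (X2 g1 g2 h)).mono ?_) JV
    rw [neg_div, neg_div, neg_le_neg_iff]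
    gcongr
    linarith
  · refine (J0.add JT).mono ?_
    rw [zero_add, neg_div, neg_div, neg_le_neg_iff]
    gcongr
    linarith

end Vale.Agent.P097C
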