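import Vale.Agent.P097C.Spec
import Vale.Agent.P267.H714.Picard

/-!
# P097C: continuation of a solution of an autonomous system to a disc of fixed radius (row ODE)
-/

set_option linter.all false

open Filter Topology Set Metric

namespace Vale.Agent.P097C

/-- an analytic square root -/
theorem Ode.sqrt {E : Type} [NormedAddCommGroup E] [NormedSpace ℂ E] {G : E → ℂ} {y₀ : E}
    (hG : AnalyticAt ℂ G y₀) (h0 : G y₀ ≠ 0) :
    ∃ q : E → ℂ, AnalyticAt ℂ q y₀ ∧ ∀ᶠ y in 𝓝 y₀, q y ^ 2 = G y := by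
  obtain ⟨s, hs⟩ := IsAlgClosed.exists_pow_nat_eq (G y₀) two_pos
  refine ⟨fun y => s * Complex.exp (Complex.log (G y / G y₀) / 2), analyticAt_const.mul
    (((hG.div_const (c := G y₀)).clog (by simp [h0])).div_const (c := 2)).cexp, ?_⟩
  filter_upwards [hG.continuousAt.eventually_ne h0] with y m
  rw [mul_pow, ← Complex.exp_nat_mul, hs, Nat.cast_ofNat, mul_div_cancel₀ _ two_ne_zero,
    Complex.exp_log (div_ne_zero m h0), mul_div_cancel₀ _ h0]

theorem ode : Spec_ODE := by
  intro ι _ R G y₀ N hR hG h0 hN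
  obtain ⟨q, aq, eq⟩ := Ode.sqrt hG h0
  have aF : AnalyticAt ℂ (fun y => q y • R y) y₀ := aq.smul hR
  obtain ⟨L, t, ht, hL⟩ := (aF.contDiffAt (n := 1)).exists_lipschitzOnWith
  obtain ⟨r, r0, hr⟩ := Metric.nhds_basis_closedBall.eventually_iff.1 (Eventually.and ht
    (Eventually.and hN (eq.and (aF.eventually_analyticAt.and aq.eventually_analyticAt))))
  set M : ℝ := ‖q y₀ • R y₀‖ + L * r with hM
  have L0 : (0 : ℝ) ≤ L := L.2
  have M0 : 0 ≤ M := by positivity
  set σ : ℝ := min (r / 2 / (M + 1)) (1 / 2 / (L + 1)) with hσ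
  have σ0 : 0 < σ := by positivity
  have σ1 : M * σ ≤ r / 2 := by
    have := (le_div_iff₀ (by positivity)).1 (min_le_left _ _ : σ ≤ _)
    nlinarith
  have σ2 : L * σ ≤ 1 / 2 := by
    have := (le_div_iff₀ (by positivity)).1 (min_le_right _ _ : σ ≤ _)
    nlinarith
  have lip : ∀ a ∈ closedBall y₀ r, ∀ b ∈ closedBall y₀ r,
      ‖q a • R a - q b • R b‖ ≤ L * ‖a - b‖ := fun a ha b hb => by
    simpa only [dist_eq_norm] using hL.dist_le_mul a (hr ha).1 b (hr hb).1
  refine ⟨σ, σ0, ball y₀ (r / 2), ball_mem_nhds _ (half_pos r0),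
    fun X Y u oX cX aY cu H x₁ h1 h2 h3 => ?_⟩
  have sub : closedBall (Y x₁) (r / 2) ⊆ closedBall y₀ r :=
    closedBall_subset_closedBall' (by linarith [mem_ball.1 h2])
  have m1 := sub (mem_closedBall_self (half_pos r0).le)
  obtain ⟨e, e1, e2⟩ : ∃ e : ℂ, e ^ 2 = 1 ∧ u x₁ = e * q (Y x₁) := by
    rcases sq_eq_sq_iff_eq_or_eq_neg.1
      ((H x₁ h1 (hr m1).2.1 h3).2.trans (hr m1).2.2.1.symm) with a | a
    exacts [⟨1, by simp, by simp [a]⟩, ⟨-1, by simp, by simp [a]⟩]
  have e3 : ‖e‖ = 1 := by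
    have := congrArg norm e1
    rw [norm_pow, norm_one] at this
    exact (pow_eq_one_iff_of_nonneg (norm_nonneg e) two_ne_zero).1 this
  have lip' : ∀ a ∈ closedBall y₀ r, ∀ b ∈ closedBall y₀ r,
      ‖e • q a • R a - e • q b • R b‖ ≤ L * ‖a - b‖ := fun a ha b hb => by
    rw [← smul_sub, norm_smul, e3, one_mul]
    exact lip a ha b hb
  obtain ⟨T, T0, T1, T2⟩ := P267.H714.picard isOpen_ball (convex_ball x₁ σ) (mem_ball_self σ0)
    (fun z m => (mem_ball_iff_norm.1 m).le) (x₀ := Y x₁) L0 σ2 M0 σ1 (fun _ y => e • q y • R y)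
    (fun T d m z hz => (((hr (sub (m hz))).2.2.2.1.differentiableAt.comp_differentiableWithinAt z
      (d z hz)).const_smul e))
    (fun _ _ y hy => by
      rw [norm_smul, e3, one_mul]
      have a1 := lip y (sub hy) y₀ (mem_closedBall_self r0.le)
      have a2 := mul_le_mul_of_nonneg_left (mem_closedBall_iff_norm.1 (sub hy)) L0
      linarith [norm_sub_norm_le (q y • R y) (q y₀ • R y₀)])
    fun _ _ a ha b hb => lip' a (sub ha) b (sub hb)
  have aT : AnalyticOnNhd ℂ T (ball x₁ σ) := DifferentiableOn.analyticOnNhd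
    (fun z m => (T2 z m).differentiableAt.differentiableWithinAt) isOpen_ball
  refine ⟨T, aT, ?_, fun z m => (hr (sub (T1 m))).2.1⟩
  have cY := (aY x₁ h1).continuousAt
  have cu' := cu.continuousAt (oX.mem_nhds h1)
  have c1 : ContinuousAt (fun x => u x + e * q (Y x)) x₁ :=
    cu'.add (continuousAt_const.mul ((hr m1).2.2.2.2.continuousAt.comp cY))
  obtain ⟨ρ, ρ0, hρ⟩ := Metric.nhds_basis_closedBall.eventually_iff.1 (Eventually.and
    (oX.mem_nhds h1) (Eventually.and (ball_mem_nhds x₁ σ0) ((cu'.eventually_ne h3).and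
    ((cY.tendsto.eventually (closedBall_mem_nhds _ (half_pos r0))).and
    (c1.eventually_ne (y := 0) (by rw [← e2, ← two_mul]; exact mul_ne_zero two_ne_zero h3))))))
  have key := P267.H714.gronwall (convex_closedBall x₁ ρ) (mem_closedBall_self ρ0.le) (ρ := σ)
    (fun z m => (mem_ball_iff_norm.1 (hρ m).2.1).le) (D := fun z => T z - Y z)
    (D' := fun z => e • q (T z) • R (T z) - e • q (Y z) • R (Y z)) (fun z m => by
      obtain ⟨a1, a2, a3, a4, a5⟩ := hρ m
      obtain ⟨b1, b2⟩ := H z a1 (hr (sub a4)).2.1 a3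
      have b3 : u z = e * q (Y z) := sub_eq_zero.1 ((mul_eq_zero.1 (by
        linear_combination b2 - (hr (sub a4)).2.2.1 - q (Y z) ^ 2 * e1)).resolve_left a5)
      have b4 := (aY z a1).differentiableAt.hasDerivAt
      rw [b1, b3, mul_smul] at b4
      exact ((T2 z a2).sub b4).hasDerivWithinAt) L0 le_rfl σ2
    (fun z m => by
      rw [add_zero]
      exact lip' _ (sub (T1 (hρ m).2.1)) _ (sub (hρ m).2.2.2.1)) (M := r)
    fun z m => by
      have := dist_triangle_right (T z) (Y z) (Y x₁)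
      rw [← dist_eq_norm]
      linarith [mem_closedBall.1 (T1 (hρ m).2.1), mem_closedBall.1 (hρ m).2.2.2.1]
  refine (aT.mono inter_subset_left).eqOn_of_preconnected_of_eventuallyEq
    (aY.mono inter_subset_right) ((convex_ball _ _).inter cX).isPreconnected
    ⟨mem_ball_self σ0, h1⟩ ?_
  filter_upwards [closedBall_mem_nhds x₁ ρ0] with z m
  have := key z m
  rw [T0, sub_self, norm_zero, zero_mul, add_zero, mul_zero] at this
  exact sub_eq_zero.1 (norm_le_zero_iff.1 this)

end Vale.Agent.P097C
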