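import Vale.Agent.P097C.Spec

/-!
# P097C: rigidity of the linear systems
-/

set_option linter.all false

open Filter Topology Set Metric Matrix

namespace Vale.Agent.P097C

namespace Rig

/-- Cramer's rule with bounds -/
theorem cram {ι : Type} [Fintype ι] [DecidableEq ι] (M : Matrix ι ι ℂ) (U : ι → ℂ) {B E : ℝ}
    (hB : 1 ≤ B) (hM : ∀ i j, ‖M i j‖ ≤ B) (hE : ∀ i, ‖(M *ᵥ U) i‖ ≤ E) (i : ι) :
    ‖M.det‖ * ‖U i‖ ≤
      Fintype.card ι * (((Fintype.card ι).factorial : ℝ) * B ^ Fintype.card ι * E) := by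
  have h1 : M.adjugate *ᵥ (M *ᵥ U) = M.det • U := by
    rw [mulVec_mulVec, adjugate_mul, smul_mulVec, one_mulVec]
  have h2 : ∀ j, ‖M.adjugate i j‖ ≤ ((Fintype.card ι).factorial : ℝ) * B ^ Fintype.card ι := by
    intro j
    rw [adjugate_apply]
    have := Matrix.det_le (A := M.updateRow j (Pi.single i 1))
      (abv := NormedField.toAbsoluteValue ℂ) (x := B) (fun a b => by
        show ‖M.updateRow j (Pi.single i 1) a b‖ ≤ B
        rw [updateRow_apply]
        split_ifs
        · rw [Pi.single_apply]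
          split_ifs
          · simpa using hB
          · simp only [norm_zero]
            linarith
        · exact hM a b)
    rw [nsmul_eq_mul] at this
    exact this
  have h3 : M.det * U i = ∑ j, M.adjugate i j * (M *ᵥ U) j := by
    have := congrFun h1 i
    rw [Pi.smul_apply, smul_eq_mul] at this
    rw [← this]
    rfl
  rw [← norm_mul, h3]
  refine (norm_sum_le _ _).trans ?_
  refine (Finset.sum_le_card_nsmul _ _
    (((Fintype.card ι).factorial : ℝ) * B ^ Fintype.card ι * E) fun j _ => ?_).trans_eq ?_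
  · rw [norm_mul]
    exact mul_le_mul (h2 j) (hE j) (norm_nonneg _) (by positivity)
  · rw [nsmul_eq_mul, Finset.card_univ]

variable {n : ℕ} [NeZero n] {c : ℝ} {t : ZMod n → Fin 3} {s l g τ η v : ZMod n → ℂ}

theorem mv_inl (j : ZMod n) : (MM c t s l g *ᵥ Sum.elim τ η) (.inl j) =
    l j * τ j - (s (j + 1) * η j + s j * η (j + 1)) := by
  simp only [mulVec, dotProduct, Fintype.sum_sum_type, MM, Sum.elim_inl, Sum.elim_inr, sub_mul,
    neg_mul, ite_mul, zero_mul, Finset.sum_sub_distrib, Finset.sum_neg_distrib,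
    Finset.sum_ite_eq', Finset.mem_univ, if_true]
  ring

theorem mv_inr (j : ZMod n) : (MM c t s l g *ᵥ Sum.elim τ η) (.inr j) =
    al c (t j) (s j) * (τ j + τ (j - 1)) + be (t j) (g j) * η j := by
  simp only [mulVec, dotProduct, Fintype.sum_sum_type, MM, Sum.elim_inl, Sum.elim_inr, mul_add,
    add_mul, mul_ite, ite_mul, zero_mul, mul_zero, mul_one, Finset.sum_add_distrib,
    Finset.sum_ite_eq', Finset.mem_univ, if_true]

theorem ent {b : ℝ} (c0 : 0 < c) (hb : 1 ≤ b)
    (hs : ∀ j, ‖s j‖ ≤ Real.exp b ∧ ‖l j‖ ≤ Real.exp b)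
    (hg : ∀ j, t j = 0 → ‖g j‖ ≤ Real.exp b) (i j : ZMod n ⊕ ZMod n) :
    ‖MM c t s l g i j‖ ≤ (2 * c + 2) * Real.exp b ^ 3 := by
  have e1 : 1 ≤ Real.exp b := Real.one_le_exp (by linarith)
  have e2 : Real.exp b ≤ Real.exp b ^ 3 := le_self_pow₀ e1 (by norm_num)
  have e3 : Real.exp b ^ 2 ≤ Real.exp b ^ 3 := pow_le_pow_right₀ e1 (by norm_num)
  have e4 : 0 ≤ c * Real.exp b ^ 3 := by positivity
  have it : ∀ (P : Prop) [Decidable P] (z : ℂ), ‖if P then z else 0‖ ≤ ‖z‖ := by
    intro P _ z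
    split_ifs <;> simp
  rcases i with i | i <;> rcases j with j | j
  · have := (it (j = i) (l i)).trans (hs i).2
    simp only [MM]
    linarith
  · simp only [MM]
    refine (norm_sub_le _ _).trans ?_
    rw [norm_neg]
    have h1 := (it (j = i) (s (i + 1))).trans (hs _).1
    have h2 := (it (j = i + 1) (s i)).trans (hs _).1
    linarith
  · simp only [MM]
    have h1 : ‖(if j = i then (1 : ℂ) else 0) + if j = i - 1 then (1 : ℂ) else 0‖ ≤ 2 := by
      refine (norm_add_le _ _).trans ?_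
      have h1 := it (j = i) 1
      have h2 := it (j = i - 1) 1
      rw [norm_one] at h1 h2
      linarith
    have h2 : ‖al c (t i) (s i)‖ ≤ (c + 1) * Real.exp b ^ 3 := by
      unfold al
      split_ifs
      · rw [norm_mul, norm_pow, Complex.norm_real, Real.norm_eq_abs, abs_of_pos c0]
        have := (pow_le_pow_left₀ (norm_nonneg _) (hs i).1 2).trans e3
        have := mul_le_mul_of_nonneg_left this c0.le
        linarith
      · rw [norm_one]
        linarith
      · rw [norm_zero]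
        linarith
    rw [norm_mul]
    exact (mul_le_mul h2 h1 (norm_nonneg _) (by positivity)).trans_eq (by ring)
  · simp only [MM]
    refine (it _ _).trans ?_
    unfold be
    split_ifs with k
    · rw [norm_mul, norm_pow, norm_neg, Complex.norm_two]
      have := pow_le_pow_left₀ (norm_nonneg _) (hg i k) 3
      linarith
    · rw [norm_zero]
      linarith
    · rw [norm_one]
      linarith

/-- a constant is at most `exp (A b)` -/
theorem cst {A b : ℝ} (hA : 0 ≤ A) (hb : 1 ≤ b) : A ≤ Real.exp (A * b) :=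
  ((by linarith [Real.add_one_le_exp A]) : A ≤ Real.exp A).trans
    (Real.exp_le_exp.2 (le_mul_of_one_le_right hA hb))

/-- the solution is bounded by the errors -/
theorem key (n : ℕ) [NeZero n] {c : ℝ} (c0 : 0 < c) : ∃ k : ℝ, 1 ≤ k ∧ ∀ b : ℝ, 1 ≤ b →
    ∀ (t : ZMod n → Fin 3) (s l g τ η v : ZMod n → ℂ) (E : ℝ), Eqs c s l g τ η v →
    (∀ j, ‖s j‖ ≤ Real.exp b ∧ ‖l j‖ ≤ Real.exp b) → (∀ j, t j = 0 → ‖g j‖ ≤ Real.exp b) →
    Real.exp (-b) ≤ ‖(MM c t s l g).det‖ → 0 ≤ E → (∀ j, t j = 1 → ‖2 * g j * v j‖ ≤ E) →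
    (∀ j, t j ≠ 0 → t j ≠ 1 → ‖η j‖ ≤ E) →
    ∀ j, ‖τ j‖ ≤ Real.exp (k * b) * E ∧ ‖η j‖ ≤ Real.exp (k * b) * E := by
  set N := Fintype.card (ZMod n ⊕ ZMod n)
  set A : ℝ := N * (N.factorial * (2 * c + 2) ^ N)
  have A0 : 0 ≤ A := by positivity
  refine ⟨1 + 3 * N + A, by linarith [(by positivity : (0 : ℝ) ≤ 3 * N)],
    fun b hb t s l g τ η v E H hs hg hd E0 h1 h2 => ?_⟩
  have e1 : 1 ≤ Real.exp b := Real.one_le_exp (by linarith)
  have hB : 1 ≤ (2 * c + 2) * Real.exp b ^ 3 :=
    one_le_mul_of_one_le_of_one_le (by linarith) (one_le_pow₀ e1)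
  have hE : ∀ i, ‖(MM c t s l g *ᵥ Sum.elim τ η) i‖ ≤ E := by
    rintro (j | j)
    · rw [mv_inl, H.eqE, sub_self, norm_zero]
      exact E0
    · rw [mv_inr, H.eqθ]
      unfold al be
      split_ifs with k1 k2
      · have : (c : ℂ) * s j ^ 2 * (2 * g j * v j) + -2 * g j ^ 3 * η j = 0 := by
          linear_combination (-2 * g j) * H.eqη j
        rw [this, norm_zero]
        exact E0
      · simpa using h1 j k2
      · simpa using h2 j k1 k2
  have main : ∀ i, ‖Sum.elim τ η i‖ ≤ Real.exp ((1 + 3 * N + A) * b) * E := by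
    intro i
    have k1 := cram (MM c t s l g) (Sum.elim τ η) hB (ent c0 hb hs hg) hE i
    have k2 := (mul_le_mul_of_nonneg_right hd (norm_nonneg (Sum.elim τ η i))).trans k1
    have k3 : Real.exp ((1 + 3 * N + A) * b) =
        Real.exp b * ((Real.exp b ^ 3) ^ N * Real.exp (A * b)) := by
      rw [← pow_mul, ← Real.exp_nat_mul, ← Real.exp_add, ← Real.exp_add]
      congr 1
      push_cast
      ring
    have k4 : Real.exp b * Real.exp (-b) = 1 := by rw [← Real.exp_add]; simp
    calc ‖Sum.elim τ η i‖ = Real.exp b * (Real.exp (-b) * ‖Sum.elim τ η i‖) := by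
          rw [← mul_assoc, k4, one_mul]
      _ ≤ Real.exp b * (N * ((N.factorial : ℝ) * ((2 * c + 2) * Real.exp b ^ 3) ^ N * E)) :=
          mul_le_mul_of_nonneg_left k2 (by positivity)
      _ = Real.exp b * ((Real.exp b ^ 3) ^ N * A) * E := by
          rw [mul_pow]
          ring
      _ ≤ _ := by
          rw [k3]
          gcongr
          exact cst A0 hb
  exact fun j => ⟨main (.inl j), main (.inr j)⟩

end Rig

open Rig

theorem rig : Spec_RIG := by
  intro n _ c c0
  obtain ⟨k, k1, hk⟩ := key n c0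
  have ci : 0 < c⁻¹ := inv_pos.2 c0
  refine ⟨k + 2 + (2 + c) + 2 + c⁻¹, by linarith, fun b hb s l g τ η v H hs => ⟨?_, ?_⟩⟩
  · intro T hT hg hd
    have e1 : 1 ≤ Real.exp b := Real.one_le_exp (by linarith)
    obtain ⟨i, hi, hm⟩ := Finset.exists_max_image Tᶜ (fun j => ‖v j‖)
      (Finset.nonempty_iff_ne_empty.2 fun e => hT ((Finset.compl_eq_empty_iff T).1 e))
    have hi' : i ∉ T := Finset.mem_compl.1 hi
    have hm' : ∀ j ∉ T, ‖v j‖ ≤ ‖v i‖ := fun j hj => hm j (Finset.mem_compl.2 hj)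
    set t : ZMod n → Fin 3 := fun j => if j ∈ T then 0 else if ‖g j‖ ≤ 1 then 1 else 2 with ht
    have t0 : ∀ j, t j = 0 ↔ j ∈ T := by
      intro j
      simp only [ht]
      split_ifs with a1 a2 <;> simp [a1]
    have t1 : ∀ j, t j = 1 → j ∉ T ∧ ‖g j‖ ≤ 1 := by
      intro j
      simp only [ht]
      split_ifs with a1 a2
      · simp
      · simp [a1, a2]
      · simp
    have t2 : ∀ j, t j ≠ 0 → t j ≠ 1 → j ∉ T ∧ 1 < ‖g j‖ := by
      intro j
      simp only [ht]
      split_ifs with a1 a2 <;> simp [a1]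
      exact not_le.1 a2
    have nη : ∀ j, ‖g j‖ ^ 2 * ‖η j‖ = c * ‖s j‖ ^ 2 * ‖v j‖ := by
      intro j
      have := congrArg norm (H.eqη j)
      rwa [norm_mul, norm_mul, norm_mul, norm_pow, norm_pow, Complex.norm_real, Real.norm_eq_abs,
        abs_of_pos c0] at this
    have e2 : 1 ≤ Real.exp b ^ 2 := one_le_pow₀ e1
    have vi := norm_nonneg (v i)
    have K := hk b hb t s l g τ η v ((2 + c) * Real.exp b ^ 2 * ‖v i‖) H
      (fun j => (hs j).2) (fun j a => hg j ((t0 j).1 a)) (hd t t0) (by positivity)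
      (fun j a => by
        obtain ⟨a1, a2⟩ := t1 j a
        rw [norm_mul, norm_mul, Complex.norm_two]
        refine mul_le_mul ?_ (hm' j a1) (norm_nonneg _) (by positivity)
        nlinarith)
      (fun j a a' => by
        obtain ⟨a1, a2⟩ := t2 j a a'
        have b1 : ‖η j‖ ≤ ‖g j‖ ^ 2 * ‖η j‖ :=
          le_mul_of_one_le_left (norm_nonneg _) (one_le_pow₀ a2.le)
        rw [nη] at b1
        refine b1.trans (mul_le_mul ?_ (hm' j a1) (norm_nonneg _) (by positivity))
        exact mul_le_mul (by linarith) (pow_le_pow_left₀ (norm_nonneg _) (hs j).2.1 2)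
          (by positivity) (by positivity))
    have K1 : Real.exp (k * b) * ((2 + c) * Real.exp b ^ 2 * ‖v i‖) ≤
        Real.exp ((k + 2 + (2 + c)) * b) * ‖v i‖ := by
      have : Real.exp ((k + 2 + (2 + c)) * b) =
          Real.exp (k * b) * (Real.exp ((2 + c) * b) * Real.exp b ^ 2) := by
        rw [← Real.exp_nat_mul, ← Real.exp_add, ← Real.exp_add]
        congr 1
        push_cast
        ring
      rw [this, mul_assoc (Real.exp (k * b))]
      gcongr
      exact cst (by linarith) hb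
    have K2 : Real.exp ((k + 2 + (2 + c)) * b) ≤ Real.exp ((k + 2 + (2 + c) + 2 + c⁻¹) * b) :=
      Real.exp_le_exp.2 (mul_le_mul_of_nonneg_right (by linarith) (by linarith))
    have K3 : ∀ j, ‖g j * v j‖ ≤ Real.exp ((k + 2 + (2 + c) + 2 + c⁻¹) * b) * ‖v i‖ := by
      intro j
      have a1 := congrArg norm (H.eqθ j)
      rw [mul_assoc, norm_mul, Complex.norm_two] at a1
      have a2 := norm_add_le (τ j) (τ (j - 1))
      have a3 := mul_le_mul_of_nonneg_right K2 vi
      linarith [(K j).1, (K (j - 1)).1]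
    refine ⟨i, hi', K3, hm', fun v0 => ?_⟩
    have v1 : 0 < ‖v i‖ := norm_pos_iff.2 v0
    refine ⟨?_, le_of_mul_le_mul_right (by rw [← norm_mul]; exact K3 i) v1⟩
    have a1 : c * ‖s i‖ ^ 2 ≤ ‖g i‖ ^ 2 * Real.exp ((k + 2 + (2 + c)) * b) := by
      refine le_of_mul_le_mul_right ?_ v1
      rw [← nη, mul_assoc]
      exact mul_le_mul_of_nonneg_left ((K i).2.trans K1) (by positivity)
    have a2 : Real.exp (-(c⁻¹ * b)) ≤ c := by
      rw [Real.exp_neg]
      exact inv_le_of_inv_le₀ c0 (cst ci.le hb)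
    have a3 : Real.exp (-(c⁻¹ * b)) * Real.exp (-b) ^ 2 ≤ c * ‖s i‖ ^ 2 :=
      mul_le_mul a2 (pow_le_pow_left₀ (by positivity) (hs i).1 2) (by positivity) c0.le
    have a4 : Real.exp (-((k + 2 + (2 + c) + 2 + c⁻¹) * b)) * Real.exp ((k + 2 + (2 + c)) * b) =
        Real.exp (-(c⁻¹ * b)) * Real.exp (-b) ^ 2 := by
      rw [← Real.exp_nat_mul, ← Real.exp_add, ← Real.exp_add]
      congr 1
      push_cast
      ring
    have a5 : Real.exp (-((k + 2 + (2 + c) + 2 + c⁻¹) * b)) ≤ ‖g i‖ ^ 2 :=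
      le_of_mul_le_mul_right (a4.trans_le (a3.trans a1)) (Real.exp_pos _)
    have a6 : Real.exp (-((k + 2 + (2 + c) + 2 + c⁻¹) * b)) ≤ 1 :=
      Real.exp_le_one_iff.2 (neg_nonpos.2 (by positivity))
    refine (pow_le_pow_iff_left₀ (Real.exp_pos _).le (norm_nonneg _) two_ne_zero).1 (le_trans ?_ a5)
    rw [sq]
    exact mul_le_of_le_one_left (Real.exp_pos _).le a6
  · intro i hg hd j
    have K := hk b hb (piv i) s l g τ η v ‖η i‖ H (fun j => (hs j).2) (fun j _ => hg j) hd
      (norm_nonneg _) (fun j a => by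
        unfold piv at a
        split_ifs at a <;> simp at a) (fun j a _ => by
        unfold piv at a
        split_ifs at a with a1
        · rw [a1]
        · exact absurd rfl a)
    refine (K j).2.trans (mul_le_mul_of_nonneg_right ?_ (norm_nonneg _))
    exact Real.exp_le_exp.2 (mul_le_mul_of_nonneg_right (by linarith) (by linarith))

end Vale.Agent.P097C
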