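import Vale.Agent.P097C.Spec

/-!
# P097C: tame configurations (`Spec_TAME`) and rigidity at tame configurations (`Spec_GD`)
-/

set_option linter.all false

open Filter Topology Set Metric

namespace Vale.Agent.P097C

namespace TameA

lemma g_le {r c C L lam : ℝ} {θ h g Q : ℂ → ℂ} (hS : SD r θ h g Q c C) {y : ℂ} (hy : y ∈ St r)
    (hL : Real.exp (-L) ≤ dd r y) (hC : C ≤ lam) : ‖g y‖ ≤ Real.exp (lam + L) := by
  have h1 := hS.bg y hy
  have h2 : ‖g y‖ * Real.exp (-L) ≤ C := (mul_le_mul_of_nonneg_left hL (norm_nonneg _)).trans h1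
  have h3 : C ≤ Real.exp lam := by linarith [Real.add_one_le_exp lam]
  have h4 : ‖g y‖ = ‖g y‖ * Real.exp (-L) * Real.exp L := by
    rw [mul_assoc, ← Real.exp_add, neg_add_cancel, Real.exp_zero, mul_one]
  rw [h4, Real.exp_add]
  exact mul_le_mul_of_nonneg_right (h2.trans h3) (Real.exp_pos _).le

lemma eqs {n : ℕ} [NeZero n] {r ρ c : ℝ} {θ h g : ℂ → ℂ} {Y : ℂ → ZMod n → ℂ}
    {s l : ZMod n → (ZMod n → ℂ) → ℂ} {τ η : ZMod n → ℂ → ℂ} (H : AL n r ρ c θ h g Y s l τ η)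
    {x : ℂ} (hx : x ∈ St ρ) :
    Eqs c (fun j => s j (Y x)) (fun j => l j (Y x)) (fun j => g (Y x j)) (fun j => τ j x)
      (fun j => η j x) (fun j => deriv (fun x => Y x j) x) :=
  ⟨fun j => H.eqE j x hx, fun j => H.eqθ j x hx, fun j => H.eqη j x hx⟩

lemma an_det {ι : Type} [Fintype ι] [DecidableEq ι] {M : ℂ → Matrix ι ι ℂ} {x : ℂ}
    (h : ∀ i j, AnalyticAt ℂ (fun x => M x i j) x) : AnalyticAt ℂ (fun x => (M x).det) x := by
  simp only [Matrix.det_apply']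
  exact Finset.analyticAt_fun_sum _ fun σ _ =>
    analyticAt_const.mul (Finset.analyticAt_fun_prod _ fun i _ => h _ _)

lemma an_ite {p : Prop} {_ : Decidable p} {f g : ℂ → ℂ} {x : ℂ} (hf : AnalyticAt ℂ f x)
    (hg : AnalyticAt ℂ g x) : AnalyticAt ℂ (fun x => if p then f x else g x) x := by
  by_cases hp : p
  · simpa only [if_pos hp] using hf
  · simpa only [if_neg hp] using hg

lemma an_MM {n : ℕ} [NeZero n] (c : ℝ) (t : ZMod n → Fin 3) {s l g : ZMod n → ℂ → ℂ} {x : ℂ}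
    (hs : ∀ j, AnalyticAt ℂ (s j) x) (hl : ∀ j, AnalyticAt ℂ (l j) x)
    (hg : ∀ j, AnalyticAt ℂ (g j) x) :
    AnalyticAt ℂ (fun x => (MM c t (fun j => s j x) (fun j => l j x) fun j => g j x).det) x := by
  refine an_det fun i j => ?_
  rcases i with i | i <;> rcases j with j | j
  · exact an_ite (hl i) analyticAt_const
  · exact (an_ite (hs (i + 1)) analyticAt_const).neg.sub (an_ite (hs i) analyticAt_const)
  · exact (an_ite (analyticAt_const.mul ((hs i).pow 2)) analyticAt_const).mul analyticAt_const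
  · exact an_ite (an_ite (analyticAt_const.mul ((hg i).pow 3)) analyticAt_const) analyticAt_const

lemma jen' (hJ : Spec_JEN) {n : ℕ} {r ρ : ℝ} {Y : ℂ → ZMod n → ℂ} (hY : Cv r ρ Y) {F : ℂ → ℂ}
    (T : Finset (ZMod n)) {L M K lam e : ℝ} (hF : AnalyticOnNhd ℂ F (St ρ)) (h0 : F 0 ≠ 0)
    (he : 0 < e) (hL : lam ≤ L) (hM : lam ≤ M) (hK : 1 ≤ K) (hK' : 4 / e ≤ K) (h1 : 4 / e ≤ lam)
    (h2 : 1 + |Real.log ‖F 0‖| ≤ lam) :
    ∃ W, Bar (St ρ) W ∧ W 0 ≤ e ∧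
      ∀ x ∈ St ρ, (W x < 1 → Lev r (Y x) T L → Real.exp (-(K * M)) ≤ ‖F x‖) ∧
        ((Lev r (Y x) T (2 * L) → ‖F x‖ ≤ Real.exp M) → UJ W x 0) := by
  have ha := abs_nonneg (Real.log ‖F 0‖)
  obtain ⟨W, hb, hw, hx⟩ := hJ n r ρ Y hY F T L M K hF h0 (by linarith) (by linarith) hK
  refine ⟨W, hb, hw.trans ?_, hx⟩
  have hM0 : 0 < M := by linarith
  have hK0 : 0 < K := by linarith
  have e1 : 4 ≤ K * e := (div_le_iff₀ he).1 hK'
  have e2 : 4 ≤ lam * e := (div_le_iff₀ he).1 h1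
  have k1 : (M + 1 + |Real.log ‖F 0‖|) / (K * M) ≤ e / 2 := by
    rw [div_le_iff₀ (mul_pos hK0 hM0)]
    nlinarith [mul_le_mul_of_nonneg_right e1 hM0.le]
  have k2 : Real.exp (-L) ≤ e / 4 := by
    rw [Real.exp_neg, inv_le_comm₀ (Real.exp_pos _) (by linarith), inv_div]
    linarith [Real.add_one_le_exp L]
  linarith

end TameA

open TameA

theorem gd (hR : Spec_RIG) : Spec_GD := by
  intro n _ r ρ c C θ h g Q Y s l τ η hS H K hK
  obtain ⟨k, hk, hr⟩ := hR n c hS.c0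
  refine ⟨k * K, max C 1, by nlinarith, ?_⟩
  intro lam hlam Λ hΛ x hx hG L hL T hT hLev
  have l1 : 1 ≤ lam := (le_max_right _ _).trans hlam
  have l2 : C ≤ lam := (le_max_left _ _).trans hlam
  have l3 : lam ≤ L := hΛ L hL
  have b1 : lam + L ≤ K * (lam + L) := by nlinarith
  have b2 : K * lam ≤ K * (lam + L) := by nlinarith
  have := (hr (K * (lam + L)) (by linarith) _ _ _ _ _ _ (eqs H hx) (fun j =>
    ⟨(Real.exp_le_exp.2 (by linarith)).trans (hG.1 j).1,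
      (hG.1 j).2.1.trans (Real.exp_le_exp.2 b2), (hG.1 j).2.2.trans (Real.exp_le_exp.2 b2)⟩)).1
    T hT (fun j hj => (g_le hS (H.maps hx j) (hLev j hj) l2).trans (Real.exp_le_exp.2 b1))
    (fun t ht => by
      obtain ⟨j, hj⟩ : ∃ j, j ∉ T := by
        by_contra hn
        exact hT (Finset.eq_univ_iff_forall.2 fun j => by_contra fun hj => hn ⟨j, hj⟩)
      exact hG.2 L hL t ⟨j, fun e => hj ((ht j).1 e)⟩
        (fun i hi => hLev i ((ht i).1 (Finset.mem_filter.1 hi).2)))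
  rw [mul_assoc]
  exact this

theorem tameA (hH : Spec_HB) (hJ : Spec_JEN) (hD : Spec_DET) (hE : Spec_ENT) : Spec_TAME := by
  intro n _ r ρ c C θ h g Q Y s l τ η hS H ε m hε
  obtain ⟨B, hB⟩ := H.bnd
  obtain ⟨k, hk, hent⟩ := hE n c
  have hY : Cv r ρ Y := ⟨hS.r0, H.ρ0, H.anY, H.maps, H.re0⟩
  have h0 : (0 : ℂ) ∈ St ρ := by
    show |(0 : ℂ).im| < ρ
    simpa using H.ρ0
  have hre : ∀ j, (((Y 0 j).re : ℝ) : ℂ) = Y 0 j := fun j =>
    Complex.ext (by simp) (by simp [H.re0 j])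
  have aY : ∀ x ∈ St ρ, AnalyticAt ℂ Y x := fun x hx =>
    analyticAt_pi_iff.2 fun j => H.anY j x hx
  have as : ∀ j, AnalyticOnNhd ℂ (fun x => s j (Y x)) (St ρ) := fun j x hx =>
    (H.ans j _ (H.maps hx)).comp (aY x hx)
  have al' : ∀ j, AnalyticOnNhd ℂ (fun x => l j (Y x)) (St ρ) := fun j x hx =>
    (H.anl j _ (H.maps hx)).comp (aY x hx)
  have ag : ∀ j, AnalyticOnNhd ℂ (fun x => g (Y x j)) (St ρ) := fun j x hx =>
    AnalyticAt.comp (g := g) (f := fun x => Y x j) (hS.ang _ (H.maps hx j)) (H.anY j x hx)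
  have aF : ∀ t, AnalyticOnNhd ℂ (fun x => FF c g s l t (Y x)) (St ρ) := fun t x hx =>
    an_MM c t (s := fun j x => s j (Y x)) (l := fun j x => l j (Y x)) (g := fun j x => g (Y x j))
      (fun j => as j x hx) (fun j => al' j x hx) (fun j => ag j x hx)
  have s0 : ∀ j, s j (Y 0) ≠ 0 := fun j e => by
    have := (H.pos0 j).1.2
    rw [e] at this
    simp at this
  have F0 : ∀ t : ZMod n → Fin 3, (∃ j, t j ≠ 0) → FF c g s l t (Y 0) ≠ 0 := fun t ht =>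
    hD n c _ _ _ _ _ _ H.odd hS.c0 (eqs H h0) (fun j =>
      ⟨(H.pos0 j).1, (H.pos0 j).2.1, (H.pos0 j).2.2, by
        have := hS.posg (Y 0 j).re
        rwa [hre] at this⟩) t ht
  obtain ⟨A₁, hA₁⟩ := (Set.finite_range fun j => |Real.log ‖s j (Y 0)‖|).bddAbove
  obtain ⟨A₂, hA₂⟩ :=
    (Set.finite_range fun t : ZMod n → Fin 3 => |Real.log ‖FF c g s l t (Y 0)‖|).bddAbove
  obtain ⟨N₁, hN₁⟩ : ∃ N : ℝ, N = Fintype.card (ZMod n) := ⟨_, rfl⟩
  obtain ⟨N₂, hN₂⟩ : ∃ N : ℝ, N = Fintype.card (ZMod n → Fin 3) := ⟨_, rfl⟩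
  have n1 : 0 ≤ N₁ := hN₁ ▸ Nat.cast_nonneg _
  have n2 : 0 ≤ N₂ := hN₂ ▸ Nat.cast_nonneg _
  have n3 : (0 : ℝ) ≤ m * N₂ := mul_nonneg (Nat.cast_nonneg _) n2
  obtain ⟨e, he, hee⟩ : ∃ e : ℝ, 0 < e ∧ N₁ * e + N₁ * e + m * (N₂ * e) ≤ ε := by
    have hp : 0 < 2 * N₁ + m * N₂ + 1 := by linarith
    refine ⟨ε / (2 * N₁ + m * N₂ + 1), div_pos hε hp, ?_⟩
    have h1 : ε / (2 * N₁ + m * N₂ + 1) * (2 * N₁ + m * N₂ + 1) = ε := div_mul_cancel₀ _ hp.ne'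
    have h2 := div_pos hε hp
    nlinarith
  obtain ⟨lamH, hH'⟩ := hH r c C θ h g Q hS (Finset.univ.image fun j => (Y 0 j).re) e he
  obtain ⟨B₁, hB1, hB2⟩ : ∃ B₁ : ℝ, 1 ≤ B₁ ∧ 11 * B ≤ B₁ := ⟨max 1 (11 * B), le_max_left _ _,
    le_max_right _ _⟩
  obtain ⟨K₀, hK1, hK2⟩ : ∃ K₀ : ℝ, 1 ≤ K₀ ∧ 4 / e ≤ K₀ := ⟨max 1 (4 / e), le_max_left _ _,
    le_max_right _ _⟩
  have kk1 : K₀ ≤ K₀ * k := by nlinarith
  have kk2 : K₀ * k * B₁ ≤ K₀ * k * (B₁ + 2) := by nlinarith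
  have kk3 : K₀ * B₁ ≤ K₀ * k * B₁ := by nlinarith
  have kk4 : B₁ ≤ K₀ * B₁ := by nlinarith
  refine ⟨K₀ * k * (B₁ + 2), max (max (max lamH C) (4 / e)) (max 1 (max (1 + A₁) (1 + A₂))),
    by linarith, ?_⟩
  intro lam hlam Λ hΛ hL
  simp only [ge_iff_le, max_le_iff] at hlam
  obtain ⟨⟨⟨l1, l2⟩, l3⟩, l4, l5, l6⟩ := hlam
  obtain ⟨WH, bH, zH, xH⟩ := hH' lam l1
  have m1 : lam ≤ B₁ * lam := by nlinarith
  have hs : ∀ j, ∃ W, Bar (St ρ) W ∧ W 0 ≤ e ∧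
      ∀ x ∈ St ρ, (W x < 1 → Real.exp (-(K₀ * (B₁ * lam))) ≤ ‖s j (Y x)‖) ∧
        (‖s j (Y x)‖ ≤ Real.exp (B₁ * lam) → UJ W x 0) := fun j => by
    obtain ⟨W, w1, w2, w3⟩ := jen' hJ hY ∅ (as j) (s0 j) he le_rfl m1 hK1 hK2 l3
      (by linarith [hA₁ (Set.mem_range_self j)])
    exact ⟨W, w1, w2, fun x hx => ⟨fun hw => (w3 x hx).1 hw fun i hi => by simp at hi,
      fun hb => (w3 x hx).2 fun _ => hb⟩⟩
  have hF : ∀ (L : ℝ) (t : ZMod n → Fin 3), ∃ W, Bar (St ρ) W ∧ W 0 ≤ e ∧ (lam ≤ L →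
      ∀ x ∈ St ρ, (W x < 1 → (∃ j, t j ≠ 0) →
        Lev r (Y x) (Finset.univ.filter fun j => t j = 0) L →
          Real.exp (-(K₀ * k * (B₁ + 2) * (lam + L))) ≤ ‖FF c g s l t (Y x)‖) ∧
        ((∀ j, ‖s j (Y x)‖ ≤ Real.exp (B₁ * lam) ∧ ‖l j (Y x)‖ ≤ Real.exp (B₁ * lam)) →
          UJ W x 0)) := fun L t => by
    by_cases hc : lam ≤ L ∧ ∃ j, t j ≠ 0
    · have q1 : lam ≤ B₁ * lam + 2 * L := by linarith [hc.1]
      have q2 : B₁ * lam + 2 * L ≤ k * (B₁ * lam + 2 * L) := by nlinarith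
      obtain ⟨W, w1, w2, w3⟩ := jen' hJ hY (Finset.univ.filter fun j => t j = 0) (aF t)
        (F0 t hc.2) he hc.1 (q1.trans q2) hK1 hK2 l3
        (by linarith [hA₂ (Set.mem_range_self t)])
      refine ⟨W, w1, w2, fun _ x hx => ⟨fun hw _ hl => le_trans (Real.exp_le_exp.2 ?_)
        ((w3 x hx).1 hw hl), fun hb => (w3 x hx).2 fun hl => ?_⟩⟩
      · have q3 : B₁ * lam + 2 * L ≤ (B₁ + 2) * (lam + L) := by nlinarith [hc.1]
        have q4 := mul_le_mul_of_nonneg_left q3 (show 0 ≤ K₀ * k by linarith)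
        have q5 : K₀ * (k * (B₁ * lam + 2 * L)) = K₀ * k * (B₁ * lam + 2 * L) := by ring
        have q6 : K₀ * k * (B₁ + 2) * (lam + L) = K₀ * k * ((B₁ + 2) * (lam + L)) := by ring
        linarith
      · have q3 : Real.exp (B₁ * lam) ≤ Real.exp (B₁ * lam + 2 * L) :=
          Real.exp_le_exp.2 (by linarith [hc.1])
        exact hent (B₁ * lam + 2 * L) (by linarith) t _ _ _
          (fun j => ⟨(hb j).1.trans q3, (hb j).2.trans q3⟩)
          (fun j hj => (g_le hS (H.maps hx j)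
            (hl j (Finset.mem_filter.2 ⟨Finset.mem_univ _, hj⟩)) l2).trans
            (Real.exp_le_exp.2 (by linarith)))
    · exact ⟨fun _ => 0, ⟨continuousOn_const, fun _ _ => le_rfl⟩, he.le, fun h1 x _ =>
        ⟨fun _ h2 => absurd ⟨h1, h2⟩ hc, fun _ => UJ.const 0 x⟩⟩
  choose WS bS zS xS using hs
  choose WF bF zF xF using hF
  have cH : ∀ j, ContinuousOn (fun x => WH (Y x j)) (St ρ) := fun j =>
    bH.1.comp (H.anY j).continuousOn fun x hx => H.maps hx j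
  have p1 : ∀ x ∈ St ρ, ∀ j, 0 ≤ WH (Y x j) := fun x hx j => bH.2 _ (H.maps hx j)
  have p2 : ∀ x ∈ St ρ, ∀ j, 0 ≤ WS j x := fun x hx j => (bS j).2 x hx
  have p3 : ∀ x ∈ St ρ, ∀ L t, 0 ≤ WF L t x := fun x hx L t => (bF L t).2 x hx
  have s1 : ∀ x ∈ St ρ, 0 ≤ ∑ j, WH (Y x j) := fun x hx =>
    Finset.sum_nonneg fun j _ => p1 x hx j
  have s2 : ∀ x ∈ St ρ, 0 ≤ ∑ j, WS j x := fun x hx => Finset.sum_nonneg fun j _ => p2 x hx j
  have s3 : ∀ x ∈ St ρ, ∀ L, 0 ≤ ∑ t, WF L t x := fun x hx L =>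
    Finset.sum_nonneg fun t _ => p3 x hx L t
  have s4 : ∀ x ∈ St ρ, 0 ≤ ∑ L ∈ Λ, ∑ t, WF L t x := fun x hx =>
    Finset.sum_nonneg fun L _ => s3 x hx L
  refine ⟨fun x => (∑ j, WH (Y x j) + ∑ j, WS j x) + ∑ L ∈ Λ, ∑ t, WF L t x,
    ⟨((continuousOn_finset_sum _ fun j _ => cH j).add
      (continuousOn_finset_sum _ fun j _ => (bS j).1)).add
      (continuousOn_finset_sum _ fun L _ => continuousOn_finset_sum _ fun t _ => (bF L t).1),
      fun x hx => add_nonneg (add_nonneg (s1 x hx) (s2 x hx)) (s4 x hx)⟩, ?_, ?_⟩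
  · have z1 : ∑ j, WH (Y 0 j) ≤ N₁ * e := by
      have := Finset.sum_le_card_nsmul Finset.univ (fun j => WH (Y 0 j)) e fun j _ => by
        have := zH _ (Finset.mem_image_of_mem (fun j => (Y 0 j).re) (Finset.mem_univ j))
        rwa [hre] at this
      rwa [nsmul_eq_mul, Finset.card_univ, ← hN₁] at this
    have z2 : ∑ j, WS j 0 ≤ N₁ * e := by
      have := Finset.sum_le_card_nsmul Finset.univ (fun j => WS j 0) e fun j _ => zS j
      rwa [nsmul_eq_mul, Finset.card_univ, ← hN₁] at this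
    have z3 : ∀ L, ∑ t, WF L t 0 ≤ N₂ * e := fun L => by
      have := Finset.sum_le_card_nsmul Finset.univ (fun t => WF L t 0) e fun t _ => zF L t
      rwa [nsmul_eq_mul, Finset.card_univ, ← hN₂] at this
    have z4 : ∑ L ∈ Λ, ∑ t, WF L t 0 ≤ m * (N₂ * e) := by
      have := Finset.sum_le_card_nsmul Λ (fun L => ∑ t, WF L t 0) _ fun L _ => z3 L
      rw [nsmul_eq_mul] at this
      exact this.trans (mul_le_mul_of_nonneg_right (Nat.cast_le.2 hΛ) (mul_nonneg n2 he.le))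
    show (∑ j, WH (Y 0 j) + ∑ j, WS j 0) + ∑ L ∈ Λ, ∑ t, WF L t 0 ≤ ε
    linarith
  · intro x hx hθ hw
    have hw' : (∑ j, WH (Y x j) + ∑ j, WS j x) + ∑ L ∈ Λ, ∑ t, WF L t x < 1 := hw
    have t1 : ∀ j, WH (Y x j) < 1 := fun j => by
      linarith [Finset.single_le_sum (fun j _ => p1 x hx j) (Finset.mem_univ j), s2 x hx, s4 x hx]
    have t2 : ∀ j, WS j x < 1 := fun j => by
      linarith [Finset.single_le_sum (fun j _ => p2 x hx j) (Finset.mem_univ j), s1 x hx, s4 x hx]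
    have t3 : ∀ L ∈ Λ, ∀ t, WF L t x < 1 := fun L hl t => by
      linarith [Finset.single_le_sum (fun t _ => p3 x hx L t) (Finset.mem_univ t),
        Finset.single_le_sum (fun L _ => s3 x hx L) hl, s1 x hx, s2 x hx]
    have u1 := fun j => xH _ (H.maps hx j) (hθ j) (t1 j)
    have u2 : ∀ j, ‖s j (Y x)‖ ≤ Real.exp (B₁ * lam) ∧ ‖l j (Y x)‖ ≤ Real.exp (B₁ * lam) :=
      fun j => by
        have := hB (11 * lam) (by linarith) _ (H.maps hx)
          (fun i => ⟨(hθ i).trans (by linarith), (u1 i).2⟩) j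
        have q : Real.exp (B * (11 * lam)) ≤ Real.exp (B₁ * lam) :=
          Real.exp_le_exp.2 (by nlinarith)
        exact ⟨this.1.trans q, this.2.trans q⟩
    have v1 : K₀ * (B₁ * lam) ≤ K₀ * k * (B₁ + 2) * lam := by nlinarith
    have v2 : B₁ * lam ≤ K₀ * k * (B₁ + 2) * lam := by nlinarith
    refine ⟨?_, fun j => ⟨le_trans (Real.exp_le_exp.2 (by linarith)) ((xS j x hx).1 (t2 j)),
      (u2 j).1.trans (Real.exp_le_exp.2 v2), (u2 j).2.trans (Real.exp_le_exp.2 v2)⟩,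
      fun L hl t ht hlev => (xF L t (hL L hl) x hx).1 (t3 L hl t) ht hlev⟩
    have j1 := UJ.sum Finset.univ (u := fun j x => WH (Y x j)) (z := x) fun j _ =>
      UJ.pull (F := fun x => Y x j) (H.anY j x hx) (u1 j).1
    have j2 := UJ.sum Finset.univ (u := fun j x => WS j x) (z := x) fun j _ =>
      (xS j x hx).2 (u2 j).1
    have j3 := UJ.sum Λ (u := fun L x => ∑ t, WF L t x) (z := x) fun L hl =>
      UJ.sum Finset.univ (u := fun t x => WF L t x) (z := x) fun t _ =>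
        (xF L t (hL L hl) x hx).2 u2
    exact ((j1.add j2).add j3).mono (by simp)

end Vale.Agent.P097C
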