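import Vale.Agent.P097C.Spec

/-!
# P097C: the final barrier (no deep vertex under rigidity)
-/

set_option linter.all false

open Filter Topology

namespace Vale.Agent.P097C

lemma wfin_dd {F : ℂ → ℂ} {z : ℂ} (r : ℝ) (hF : AnalyticAt ℂ F z) :
    EJ (fun x => dd r (F x)) z (-(2 * ((F z).im : ℝ) * (-Complex.I * deriv F z)))
      (-(2 * ‖deriv F z‖ ^ 2)) :=
  ((EJ.im hF).sq.const_sub (r ^ 2)).cast rfl (by simp)

lemma wfin_dd_pos {r : ℝ} {y : ℂ} (h : y ∈ St r) : 0 < dd r y :=
  sub_pos.2 (sq_lt_sq' (abs_lt.1 h).1 (abs_lt.1 h).2)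

lemma wfin_dd_le (r : ℝ) (y : ℂ) : dd r y ≤ r ^ 2 := sub_le_self _ (sq_nonneg _)

lemma wfin_one {n : ℕ} [NeZero n] {r ρ : ℝ} {g : ℂ → ℂ} {Y : ℂ → ZMod n → ℂ} (hO : Occ2 r g)
    (hY : Cv r ρ Y) {ε : ℝ} (hε : 0 < ε) (b : ℝ) : ∃ N₀ : ℝ, 0 ≤ b → ∀ N ≥ N₀,
    ∀ T : Finset (ZMod n), T ≠ Finset.univ → ∃ a : ℂ → ℝ, Bar (St ρ) a ∧ a 0 ≤ ε ∧ ∀ x ∈ St ρ,
      ((∀ j ∉ T, dd r (Y x j) ≤ Real.exp (-N)) → 1 ≤ a x) ∧
      (Drv T (fun j => g (Y x j)) (fun j => deriv (fun x => Y x j) x) b → UJ a x 0) := by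
  by_cases hb : 0 ≤ b
  swap
  · exact ⟨0, fun h => absurd h hb⟩
  have hr := hY.r0
  have n0 : (0 : ℝ) < n := Nat.cast_pos.2 (NeZero.pos n)
  set C' : ℝ := 2 * n * (n * r ^ 2 + 1) + 4 * r ^ 2 * n ^ 2
  have C0 : 0 < C' := by positivity
  set c₀ : ℝ := Real.log (n + 1) + Real.log (n * r ^ 2 + 1)
  have l1 : 0 ≤ Real.log (n + 1) := Real.log_nonneg (by linarith)
  have l2 : 0 ≤ Real.log (n * r ^ 2 + 1) := Real.log_nonneg (by nlinarith [sq_nonneg r])
  obtain ⟨N₁, H⟩ := hO (Real.exp b) (ε / (2 * C' * n)) (Real.one_le_exp hb) (by positivity)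
  refine ⟨max N₁ (1 + 2 * (c₀ + |Real.log (r ^ 2)|) / ε), fun _ N hN T hT => ?_⟩
  obtain ⟨P, ⟨cP, nP⟩, hP⟩ := H N ((le_max_left _ _).trans hN)
  have N2 : 1 + 2 * (c₀ + |Real.log (r ^ 2)|) / ε ≤ N := (le_max_right _ _).trans hN
  have q0 : 0 ≤ 2 * (c₀ + |Real.log (r ^ 2)|) / ε := by positivity
  have N0 : 0 < N := by linarith
  set κ := Real.exp (-N)
  have κ0 : 0 < κ := Real.exp_pos _
  have κ1 : κ ≤ 1 := Real.exp_le_one_iff.2 (by linarith)
  have hc : (Tᶜ.card : ℝ) ≤ n := by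
    exact_mod_cast (Finset.card_le_univ Tᶜ).trans (ZMod.card n).le
  let S : ℂ → ℝ := fun x => ∑ j ∈ Tᶜ, dd r (Y x j) + κ
  have mY : ∀ x ∈ St ρ, ∀ j, Y x j ∈ St r := fun x hx j => hY.maps hx j
  have jS : ∀ x ∈ St ρ, EJ S x _ _ := fun x hx =>
    (EJ.sum Tᶜ fun j _ => wfin_dd r (hY.anY j x hx)).add_const κ
  have s0 : ∀ x ∈ St ρ, 0 ≤ ∑ j ∈ Tᶜ, dd r (Y x j) := fun x hx =>
    Finset.sum_nonneg fun j _ => (wfin_dd_pos (mY x hx j)).le
  have S0 : ∀ x ∈ St ρ, 0 < S x := fun x hx => add_pos_of_nonneg_of_pos (s0 x hx) κ0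
  have S1 : ∀ x, S x ≤ n * r ^ 2 + 1 := fun x => add_le_add
    ((Finset.sum_le_card_nsmul _ _ _ fun j _ => wfin_dd_le r _).trans (by
      rw [nsmul_eq_mul]; exact mul_le_mul_of_nonneg_right hc (sq_nonneg r))) κ1
  have sP : ∀ x ∈ St ρ, 0 ≤ ∑ j, P (Y x j) := fun x hx =>
    Finset.sum_nonneg fun j _ => nP _ (mY x hx j)
  have h0 : (0 : ℂ) ∈ St ρ := by simpa [St] using hY.ρ0
  refine ⟨fun x => N⁻¹ * (c₀ - Real.log (S x) + C' * ∑ j, P (Y x j)), ⟨?_, fun x hx => ?_⟩, ?_,
    fun x hx => ⟨fun h => ?_, fun ⟨i, hi, _, h2, h3⟩ => ?_⟩⟩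
  · refine continuousOn_const.mul ((continuousOn_const.sub (ContinuousOn.log
      (fun x hx => (jS x hx).continuousAt.continuousWithinAt) fun x hx => (S0 x hx).ne')).add
      (continuousOn_const.mul (continuousOn_finset_sum _ fun j _ =>
        cP.comp (hY.anY j).continuousOn fun x hx => mY x hx j)))
  · have := Real.log_le_log (S0 x hx) (S1 x)
    have := mul_nonneg C0.le (sP x hx)
    refine mul_nonneg (inv_pos.2 N0).le ?_
    simp only [c₀]
    linarith
  · obtain ⟨i, hi⟩ : ∃ i, i ∈ Tᶜ := by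
      by_contra hn
      exact hT (Finset.eq_univ_of_forall fun i => by
        by_contra h; exact hn ⟨i, Finset.mem_compl.2 h⟩)
    have a1 : r ^ 2 ≤ S 0 := by
      have := Finset.single_le_sum (f := fun j => dd r (Y 0 j))
        (fun j _ => (wfin_dd_pos (mY 0 h0 j)).le) hi
      have e : dd r (Y 0 i) = r ^ 2 := by simp [dd, hY.re0 i]
      simp only [S]
      linarith
    have a2 := Real.log_le_log (by positivity) a1
    have a3 : ∑ j, P (Y 0 j) ≤ n * (ε / (2 * C' * n) * N) :=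
      (Finset.sum_le_card_nsmul _ _ _ fun j _ => (hP _ (mY 0 h0 j)).1).trans (by simp)
    have a4 := mul_le_mul_of_nonneg_left a3 C0.le
    have a5 : C' * (n * (ε / (2 * C' * n) * N)) = ε / 2 * N := by field_simp
    have a6 : 2 * (c₀ + |Real.log (r ^ 2)|) ≤ N * ε := by
      rw [← div_le_iff₀ hε]; linarith
    beta_reduce
    rw [inv_mul_eq_div, div_le_iff₀ N0]
    linarith [neg_abs_le (Real.log (r ^ 2))]
  · have a1 : S x ≤ (n + 1) * κ := by
      have : ∑ j ∈ Tᶜ, dd r (Y x j) ≤ n * κ :=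
        (Finset.sum_le_card_nsmul _ _ _ fun j hj => h j (Finset.mem_compl.1 hj)).trans (by
          rw [nsmul_eq_mul]; exact mul_le_mul_of_nonneg_right hc κ0.le)
      simp only [S]
      linarith
    have a2 := Real.log_le_log (S0 x hx) a1
    rw [Real.log_mul (by positivity) κ0.ne', Real.log_exp] at a2
    have := mul_nonneg C0.le (sP x hx)
    beta_reduce
    rw [inv_mul_eq_div, le_div_iff₀ N0]
    simp only [c₀]
    linarith
  · simp only at h2 h3
    set V := ‖deriv (fun x => Y x i) x‖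
    have e1 := (((jS x hx).log (S0 x hx).ne').const_sub c₀).uj
    have e2 : UJ (fun x => ∑ j, P (Y x j)) x
        (∑ j, if j = i then -(V ^ 2 / S x ^ 2) else 0) := UJ.sum _ fun j _ => by
      split_ifs with hj
      · subst hj
        by_cases hv : deriv (fun x => Y x j) x = 0
        · exact ((hP _ (mY x hx j)).2.1.pull (hY.anY j x hx)).mono (by simp [V, hv])
        · refine (((hP _ (mY x hx j)).2.2 (by rw [← Real.exp_neg]; exact (h3 hv).1) (h3 hv).2).pull
            (hY.anY j x hx)).mono ?_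
          have d0 := wfin_dd_pos (mY x hx j)
          have : dd r (Y x j) + κ ≤ S x := add_le_add (Finset.single_le_sum
            (f := fun j => dd r (Y x j)) (fun j _ => (wfin_dd_pos (mY x hx j)).le)
            (Finset.mem_compl.2 hi)) le_rfl
          have := div_le_div_of_nonneg_left (sq_nonneg V) (by positivity)
            (pow_le_pow_left₀ (by positivity) this 2)
          calc _ = -(V ^ 2 / (dd r (Y x j) + κ) ^ 2) := by simp only [V]; ring
            _ ≤ _ := neg_le_neg this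
      · exact ((hP _ (mY x hx j)).2.1.pull (hY.anY j x hx)).mono (by simp)
    refine ((e1.add (e2.smul C0.le)).smul (inv_pos.2 N0).le).mono
      (mul_nonpos_of_nonneg_of_nonpos (inv_pos.2 N0).le ?_)
    have V0 : 0 ≤ V := norm_nonneg _
    have b1 : ‖∑ j ∈ Tᶜ, -(2 * (((Y x j).im : ℝ) : ℂ) * (-Complex.I * deriv (fun x => Y x j) x))‖ ≤
        n * (2 * r * V) :=
      ((norm_sum_le _ _).trans (Finset.sum_le_card_nsmul _ _ (2 * r * V) fun j hj => by
        have k1 : |(Y x j).im| ≤ r := le_of_lt (mY x hx j)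
        have k2 := h2 j (Finset.mem_compl.1 hj)
        simp only [norm_neg, norm_mul, Complex.norm_ofNat, Complex.norm_real, Real.norm_eq_abs,
          Complex.norm_I, one_mul]
        gcongr)).trans (by rw [nsmul_eq_mul]; exact mul_le_mul_of_nonneg_right hc (by positivity))
    have b2 : -(n * (2 * V ^ 2)) ≤ ∑ j ∈ Tᶜ, -(2 * ‖deriv (fun x => Y x j) x‖ ^ 2) := by
      rw [Finset.sum_neg_distrib]
      refine neg_le_neg ((Finset.sum_le_card_nsmul _ _ (2 * V ^ 2) fun j hj => ?_).trans (by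
        rw [nsmul_eq_mul]; exact mul_le_mul_of_nonneg_right hc (by positivity)))
      have k2 := h2 j (Finset.mem_compl.1 hj)
      gcongr
    have p0 := S0 x hx
    have p1 := S1 x
    have b3 := pow_le_pow_left₀ (norm_nonneg _) b1 2
    simp only [Finset.sum_ite_eq', Finset.mem_univ, if_true]
    generalize ‖∑ j ∈ Tᶜ, -(2 * (((Y x j).im : ℝ) : ℂ) *
      (-Complex.I * deriv (fun x => Y x j) x))‖ ^ 2 = u at *
    generalize ∑ j ∈ Tᶜ, -(2 * ‖deriv (fun x => Y x j) x‖ ^ 2) = w at *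
    generalize S x = s at *
    have : -(w / s - u / s ^ 2) + C' * -(V ^ 2 / s ^ 2) = (-w * s + u - C' * V ^ 2) / s ^ 2 := by
      field_simp; ring
    rw [this]
    refine div_nonpos_of_nonpos_of_nonneg ?_ (by positivity)
    have k1 : -w * s ≤ n * (2 * V ^ 2) * (n * r ^ 2 + 1) :=
      mul_le_mul (by linarith) p1 p0.le (by positivity)
    simp only [C']
    nlinarith

theorem wfin (hP : Spec_PASTE) : Spec_WFIN := by
  intro n _ r ρ g Y hO hY ε hε
  classical
  have n0 : (0 : ℝ) < n := Nat.cast_pos.2 (NeZero.pos n)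
  set m : ℝ := ((Fintype.card (Finset (ZMod n)) : ℕ) : ℝ)
  have m0 : 0 < m := Nat.cast_pos.2 Fintype.card_pos
  set e := ε / (n * m)
  have e0 : 0 < e := by positivity
  choose N₀ H using wfin_one hO hY (half_pos e0)
  refine ⟨|Real.log (e / 4)|, fun lam hl K hK => ?_⟩
  have l0 : 0 ≤ lam := (abs_nonneg _).trans hl
  have l1 : 2 * Real.exp (-lam) ≤ e / 2 := by
    have : Real.exp (-lam) ≤ Real.exp (Real.log (e / 4)) :=
      Real.exp_le_exp.2 (by linarith [neg_abs_le (Real.log (e / 4))])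
    rw [Real.exp_log (by positivity)] at this
    linarith
  let L : ℕ → ℝ := fun s => Nat.rec lam (fun _ t => max (t + 1) (N₀ (K * (lam + 2 * t)))) s
  have Ls : ∀ s, L s + 1 ≤ L (s + 1) := fun s => le_max_left _ _
  have Lm : Monotone L := monotone_nat_of_le_succ fun s => by linarith [Ls s]
  have L0 : ∀ s, lam ≤ L s := fun s => Lm (Nat.zero_le s)
  have G : ∀ (s : ℕ) (T : Finset (ZMod n)), ∃ W : ℂ → ℝ, Bar (St ρ) W ∧ W 0 ≤ e ∧ ∀ x ∈ St ρ,
      (T ≠ Finset.univ → Lev r (Y x) T (L s) →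
        (∀ j ∉ T, dd r (Y x j) ≤ Real.exp (-L (s + 1))) → 1 ≤ W x) ∧
      (s < n → DrvAt r g Y K lam ((Finset.range n).image fun s => 2 * L s) x → UJ W x 0) := by
    intro s T
    by_cases hT : T = Finset.univ
    · exact ⟨fun _ => 0, ⟨continuousOn_const, fun _ _ => le_rfl⟩, e0.le, fun x _ =>
        ⟨fun h => absurd hT h, fun _ _ => UJ.const 0 x⟩⟩
    have := L0 s
    obtain ⟨a, a1, a2, a3⟩ := H (K * (lam + 2 * L s)) (mul_nonneg (by linarith) (by linarith)) (L (s + 1))
      (le_max_right _ _) T hT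
    obtain ⟨W, w1, w2⟩ := hP n r ρ Y hY T (L s) a (by linarith) a1
    have h0 : (0 : ℂ) ∈ St ρ := by simpa [St] using hY.ρ0
    refine ⟨W, w1, ?_, fun x hx => ⟨fun _ h1 h2 => (w2 x hx).2.1 h1 ((a3 x hx).1 h2),
      fun hs h => (w2 x hx).2.2 fun h1 => (a3 x hx).2
        (h _ (Finset.mem_image_of_mem _ (Finset.mem_range.2 hs)) T hT h1)⟩⟩
    have := Real.exp_le_exp.2 (neg_le_neg this)
    linarith [(w2 0 h0).1]
  choose W w1 w2 w3 using G
  refine ⟨(Finset.range n).image fun s => 2 * L s, L n,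
    fun x => ∑ s ∈ Finset.range n, ∑ T, W s T x,
    Finset.card_image_le.trans (Finset.card_range n).le, fun t ht => ?_, L0 n,
    ⟨continuousOn_finset_sum _ fun s _ => continuousOn_finset_sum _ fun T _ => (w1 s T).1,
      fun x hx => Finset.sum_nonneg fun s _ => Finset.sum_nonneg fun T _ => (w1 s T).2 x hx⟩, ?_,
    fun x hx => ⟨fun ⟨j₀, hj⟩ => ?_, fun h => ?_⟩⟩
  · obtain ⟨s, -, rfl⟩ := Finset.mem_image.1 ht
    linarith [L0 s]
  · refine (Finset.sum_le_card_nsmul _ _ (m * e) fun s _ =>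
      (Finset.sum_le_card_nsmul _ _ e fun T _ => w2 s T).trans (by simp [m])).trans ?_
    simp only [Finset.card_range, nsmul_eq_mul, e]
    field_simp
    rfl
  · obtain ⟨s, hs, h⟩ : ∃ s < n, ∀ j, Real.exp (-L s) ≤ dd r (Y x j) ∨
        dd r (Y x j) ≤ Real.exp (-L (s + 1)) := by
      by_contra hn
      push Not at hn
      choose! f f1 f2 using hn
      have k : ∀ s < n, ∀ t < n, s < t → f s ≠ f t := fun s hs t ht hst he => by
        have := Real.exp_le_exp.2 (neg_le_neg (Lm (Nat.succ_le_of_lt hst)))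
        have := f2 s hs
        have := f1 t ht
        rw [← he] at this
        linarith
      have := Finset.card_le_card_of_injOn (s := Finset.range n) (t := Finset.univ.erase j₀) f
        (fun s hs => by
          have hs' := Finset.mem_range.1 hs
          have := Real.exp_le_exp.2 (neg_le_neg (Lm (Nat.succ_le_of_lt hs')))
          have := f2 s hs'
          simp only [Finset.coe_erase, Finset.coe_univ, Set.mem_diff, Set.mem_univ,
            Set.mem_singleton_iff, true_and]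
          intro he
          rw [he] at this
          linarith)
        fun s hs t ht he => by
          rcases lt_trichotomy s t with h | h | h
          · exact absurd he (k s (Finset.mem_range.1 hs) t (Finset.mem_range.1 ht) h)
          · exact h
          · exact absurd he.symm (k t (Finset.mem_range.1 ht) s (Finset.mem_range.1 hs) h)
      rw [Finset.card_erase_of_mem (Finset.mem_univ _), Finset.card_range, Finset.card_univ,
        ZMod.card] at this
      have := NeZero.pos n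
      omega
    have hT : ¬ ∀ j, Real.exp (-L s) ≤ dd r (Y x j) := fun hT => by
      have := Real.exp_le_exp.1 ((hT j₀).trans hj)
      linarith [Ls s, Lm (Nat.succ_le_of_lt hs)]
    let T := Finset.univ.filter fun j => Real.exp (-L s) ≤ dd r (Y x j)
    have k := (w3 s T x hx).1 (fun he => hT fun j => (Finset.mem_filter.1
      (he ▸ Finset.mem_univ j : j ∈ T)).2) (fun j hj => (Finset.mem_filter.1 hj).2)
      fun j hj => (h j).resolve_left fun h => hj (Finset.mem_filter.2 ⟨Finset.mem_univ _, h⟩)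
    exact k.trans ((Finset.single_le_sum (f := fun T => W s T x)
      (fun T _ => (w1 s T).2 x hx) (Finset.mem_univ T)).trans (Finset.single_le_sum
        (f := fun s => ∑ T, W s T x) (fun s _ => Finset.sum_nonneg fun T _ => (w1 s T).2 x hx)
        (Finset.mem_range.2 hs)))
  · exact (UJ.sum _ fun s hs => UJ.sum _ fun T _ =>
      (w3 s T x hx).2 (Finset.mem_range.1 hs) h).mono (by simp)

end Vale.Agent.P097C
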