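import Vale.Agent.P097C.StateB

/-!
# P097C: the barrier against a small state (row WU)
-/

set_option linter.all false

open Filter Topology

namespace Vale.Agent.P097C

namespace WuR

lemma tau {K C : ℝ} (K1 : 1 ≤ K) (C1 : 1 ≤ C) :
    ∃ τ : ℝ, 0 < τ ∧ 40 * K * τ ≤ 1 ∧ 2 * C * τ ^ 2 ≤ 1 ∧ τ ≤ 1 := by
  have p : 0 < 40 * K * C := by positivity
  have q : 1 ≤ 40 * K * C := by nlinarith
  have e : 40 * K * C * (40 * K * C)⁻¹ = 1 := mul_inv_cancel₀ p.ne'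
  have t0 : 0 < (40 * K * C)⁻¹ := inv_pos.2 p
  have t1 : (40 * K * C)⁻¹ ≤ 1 := inv_le_one_of_one_le₀ q
  set t := (40 * K * C)⁻¹
  have a1 : 40 * K * t ≤ 1 := by nlinarith [mul_pos (by positivity : 0 < 40 * K) t0]
  have a2 : 40 * (C * t) ≤ 1 := by nlinarith [mul_pos (by positivity : 0 < 40 * C) t0]
  exact ⟨t, t0, a1, by nlinarith [mul_pos (by positivity : 0 < C) t0], t1⟩

lemma num {r d i a B β : ℝ} {b b' : ℂ} (r0 : 0 < r) (d0 : 0 < d) (hd : d = r ^ 2 - i ^ 2)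
    (i0 : |i| < r) (a0 : 0 ≤ a) (B0 : 0 < B) (bb : d * ‖b‖ ≤ B) (nb : ‖b'‖ = 2 * |i|)
    (hβ : β = r ^ 2 / (2 * B + r) ^ 2) :
    -β * (2 * a - 1 / 2 * (-2 / d - ‖b'‖ ^ 2 / d ^ 2)) +
      ‖((-β : ℝ) : ℂ) * (((2 : ℝ) : ℂ) * b - ((1 / 2 : ℝ) : ℂ) * (b' / (d : ℂ)))‖ ^ 2 ≤ 0 := by
  have β0 : 0 < β := by rw [hβ]; positivity
  set b2 : ℂ := ((2 : ℝ) : ℂ) * b - ((1 / 2 : ℝ) : ℂ) * (b' / (d : ℂ)) with hb2
  have n1 : d * ‖b2‖ ≤ 2 * B + r := by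
    have h1 := norm_sub_le (((2 : ℝ) : ℂ) * b) (((1 / 2 : ℝ) : ℂ) * (b' / (d : ℂ)))
    rw [norm_mul, norm_mul, norm_div, nb, Complex.norm_real, Complex.norm_real,
      Complex.norm_real, Real.norm_of_nonneg d0.le, Real.norm_of_nonneg zero_le_two,
      Real.norm_of_nonneg (by norm_num : (0 : ℝ) ≤ 1 / 2)] at h1
    have h2 := mul_le_mul_of_nonneg_left h1 d0.le
    have h3 : d * (2 * ‖b‖ + 1 / 2 * (2 * |i| / d)) = 2 * (d * ‖b‖) + |i| := by field_simp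
    linarith
  have n2 : β * (d * ‖b2‖) ^ 2 ≤ r ^ 2 := by
    have h1 := pow_le_pow_left₀ (by positivity) n1 2
    have h2 : β * (2 * B + r) ^ 2 = r ^ 2 := by rw [hβ]; field_simp
    exact (mul_le_mul_of_nonneg_left h1 β0.le).trans h2.le
  have n3 : r ^ 2 ≤ d ^ 2 * (2 * a - 1 / 2 * (-2 / d - ‖b'‖ ^ 2 / d ^ 2)) := by
    have h1 : d ^ 2 * (2 * a - 1 / 2 * (-2 / d - ‖b'‖ ^ 2 / d ^ 2)) =
        2 * (d ^ 2 * a) + d + ‖b'‖ ^ 2 / 2 := by field_simp; ring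
    have h3 : ‖b'‖ ^ 2 = 4 * i ^ 2 := by rw [nb, mul_pow, sq_abs]; norm_num
    have h4 : 0 ≤ d ^ 2 * a := by positivity
    linarith [sq_nonneg i]
  rw [norm_mul, Complex.norm_real, Real.norm_eq_abs, abs_neg, abs_of_pos β0]
  have n4 : β * ‖b2‖ ^ 2 ≤ 2 * a - 1 / 2 * (-2 / d - ‖b'‖ ^ 2 / d ^ 2) := by
    refine le_of_mul_le_mul_left ?_ (pow_pos d0 2)
    linarith
  linarith [mul_le_mul_of_nonneg_left n4 β0.le]

lemma fin {s d G G' τ lam : ℝ} (s0 : 0 < s) (d0 : 0 < d) (G0 : 0 ≤ G') (τ3 : τ ≤ 1)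
    (h1 : 0 < 2 * Real.log s - 1 / 2 * Real.log d + 2 * lam) (h3 : s ≤ max G (τ * (d * G'))) :
    Real.exp (-2 * lam) * √d ≤ G ^ 2 + 1 ^ 2 * d ^ 2 * G' ^ 2 := by
  have h2 : Real.exp (-2 * lam) * √d ≤ s ^ 2 := by
    rw [← Real.log_le_log_iff (by positivity) (by positivity), Real.log_mul (by positivity)
      (by positivity), Real.log_exp, Real.log_sqrt d0.le, Real.log_pow]
    push_cast
    linarith
  refine h2.trans ?_
  have h5 : τ * (d * G') ≤ d * G' := mul_le_of_le_one_left (by positivity) τ3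
  rcases le_max_iff.1 h3 with k | k
  · linarith [pow_le_pow_left₀ s0.le k 2, sq_nonneg (d * G')]
  · linarith [pow_le_pow_left₀ s0.le (k.trans h5) 2, sq_nonneg G]

end WuR

theorem wu : Spec_WU := by
  intro r c C θ h g Q H F ε hε
  have r0 := H.r0
  have R := SB.cr_of H
  obtain ⟨τ, τ0, τ1, τ2, τ3⟩ := WuR.tau R.K1 R.C1
  have C1 := R.C1
  obtain ⟨B, hB⟩ : ∃ B : ℝ, B = 2 / τ + 2 * (2 * r + 1) + max C 1 := ⟨_, rfl⟩
  have B0 : 0 < B := by rw [hB]; positivity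
  obtain ⟨β, hβ⟩ : ∃ β : ℝ, β = r ^ 2 / (2 * B + r) ^ 2 := ⟨_, rfl⟩
  have β0 : 0 < β := by rw [hβ]; positivity
  let s : ℂ → ℝ := SB.St (dd r) g τ (6 * (2 * r + 1) ^ 2)
  let w : ℂ → ℝ := fun y => 2 * Real.log (s y) - 1 / 2 * Real.log (dd r y)
  have ev : ∀ᶠ lam : ℝ in atTop, ∀ t ∈ F, Real.exp (-β * (w (t : ℝ) + 2 * lam)) ≤ ε := by
    refine (eventually_all_finset F).2 fun t _ => ?_
    have : Tendsto (fun lam : ℝ => Real.exp (-β * (w (t : ℝ) + 2 * lam))) atTop (𝓝 0) :=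
      Real.tendsto_exp_atBot.comp (Tendsto.const_mul_atTop_of_neg (by linarith)
        (tendsto_atTop_add_const_left _ _ (tendsto_id.const_mul_atTop two_pos)))
    exact this.eventually (ge_mem_nhds hε)
  obtain ⟨lam₀, hl⟩ := eventually_atTop.1 ev
  refine ⟨lam₀, fun lam hlam => ⟨fun y => Real.exp (-β * (w y + 2 * lam)),
    ⟨?_, fun y _ => (Real.exp_pos _).le⟩, hl lam hlam, fun y hy => ⟨?_, fun hW => ?_⟩⟩⟩
  · refine (continuousOn_const.mul (ContinuousOn.add (ContinuousOn.sub ?_ ?_)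
      continuousOn_const)).rexp
    · exact continuousOn_const.mul ((R.cSt τ0).log fun y hy => (R.St_pos hy τ0).ne')
    · exact continuousOn_const.mul (R.cd.log fun y hy => (R.pos y hy).ne')
  · obtain ⟨φ, b, a, j, le, e, a0, bb, -⟩ := R.st_jet hy τ0 τ1 τ2
    obtain ⟨b', j', nb⟩ := SB.dd_jet r y
    have d0 := R.pos y hy
    have J := ((((j.smul 2).sub ((j'.log d0.ne').smul (1 / 2))).add_const (2 * lam)).smul (-β)).exp
    refine (J.uj.mono (mul_nonpos_of_nonneg_of_nonpos (Real.exp_pos _).le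
      (WuR.num r0 d0 rfl hy a0 B0 (hB ▸ bb) nb hβ))).touch
      (le.mono fun x hx => Real.exp_le_exp.2 ?_) (by simp only [w, s, e])
    have := mul_le_mul_of_nonneg_left hx β0.le
    simp only [w, s]
    linarith
  · refine WuR.fin (R.St_pos hy τ0) (R.pos y hy) (norm_nonneg _) τ3 ?_ (R.St_le hy τ0 τ1)
    have := Real.exp_lt_one_iff.1 hW
    rw [neg_mul, neg_lt_zero] at this
    exact (mul_pos_iff_of_pos_left β0).1 this

end Vale.Agent.P097C
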