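import Vale.Agent.P097C.ACore
import Vale.Agent.P097C.Bridge
import Vale.Agent.P097C.Alg
import Vale.Agent.P097C.Alg1
import Vale.Agent.P097C.Alg2
import Vale.Agent.P097C.Det
import Vale.Agent.P097C.Rig
import Vale.Agent.P097C.Hb
import Vale.Agent.P097C.Wu
import Vale.Agent.P097C.Occ
import Vale.Agent.P097C.Occ2
import Vale.Agent.P097C.Ode
import Vale.Agent.P097C.TameA
import Vale.Agent.P097C.Wfin

/-!
# P097C: the core of the critical case, from the last three blocks
-/

namespace Vale.Agent.P097C

theorem core0 (hA : Spec_ANC) (hW : Spec_WR) (hT : Spec_RIG → Spec_ODE → Spec_TOP) :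
    P097Top.Spec_CORE :=
  top_of (core_of (alg alg1 alg2) (acore occ occ2 hW (wfin paste') (tameA (hb wu hA) jen det_ne ent)
    (gd rig) (hT rig ode)))

end Vale.Agent.P097C
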