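import Mathlib

/-!
# P097C: touching jets and potentials (the dual form of optional stopping)
-/

open Filter Topology Asymptotics

namespace Vale.Agent.P097C

/-- second order expansion at `z`, with gradient `h ↦ re (b h)` and Laplacian `a` -/
def EJ (W : ℂ → ℝ) (z b : ℂ) (a : ℝ) : Prop := ∃ c : ℂ,
  (fun h : ℂ => W (z + h) - W z - (b * h).re - (c * h ^ 2).re - a / 4 * ‖h‖ ^ 2) =o[𝓝 0]
    fun h : ℂ => ‖h‖ ^ 2

/-- `Δ W (z) ≤ a` in the sense of touching from above -/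
def UJ (W : ℂ → ℝ) (z : ℂ) (a : ℝ) : Prop :=
  ∃ φ b, EJ φ z b a ∧ W ≤ᶠ[𝓝 z] φ ∧ W z = φ z

/-- second order expansion in one real variable -/
def E1 (β : ℝ → ℝ) (s β₁ β₂ : ℝ) : Prop :=
  (fun t : ℝ => β (s + t) - β s - β₁ * t - β₂ / 2 * t ^ 2) =o[𝓝 0] fun t : ℝ => t ^ 2

/-- `W` is a nonnegative potential on `A` that pays for the density `f`: `Δ W ≤ -f` -/
structure Pot (A : Set ℂ) (f W : ℂ → ℝ) : Prop where
  cont : ContinuousOn W (closure A)
  nonneg : ∀ z ∈ closure A, 0 ≤ W z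
  sup : ∀ z ∈ A, UJ W z (-f z)

end Vale.Agent.P097C
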