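import Vale.Agent.P097C.Defs

/-!
# P097C: the calculus of jets and the minimum principle
-/

set_option linter.all false

open Filter Topology Asymptotics
open scoped ComplexConjugate

namespace Vale.Agent.P097C

variable {W W' u v : ℂ → ℝ} {z b b' : ℂ} {a a' : ℝ} {β : ℝ → ℝ} {s β₁ β₂ : ℝ} {F : ℂ → ℂ}

lemma re_O (b : ℂ) : (fun h : ℂ => (b * h).re) =O[𝓝 0] fun h : ℂ => ‖h‖ :=
  .of_bound ‖b‖ (.of_forall fun h => by
    rw [norm_norm, ← norm_mul]; exact Complex.abs_re_le_norm _)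

lemma sq_o : (fun h : ℂ => ‖h‖ ^ 2) =o[𝓝 0] fun h : ℂ => ‖h‖ := by
  simpa using isLittleO_norm_pow_norm_pow (E' := ℂ) one_lt_two

lemma cube_o {f g : ℂ → ℝ} (hf : f =O[𝓝 0] fun h : ℂ => ‖h‖ ^ 2)
    (hg : g =O[𝓝 0] fun h : ℂ => ‖h‖) : (fun h => f h * g h) =o[𝓝 0] fun h : ℂ => ‖h‖ ^ 2 :=
  (hf.mul hg).trans_isLittleO (by
    simpa only [← pow_succ] using isLittleO_norm_pow_norm_pow (E' := ℂ) (by norm_num : 2 < 3))

lemma re_o {f : ℂ → ℂ} {g : ℂ → ℝ} (h : f =o[𝓝 0] g) : (fun x => (f x).re) =o[𝓝 0] g :=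
  (IsBigO.of_bound 1 (.of_forall fun x => by
    simpa using Complex.abs_re_le_norm (f x))).trans_isLittleO h

namespace EJ

theorem cast (h : EJ W z b a) (e : b = b') (e' : a = a') : EJ W z b' a' := e ▸ e' ▸ h

theorem congr (h : EJ W z b a) (e : W =ᶠ[𝓝 z] W') : EJ W' z b a := h.imp fun c h => by
  have t : Tendsto (fun h : ℂ => z + h) (𝓝 0) (𝓝 z) := by
    simpa using (tendsto_const_nhds (x := z)).add (tendsto_id (x := 𝓝 (0 : ℂ)))
  refine h.congr' ?_ EventuallyEq.rfl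
  filter_upwards [t.eventually e] with h e1
  rw [e1, e.eq_of_nhds]

theorem const (k : ℝ) (z : ℂ) : EJ (fun _ => k) z 0 0 := ⟨0, by simp⟩

theorem add (h : EJ u z b a) (h' : EJ v z b' a') :
    EJ (fun x => u x + v x) z (b + b') (a + a') := by
  obtain ⟨c, h⟩ := h
  obtain ⟨c', h'⟩ := h'
  refine ⟨c + c', (h.add h').congr_left fun x => ?_⟩
  simp only [add_mul, Complex.add_re]
  ring

theorem smul (k : ℝ) (h : EJ u z b a) : EJ (fun x => k * u x) z (k * b) (k * a) := by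
  obtain ⟨c, h⟩ := h
  refine ⟨k * c, (h.const_mul_left k).congr_left fun x => ?_⟩
  simp only [mul_assoc, Complex.re_ofReal_mul]
  ring

theorem neg (h : EJ u z b a) : EJ (fun x => -u x) z (-b) (-a) := by
  simpa using h.smul (-1)

theorem sub (h : EJ u z b a) (h' : EJ v z b' a') :
    EJ (fun x => u x - v x) z (b - b') (a - a') := by
  simpa only [sub_eq_add_neg] using h.add h'.neg

theorem sum {ι : Type*} (S : Finset ι) {u : ι → ℂ → ℝ} {b : ι → ℂ} {a : ι → ℝ}
    (h : ∀ i ∈ S, EJ (u i) z (b i) (a i)) :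
    EJ (fun x => ∑ i ∈ S, u i x) z (∑ i ∈ S, b i) (∑ i ∈ S, a i) := by
  classical
  induction S using Finset.induction_on with
  | empty => simpa using const 0 z
  | insert i S hi ih =>
    simp only [Finset.sum_insert hi]
    exact (h i (Finset.mem_insert_self _ _)).add (ih fun j hj => h j (Finset.mem_insert_of_mem hj))

lemma O2 (h : EJ u z b a) :
    (fun h : ℂ => u (z + h) - u z - (b * h).re) =O[𝓝 0] fun h : ℂ => ‖h‖ ^ 2 := by
  obtain ⟨c, h⟩ := h
  have h1 : (fun h : ℂ => (c * h ^ 2).re) =O[𝓝 0] fun h : ℂ => ‖h‖ ^ 2 :=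
    .of_bound ‖c‖ (.of_forall fun h => by
      rw [norm_pow, norm_norm, ← norm_pow, ← norm_mul]; exact Complex.abs_re_le_norm _)
  exact ((h.isBigO.add h1).add ((isBigO_refl _ _).const_mul_left (a / 4))).congr_left
    fun x => by ring

lemma O1 (h : EJ u z b a) : (fun h : ℂ => u (z + h) - u z) =O[𝓝 0] fun h : ℂ => ‖h‖ :=
  ((h.O2.trans sq_o.isBigO).add (re_O b)).congr_left fun x => by ring

theorem continuousAt (h : EJ u z b a) : ContinuousAt u z := by
  have h1 := h.O1.trans_tendsto tendsto_norm_zero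
  have t : Tendsto (fun x : ℂ => x - z) (𝓝 z) (𝓝 0) := by
    simpa using (tendsto_id (x := 𝓝 z)).sub_const z
  simpa [Function.comp_def, ContinuousAt] using (h1.comp t).add_const (u z)

/-- composition with a function of one real variable -/
theorem comp (h : EJ u z b a) (hβ : E1 β (u z) β₁ β₂) :
    EJ (fun x => β (u x)) z (β₁ * b) (β₁ * a + β₂ * ‖b‖ ^ 2) := by
  have o1 := h.O1
  have o2 := h.O2
  obtain ⟨c, h⟩ := h
  have e1 := (IsLittleO.comp_tendsto hβ (o1.trans_tendsto tendsto_norm_zero)).trans_isBigO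
    (o1.pow 2)
  have e2 := cube_o o2 (o1.add (re_O b))
  refine ⟨β₁ * c + (β₂ / 4 : ℝ) * b ^ 2,
    ((e1.add (h.const_mul_left β₁)).add (e2.const_mul_left (β₂ / 2))).congr_left fun x => ?_⟩
  have e3 : (b ^ 2 * x ^ 2).re = 2 * (b * x).re ^ 2 - ‖b‖ ^ 2 * ‖x‖ ^ 2 := by
    rw [← mul_pow, ← mul_pow, ← norm_mul, Complex.sq_norm, Complex.normSq_apply, sq (b * x),
      Complex.mul_re (b * x)]
    ring
  simp only [Function.comp_apply, add_sub_cancel, add_mul, mul_assoc, Complex.add_re,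
    Complex.re_ofReal_mul, e3]
  ring

/-- pull-back by a holomorphic map -/
theorem pull (hF : AnalyticAt ℂ F z) (h : EJ u (F z) b a) :
    EJ (fun x => u (F x)) z (b * deriv F z) (a * ‖deriv F z‖ ^ 2) := by
  obtain ⟨c, h⟩ := h
  obtain ⟨p, hp⟩ := hF
  have hG := (hp.has_fpower_series_dslope_fslope.analyticAt.differentiableAt.hasDerivAt)
  set d := deriv F z
  set c' := deriv (dslope F z) z
  have k2 : (fun h : ℂ => F (z + h) - F z - d * h - c' * h ^ 2) =o[𝓝 0] fun h : ℂ => ‖h‖ ^ 2 := by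
    have := (isBigO_refl (fun h : ℂ => h) _).mul_isLittleO (hasDerivAt_iff_isLittleO_nhds_zero.1 hG)
    refine (this.congr_left fun x => ?_).trans_isBigO (.of_bound 1 (.of_forall fun x => by
      simp [sq]))
    have e := sub_smul_dslope F z (z + x)
    rw [add_sub_cancel_left, smul_eq_mul] at e
    rw [dslope_same, mul_sub, mul_sub, e, smul_eq_mul]
    ring
  have q2 : (fun h : ℂ => F (z + h) - F z - d * h) =O[𝓝 0] fun h : ℂ => ‖h‖ ^ 2 :=
    (k2.isBigO.add (IsBigO.of_bound ‖c'‖ (.of_forall fun x => by simp) :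
      (fun h : ℂ => c' * h ^ 2) =O[𝓝 0] fun h : ℂ => ‖h‖ ^ 2)).congr_left fun x => by ring
  have l1 : (fun h : ℂ => d * h) =O[𝓝 0] fun h : ℂ => ‖h‖ :=
    .of_bound ‖d‖ (.of_forall fun x => by simp)
  have q1 : (fun h : ℂ => F (z + h) - F z) =O[𝓝 0] fun h : ℂ => ‖h‖ :=
    ((q2.trans sq_o.isBigO).add l1).congr_left fun x => by ring
  have e1 := (h.comp_tendsto (q1.trans_tendsto tendsto_norm_zero)).trans_isBigO
    (q1.norm_left.pow 2)
  have c3 : (fun h : ℂ => ‖h‖ ^ 2 * ‖h‖) =o[𝓝 0] fun h : ℂ => ‖h‖ ^ 2 :=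
    cube_o (isBigO_refl _ _) (isBigO_refl _ _)
  have e2 := (q2.mul (q1.add l1)).trans_isLittleO c3
  have e3 : (fun h : ℂ => ‖F (z + h) - F z‖ ^ 2 - ‖d * h‖ ^ 2) =o[𝓝 0] fun h : ℂ => ‖h‖ ^ 2 := by
    have q3 : (fun h : ℂ => ‖F (z + h) - F z‖ - ‖d * h‖) =O[𝓝 0] fun h : ℂ => ‖h‖ ^ 2 :=
      (IsBigO.of_bound 1 (.of_forall fun x => by
        simpa using abs_norm_sub_norm_le (F (z + x) - F z) (d * x))).trans q2
    exact (cube_o q3 (q1.norm_left.add l1.norm_left)).congr_left fun x => by ring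
  refine ⟨b * c' + c * d ^ 2, (((e1.add (re_o (k2.const_mul_left b))).add
    (re_o (e2.const_mul_left c))).add (e3.const_mul_left (a / 4))).congr_left fun x => ?_⟩
  have e4 : ∀ p q r t : ℂ, (b * (p - d * x - c' * x ^ 2)).re + (c * ((p - d * x) * (p + d * x))).re
      = (b * p).re + (c * p ^ 2).re - (b * d * x).re - ((b * c' + c * d ^ 2) * x ^ 2).re := by
    intro p _ _ _
    simp only [← Complex.add_re, ← Complex.sub_re]
    congr 1
    ring
  have := e4 (F (z + x) - F z) 0 0 0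
  simp only [Function.comp_apply, add_sub_cancel, norm_mul, mul_pow]
  linarith

end EJ

lemma E1.of_deriv {β' : ℝ → ℝ} (h : ∀ᶠ t in 𝓝 s, HasDerivAt β (β' t) t)
    (h' : HasDerivAt β' β₂ s) : E1 β s (β' s) β₂ := by
  obtain ⟨ε, hε, hb⟩ := Metric.eventually_nhds_iff_ball.1 h
  have n : 𝓝[Metric.ball (0 : ℝ) ε] 0 = 𝓝 0 :=
    nhdsWithin_eq_nhds.2 (Metric.ball_mem_nhds _ hε)
  have := (convex_ball (0 : ℝ) ε).isLittleO_pow_succ_real (n := 1) (Metric.mem_ball_self hε)
    (f := fun t => β (s + t) - β' s * t - β₂ / 2 * t ^ 2)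
    (f' := fun t => β' (s + t) - β' s - β₂ * t) (fun t ht => by
      have h1 := (hb (s + t) (by simpa using ht)).comp_const_add
      have h2 := ((h1.sub ((hasDerivAt_id t).const_mul (β' s))).sub
        ((hasDerivAt_pow 2 t).const_mul (β₂ / 2))).hasDerivWithinAt (s := Metric.ball 0 ε)
      exact h2.congr_deriv (by simp; ring)) (by
      rw [n]
      simpa [mul_comm] using hasDerivAt_iff_isLittleO_nhds_zero.1 h')
  rw [n] at this
  refine this.congr (fun t => ?_) fun t => ?_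
  · simp
    ring
  · simp

lemma E1.sq (s : ℝ) : E1 (fun t => t ^ 2) s (2 * s) 2 :=
  (isLittleO_zero _ _).congr_left fun t => by ring

lemma E1.lin (k l s : ℝ) : E1 (fun t => k * t + l) s k 0 :=
  (isLittleO_zero _ _).congr_left fun t => by ring

lemma E1.log (hs : s ≠ 0) : E1 Real.log s s⁻¹ (-(s ^ 2)⁻¹) :=
  E1.of_deriv ((eventually_ne_nhds hs).mono fun _ ht => Real.hasDerivAt_log ht) (hasDerivAt_inv hs)

lemma E1.exp (s : ℝ) : E1 Real.exp s (Real.exp s) (Real.exp s) :=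
  E1.of_deriv (.of_forall Real.hasDerivAt_exp) (Real.hasDerivAt_exp s)

namespace EJ

theorem mul (h : EJ u z b a) (h' : EJ v z b' a') : EJ (fun x => u x * v x) z
    (u z * b' + v z * b) (u z * a' + v z * a + 2 * (b * conj b').re) := by
  have := (((h.add h').comp (E1.sq _)).sub ((h.sub h').comp (E1.sq _))).smul (1 / 4)
  refine (this.congr (.of_forall fun x => by ring)).cast (by push_cast; ring) ?_
  simp only [Complex.sq_norm, Complex.normSq_apply, Complex.add_re, Complex.add_im, Complex.sub_re,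
    Complex.sub_im, Complex.mul_re, Complex.conj_re, Complex.conj_im]
  ring

theorem re (hF : AnalyticAt ℂ F z) : EJ (fun x => (F x).re) z (deriv F z) 0 := by
  simpa using pull hF (u := Complex.re) (b := 1) (a := 0) ⟨0, by simp⟩

theorem im (hF : AnalyticAt ℂ F z) : EJ (fun x => (F x).im) z (-Complex.I * deriv F z) 0 := by
  simpa using pull hF (u := Complex.im) (b := -Complex.I) (a := 0) ⟨0, by simp⟩

theorem normSq (hF : AnalyticAt ℂ F z) :
    EJ (fun x => ‖F x‖ ^ 2) z (2 * conj (F z) * deriv F z) (4 * ‖deriv F z‖ ^ 2) :=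
  pull hF (u := fun x => ‖x‖ ^ 2) ⟨0, (isLittleO_zero _ _).congr_left fun x => by
    simp only [Complex.sq_norm, Complex.normSq_apply, Complex.add_re, Complex.add_im,
      Complex.mul_re, Complex.conj_re, Complex.conj_im, Complex.mul_im, Complex.re_ofNat,
      Complex.im_ofNat, Complex.zero_re, Complex.zero_im]
    ring⟩

theorem logNorm (hF : AnalyticAt ℂ F z) (h0 : F z ≠ 0) :
    EJ (fun x => Real.log ‖F x‖) z (deriv F z / F z) 0 := by
  have n : ‖F z‖ ≠ 0 := norm_ne_zero_iff.2 h0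
  have := ((normSq hF).comp (E1.log (pow_ne_zero 2 n))).smul (1 / 2)
  refine (this.congr (.of_forall fun x => by simp)).cast ?_ ?_
  · have c0 : conj (F z) ≠ 0 := (map_ne_zero _).2 h0
    rw [Complex.sq_norm, Complex.ofReal_inv, ← Complex.mul_conj]
    push_cast
    field_simp
  · simp only [norm_mul, Complex.norm_conj, Complex.norm_ofNat]
    field_simp
    ring

theorem nonneg (h : EJ W z b a) (hm : ∀ᶠ x in 𝓝 z, W z ≤ W x) : 0 ≤ a := by
  obtain ⟨c, h⟩ := h
  by_contra ha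
  have t : Tendsto (fun h : ℂ => z + h) (𝓝 0) (𝓝 z) := by
    simpa using (tendsto_const_nhds (x := z)).add (tendsto_id (x := 𝓝 (0 : ℂ)))
  obtain ⟨ε, hε, hb⟩ := Metric.eventually_nhds_iff_ball.1
    ((h.def (show 0 < -a / 8 by linarith)).and (t.eventually hm))
  have k : ∀ w : ℂ, ‖w‖ = ε / 2 → 0 ≤ (b * w).re + (c * w ^ 2).re + a / 8 * (ε / 2) ^ 2 := by
    intro w hw
    obtain ⟨h1, h2⟩ := hb w (by rw [mem_ball_zero_iff, hw]; linarith)
    rw [hw, Real.norm_of_nonneg (sq_nonneg _)] at h1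
    linarith [le_abs_self (W (z + w) - W z - (b * w).re - (c * w ^ 2).re - a / 4 * (ε / 2) ^ 2),
      Real.norm_eq_abs (W (z + w) - W z - (b * w).re - (c * w ^ 2).re - a / 4 * (ε / 2) ^ 2)]
  have n : ‖((ε / 2 : ℝ) : ℂ)‖ = ε / 2 := by rw [Complex.norm_real, Real.norm_of_nonneg (by linarith)]
  set w : ℂ := ((ε / 2 : ℝ) : ℂ)
  have h1 := k w n
  have h2 := k (-w) (by rw [norm_neg, n])
  have h3 := k (w * Complex.I) (by simp [n])
  have h4 := k (-(w * Complex.I)) (by simp [n])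
  simp only [mul_neg, Complex.neg_re, even_two, Even.neg_pow, mul_pow, Complex.I_sq, mul_one]
    at h2 h3 h4
  nlinarith [sq_pos_of_pos (half_pos hε)]

theorem uj (h : EJ W z b a) : UJ W z a := ⟨W, b, h, EventuallyLE.rfl, rfl⟩

end EJ

namespace UJ

/-- touching from above -/
theorem touch (h : UJ W' z a) (e : W ≤ᶠ[𝓝 z] W') (e' : W z = W' z) : UJ W z a :=
  let ⟨φ, b, h1, h2, h3⟩ := h
  ⟨φ, b, h1, e.trans h2, e'.trans h3⟩

theorem congr (h : UJ W z a) (e : W =ᶠ[𝓝 z] W') : UJ W' z a :=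
  h.touch e.symm.le e.eq_of_nhds.symm

theorem add (h : UJ u z a) (h' : UJ v z a') : UJ (fun x => u x + v x) z (a + a') := by
  obtain ⟨φ, b, h1, h2, h3⟩ := h
  obtain ⟨φ', b', k1, k2, k3⟩ := h'
  exact ⟨_, _, h1.add k1, (h2.and k2).mono fun x e => add_le_add e.1 e.2, by simp only [h3, k3]⟩

theorem smul {k : ℝ} (hk : 0 ≤ k) (h : UJ u z a) : UJ (fun x => k * u x) z (k * a) := by
  obtain ⟨φ, b, h1, h2, h3⟩ := h
  exact ⟨_, _, h1.smul k, h2.mono fun x e => mul_le_mul_of_nonneg_left e hk, by simp only [h3]⟩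

theorem const (k : ℝ) (z : ℂ) : UJ (fun _ => k) z 0 := (EJ.const k z).uj

theorem mono (h : UJ W z a) (e : a ≤ a') : UJ W z a' := by
  have h1 := (EJ.normSq (F := fun x => x - z) (z := z) (by fun_prop)).uj.smul
    (k := (a' - a) / 4) (by linarith)
  have := h.add h1
  rw [show a + _ = a' by simp] at this
  exact this.touch (.of_forall fun x => le_add_of_nonneg_right
    (mul_nonneg (by linarith) (sq_nonneg _))) (by simp)

theorem sum {ι : Type*} (S : Finset ι) {u : ι → ℂ → ℝ} {a : ι → ℝ}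
    (h : ∀ i ∈ S, UJ (u i) z (a i)) : UJ (fun x => ∑ i ∈ S, u i x) z (∑ i ∈ S, a i) := by
  classical
  induction S using Finset.induction_on with
  | empty => simpa using const 0 z
  | insert i S hi ih =>
    simp only [Finset.sum_insert hi]
    exact (h i (Finset.mem_insert_self _ _)).add (ih fun j hj => h j (Finset.mem_insert_of_mem hj))

theorem min_left (h : UJ u z a) (e : u z ≤ v z) : UJ (fun x => min (u x) (v x)) z a :=
  h.touch (.of_forall fun _ => min_le_left _ _) (min_eq_left e)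

theorem min_right (h : UJ v z a) (e : v z ≤ u z) : UJ (fun x => min (u x) (v x)) z a :=
  h.touch (.of_forall fun _ => min_le_right _ _) (min_eq_right e)

theorem pull (hF : AnalyticAt ℂ F z) (h : UJ u (F z) a) :
    UJ (fun x => u (F x)) z (a * ‖deriv F z‖ ^ 2) :=
  let ⟨_, _, h1, h2, h3⟩ := h
  ⟨_, _, h1.pull hF, hF.continuousAt.tendsto.eventually h2, h3⟩

/-- composition with a function `β` that is touched from above by `γ` -/
theorem comp (h : EJ u z b a) {γ : ℝ → ℝ} (hγ : E1 γ (u z) β₁ β₂) (e : β ≤ᶠ[𝓝 (u z)] γ)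
    (e' : β (u z) = γ (u z)) : UJ (fun x => β (u x)) z (β₁ * a + β₂ * ‖b‖ ^ 2) :=
  (h.comp hγ).uj.touch (h.continuousAt.tendsto.eventually e) e'

end UJ

/-- **the minimum principle** -/
theorem minp {A : Set ℂ} (hA : IsOpen A) (hb : Bornology.IsBounded A)
    (hc : ContinuousOn W (closure A)) (hs : ∀ z ∈ A, UJ W z 0) {m : ℝ}
    (hm : ∀ z ∈ frontier A, m ≤ W z) : ∀ z ∈ closure A, m ≤ W z := by
  intro z0 h0
  by_contra hlt
  obtain ⟨R, hR, hR'⟩ := hb.closure.exists_pos_norm_le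
  set ε := (m - W z0) / (2 * R ^ 2)
  have hε : 0 < ε := div_pos (by linarith) (by positivity)
  have e0 : ε * R ^ 2 = (m - W z0) / 2 := by simp only [ε]; field_simp
  obtain ⟨z, hz, hmin⟩ := hb.isCompact_closure.exists_isMinOn ⟨z0, h0⟩
    (hc.add (f := W) (g := fun x => -ε * ‖x‖ ^ 2) (by fun_prop))
  have h1 : W z + -ε * ‖z‖ ^ 2 ≤ W z0 + -ε * ‖z0‖ ^ 2 := hmin h0
  have h2 : ε * ‖z‖ ^ 2 ≤ ε * R ^ 2 := by gcongr; exact hR' z hz
  have hzA : z ∈ A := by
    by_contra hn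
    have := hm z ⟨hz, by rwa [hA.interior_eq]⟩
    nlinarith [mul_nonneg hε.le (sq_nonneg ‖z0‖)]
  obtain ⟨φ, b, k1, k2, k3⟩ := (hs z hzA).add
    ((EJ.normSq (F := fun x => x) (z := z) analyticAt_id).smul (-ε)).uj
  have := k1.nonneg (by
    filter_upwards [k2, hA.mem_nhds hzA] with x e hx
    exact k3 ▸ (hmin (subset_closure hx)).trans e)
  simp at this
  linarith

end Vale.Agent.P097C
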