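import Vale.Agent.P097C.State

/-!
# P097C: bounded barriers, the state window and the discs at the zeros
-/

set_option linter.all false

open Filter Topology
open scoped ComplexConjugate

namespace Vale.Agent.P097C.OC

/-- the data agree at `x` and `y` -/
def Sm (d : ℂ → ℝ) (g Q : ℂ → ℂ) (x y : ℂ) : Prop := d x = d y ∧ g x = g y ∧
  deriv g x = deriv g y ∧ ∀ j, iteratedDeriv j Q x = iteratedDeriv j Q y

/-- there is a bounded barrier with `d² Δ W ≤ f`, a function of the data -/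
def Bar (S : Set ℂ) (d : ℂ → ℝ) (g Q : ℂ → ℂ) (f : ℂ → ℝ) : Prop :=
  ∃ (M : ℝ) (W : ℂ → ℝ), ContinuousOn W S ∧ (∀ y ∈ S, 0 ≤ W y ∧ W y ≤ M) ∧
    (∀ x y, Sm d g Q x y → W x = W y) ∧ ∀ y ∈ S, UJ W y (f y / d y ^ 2)

variable {S : Set ℂ} {d f f' : ℂ → ℝ} {g Q : ℂ → ℂ} {K C τ : ℝ} {y : ℂ}

lemma Bar.add (h : Bar S d g Q f) (h' : Bar S d g Q f') : Bar S d g Q fun y => f y + f' y := by
  obtain ⟨M, W, h1, h2, h4, h3⟩ := h
  obtain ⟨M', W', k1, k2, k4, k3⟩ := h'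
  exact ⟨M + M', fun y => W y + W' y, h1.add k1, fun y hy => ⟨add_nonneg (h2 y hy).1 (k2 y hy).1,
    add_le_add (h2 y hy).2 (k2 y hy).2⟩, fun x y e => congrArg₂ _ (h4 x y e) (k4 x y e),
    fun y hy => add_div (f y) _ _ ▸ (h3 y hy).add (k3 y hy)⟩

lemma Bar.smul {k : ℝ} (hk : 0 ≤ k) (h : Bar S d g Q f) : Bar S d g Q fun y => k * f y := by
  obtain ⟨M, W, h1, h2, h4, h3⟩ := h
  exact ⟨k * M, fun y => k * W y, continuousOn_const.mul h1, fun y hy =>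
    ⟨mul_nonneg hk (h2 y hy).1, mul_le_mul_of_nonneg_left (h2 y hy).2 hk⟩,
    fun x y e => congrArg _ (h4 x y e), fun y hy => mul_div_assoc k (f y) _ ▸ (h3 y hy).smul hk⟩

lemma Bar.mono (h : Bar S d g Q f) (e : ∀ y ∈ S, f y ≤ f' y) : Bar S d g Q f' :=
  let ⟨M, W, h1, h2, h4, h3⟩ := h
  ⟨M, W, h1, h2, h4, fun y hy =>
    (h3 y hy).mono (div_le_div_of_nonneg_right (e y hy) (sq_nonneg _))⟩

lemma num1 {κ η q e P a n D B ε m : ℝ} (hκ : 0 ≤ κ) (η0 : 0 < η) (q0 : 0 < q) (e0 : 0 < e)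
    (P0 : 0 < P) (P1 : P ≤ 1) (a0 : 0 ≤ a) (n0 : 0 ≤ n) (D0 : 0 ≤ D) (hB : D * n ≤ B)
    (η2 : η * (8 * κ * B + 1) ≤ ε * q)
    (hm : m = 0 ∨ m ≤ D * (a + n) ∧ q ≤ e ∧ e ≤ 1 ∧ 1 / 2 ≤ P) :
    8 * κ / (η * q) * (P * (-η * (e * (a + n) / (e + 1) - e ^ 2 * n / (e + 1) ^ 2) +
      η ^ 2 * n * (e / (e + 1)) ^ 2)) * D ≤ ε - κ * m := by
  have k0 : 0 ≤ 8 * κ / (η * q) := by positivity
  rw [show e * (a + n) / (e + 1) - e ^ 2 * n / (e + 1) ^ 2 =
      e / (e + 1) * a + e / (e + 1) ^ 2 * n by field_simp; ring]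
  have n4 : η ^ 2 * n * (e / (e + 1)) ^ 2 ≤ η ^ 2 * n :=
    mul_le_of_le_one_right (by positivity) (pow_le_one₀ (by positivity)
      ((div_le_one (by positivity)).2 (by linarith)))
  have n6 : 8 * κ / (η * q) * (η ^ 2 * n) * D ≤ ε := by
    rw [show 8 * κ / (η * q) * (η ^ 2 * n) * D = η * (8 * κ * (D * n)) / q by field_simp,
      div_le_iff₀ q0]
    exact (mul_le_mul_of_nonneg_left ((mul_le_mul_of_nonneg_left hB (by positivity)).trans
      (le_add_of_nonneg_right zero_le_one)) η0.le).trans η2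
  have n8 : κ * m ≤ 8 * κ / (η * q) *
      (η * (P * (e / (e + 1) * a + e / (e + 1) ^ 2 * n))) * D := by
    rcases hm with rfl | ⟨j4, e2, e1, P2⟩
    · rw [mul_zero]
      positivity
    · have A1 : q / 4 * (a + n) ≤ e / (e + 1) * a + e / (e + 1) ^ 2 * n := by
        have : q / 4 ≤ e / (e + 1) := by rw [le_div_iff₀ (by positivity)]; nlinarith
        have : q / 4 ≤ e / (e + 1) ^ 2 := by
          rw [le_div_iff₀ (by positivity)]
          nlinarith [show (e + 1) ^ 2 ≤ 4 by nlinarith]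
        rw [mul_add]
        gcongr
      have : 8 * κ / (η * q) * (η * (1 / 2 * (q / 4 * (a + n)))) * D =
          κ * (D * (a + n)) := by field_simp; ring
      refine (mul_le_mul_of_nonneg_left j4 hκ).trans (this ▸ ?_)
      gcongr
  generalize e / (e + 1) * a + e / (e + 1) ^ 2 * n = A at *
  have n7 : P * (-η * A + η ^ 2 * n * (e / (e + 1)) ^ 2) ≤ η ^ 2 * n - η * (P * A) := by
    linarith [mul_le_of_le_one_left (show 0 ≤ η ^ 2 * n * (e / (e + 1)) ^ 2 by positivity) P1]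
  linarith [mul_le_mul_of_nonneg_right (mul_le_mul_of_nonneg_left n7 k0) D0]

lemma num2 {K τ ρ t γ a n D ε m : ℝ} (K1 : 1 ≤ K) (hτ : 0 < τ) (h1 : 40 * K * τ ≤ 1) (ρ0 : 0 < ρ)
    (ρ1 : ρ ≤ τ) (ρ2 : ρ * (36 / τ + 52 * K) ≤ ε) (t0 : 0 ≤ t) (t1 : t ≤ τ) (g1 : 1 / 2 ≤ γ)
    (g2 : γ ≤ 3 / 2) (j1 : 4 * γ ^ 2 - (8 * K ^ 2 * t ^ 2 + 12 * K * t) ≤ D ^ 2 * a)
    (j2 : D * n ≤ 2 * γ * t + 2 * K * t ^ 2) (j3 : 0 ≤ D * n) (hm : m = 0 ∨ m = 1 ∧ t ≤ ρ) :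
    4 * ρ ^ 2 * ((τ ^ 2 + ρ ^ 2)⁻¹ * a - (a / (t ^ 2 + ρ ^ 2) - n ^ 2 / (t ^ 2 + ρ ^ 2) ^ 2)) *
      D ^ 2 ≤ ε - m := by
  have kt : K * t ≤ 1 / 40 := by nlinarith
  have kt0 : 0 ≤ K * t := by positivity
  have e2 : D ^ 2 * n ^ 2 ≤ (4 * γ ^ 2 + 13 * (K * t)) * t ^ 2 := by
    rw [← mul_pow]
    refine (pow_le_pow_left₀ j3 j2 2).trans ?_
    rw [show (2 * γ * t + 2 * K * t ^ 2) ^ 2 = (2 * γ + 2 * (K * t)) ^ 2 * t ^ 2 by ring]
    exact mul_le_mul_of_nonneg_right (by nlinarith) (sq_nonneg _)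
  have e3 : 4 * γ ^ 2 - 13 * (K * t) ≤ D ^ 2 * a := by nlinarith
  have e0 : 4 * γ ^ 2 - 13 * (K * t) ≤ 9 := by nlinarith
  set Z := τ ^ 2 + ρ ^ 2 with hZ
  set E := t ^ 2 + ρ ^ 2 with hE
  have Z0 : 0 < Z := by positivity
  have E0 : 0 < E := by positivity
  have e1 : Z⁻¹ ≤ E⁻¹ := inv_anti₀ E0 (add_le_add_left (pow_le_pow_left₀ t0 t1 2) _)
  have e4 : 4 * ρ ^ 2 * (Z⁻¹ * a - (a / E - n ^ 2 / E ^ 2)) * D ^ 2 = 4 * ρ ^ 2 *
      (E⁻¹ ^ 2 * (D ^ 2 * n ^ 2) - (E⁻¹ - Z⁻¹) * (D ^ 2 * a)) := by field_simp; ring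
  have e5 : E⁻¹ ^ 2 * ((4 * γ ^ 2 + 13 * (K * t)) * t ^ 2) -
      (E⁻¹ - Z⁻¹) * (4 * γ ^ 2 - 13 * (K * t)) = Z⁻¹ * (4 * γ ^ 2 - 13 * (K * t)) -
      4 * γ ^ 2 * ρ ^ 2 * E⁻¹ ^ 2 + 13 * (K * t) * E⁻¹ * (1 + t ^ 2 * E⁻¹) := by
    rw [show ρ ^ 2 = E - t ^ 2 by rw [hE]; ring]
    field_simp
    ring
  have e6 : ρ ^ 2 * (Z⁻¹ * (4 * γ ^ 2 - 13 * (K * t))) ≤ ρ / τ * 9 := by
    have : ρ ^ 2 * Z⁻¹ ≤ ρ / τ := by
      rw [← div_eq_mul_inv, div_le_div_iff₀ Z0 hτ, hZ]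
      nlinarith [mul_pos ρ0 hτ, mul_pos ρ0 (mul_pos ρ0 ρ0)]
    rw [← mul_assoc]
    exact (mul_le_mul_of_nonneg_left e0 (by positivity)).trans (by gcongr)
  have e7 : ρ ^ 2 * (13 * (K * t) * E⁻¹ * (1 + t ^ 2 * E⁻¹)) ≤ 13 * K * ρ := by
    have u1 : t ^ 2 * E⁻¹ ≤ 1 := by
      rw [← div_eq_mul_inv, div_le_one E0]
      exact le_add_of_nonneg_right (sq_nonneg _)
    have u2 : t * ρ * E⁻¹ ≤ 1 / 2 := by
      rw [← div_eq_mul_inv, div_le_iff₀ E0, hE]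
      linarith [sq_nonneg (t - ρ)]
    calc _ = 13 * K * ρ * (t * ρ * E⁻¹ * (1 + t ^ 2 * E⁻¹)) := by ring
      _ ≤ 13 * K * ρ * (1 / 2 * (1 + 1)) := by gcongr
      _ = _ := by ring
  have e8 : m ≤ 4 * (ρ ^ 2 * (4 * γ ^ 2 * ρ ^ 2 * E⁻¹ ^ 2)) := by
    rcases hm with rfl | ⟨rfl, t2⟩
    · positivity
    · have : 1 / 2 ≤ ρ ^ 2 * E⁻¹ := by
        rw [← div_eq_mul_inv, le_div_iff₀ E0, hE]
        linarith [pow_le_pow_left₀ t0 t2 2]
      calc (1 : ℝ) = 16 * (1 / 2) ^ 2 * (1 / 2) ^ 2 := by norm_num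
        _ ≤ 16 * γ ^ 2 * (ρ ^ 2 * E⁻¹) ^ 2 := by gcongr
        _ = _ := by ring
  have e9 := mul_le_mul_of_nonneg_left (sub_le_sub
    (mul_le_mul_of_nonneg_left e2 (sq_nonneg E⁻¹))
    (mul_le_mul_of_nonneg_left e3 (sub_nonneg.2 e1))) (show 0 ≤ 4 * ρ ^ 2 by positivity)
  rw [e5] at e9
  rw [e4]
  have : ρ * (36 / τ + 52 * K) = 36 * (ρ / τ) + 52 * K * ρ := by ring
  linarith

namespace Cr

variable (H : Cr S d g Q K C) (hτ : 0 < τ) (h1 : 40 * K * τ ≤ 1) (h2 : 2 * C * τ ^ 2 ≤ 1)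
include H hτ h1 h2

open Classical in
/-- the window of the state -/
lemma bar1 {ε κ r R : ℝ} (hε : 0 < ε) (hκ : 0 ≤ κ) (hr : 0 < r) (hR : 0 < R) :
    Bar S d g Q fun y => ε - κ * if r ≤ St d g τ (6 * K ^ 2) y ∧ St d g τ (6 * K ^ 2) y ≤ R then
      min ((d y * ‖deriv g y‖ / ‖g y‖) ^ 2) 1 else 0 := by
  set C₁ := 2 / τ + 2 * K + C
  set q := r / R
  have q0 : 0 < q := div_pos hr hR
  set η := min 1 (ε * q / (8 * κ * C₁ ^ 2 + 1))
  have η0 : 0 < η := lt_min one_pos (by positivity)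
  have η1 : η ≤ 1 := min_le_left _ _
  have η2 : η * (8 * κ * C₁ ^ 2 + 1) ≤ ε * q := (le_div_iff₀ (by positivity)).1 (min_le_right _ _)
  let β : ℝ → ℝ := fun s => Real.exp (-η * Real.log (Real.exp (s + -Real.log R) + 1))
  have βa : Antitone β := fun s s' h => Real.exp_le_exp.2 (mul_le_mul_of_nonpos_left
    (Real.log_le_log (by positivity) (by gcongr)) (by linarith))
  have β1 : ∀ s, β s ≤ 1 := fun s => Real.exp_le_one_iff.2 (mul_nonpos_of_nonpos_of_nonneg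
    (by linarith) (Real.log_nonneg (by linarith [Real.exp_pos (s + -Real.log R)])))
  have βc : Continuous β := Real.continuous_exp.comp (continuous_const.mul
    (Continuous.log (by fun_prop) fun s => by positivity))
  have k0 : 0 ≤ 8 * κ / (η * q) := by positivity
  refine ⟨8 * κ / (η * q), fun y => 8 * κ / (η * q) * β (Real.log (St d g τ (6 * K ^ 2) y)),
    continuousOn_const.mul (βc.comp_continuousOn ((H.cSt hτ).log fun y hy => (H.St_pos hy hτ).ne')),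
    fun y _ => ⟨mul_nonneg k0 (Real.exp_pos _).le, mul_le_of_le_one_right k0 (β1 _)⟩,
    fun x y e => by simp only [St, sg, e.1, e.2.1, e.2.2.1], fun y hy => ?_⟩
  obtain ⟨φ, b, a, j, j1, j2, a0, j3, j4⟩ := H.st_jet hy hτ h1 h2
  have hd := H.pos y hy
  have J := ((((j.add_const (-Real.log R)).exp.add_const 1).log (by positivity)).smul (-η)).exp
  refine ((J.uj.touch (W := fun y => β (Real.log (St d g τ (6 * K ^ 2) y)))
    (j1.mono fun x hx => βa hx) (by rw [← j2])).smul k0).mono ?_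
  set e := Real.exp (φ y + -Real.log R) with he
  have e0 : 0 < e := Real.exp_pos _
  set P := Real.exp (-η * Real.log (e + 1))
  have P1 : P ≤ 1 := β1 _
  have P0 : 0 < P := Real.exp_pos _
  have n1 : ‖(e : ℂ) * b‖ ^ 2 = e ^ 2 * ‖b‖ ^ 2 := by simp [mul_pow]
  have n2 : ‖((-η : ℝ) : ℂ) * ((e : ℂ) * b / ((e + 1 : ℝ) : ℂ))‖ ^ 2 =
      η ^ 2 * ‖b‖ ^ 2 * (e / (e + 1)) ^ 2 := by
    simp only [norm_mul, norm_div, Complex.norm_real, mul_pow, div_pow, Real.norm_eq_abs, sq_abs]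
    ring
  rw [n1, n2, le_div_iff₀ (by positivity)]
  refine num1 hκ η0 q0 e0 P0 P1 a0 (sq_nonneg _) (sq_nonneg _) (by rw [← mul_pow]; gcongr) η2 ?_
  split_ifs with h
  · have ee : e = St d g τ (6 * K ^ 2) y / R := by
      rw [he, j2, Real.exp_add, Real.exp_neg, Real.exp_log hR, Real.exp_log (hr.trans_le h.1)]
      rfl
    have e1 : e ≤ 1 := ee ▸ (div_le_one hR).2 h.2
    refine .inr ⟨j4, ee ▸ div_le_div_of_nonneg_right h.1 hR.le, e1, ?_⟩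
    have l1 := mul_le_of_le_one_left (Real.log_nonneg (show 1 ≤ e + 1 by linarith)) η1
    have l2 := Real.log_le_log (by positivity) (show e + 1 ≤ 2 by linarith)
    refine le_trans ?_ (Real.exp_le_exp.2 (show -Real.log 2 ≤ _ by linarith))
    rw [Real.exp_neg, Real.exp_log two_pos, one_div]
  · exact .inl rfl

open Classical in
/-- small discs round the zeros -/
lemma bar2 {ε : ℝ} (hε : 0 < ε) : ∃ ρ, 0 < ρ ∧
    Bar S d g Q fun y => ε - if ‖g y‖ ≤ ρ * (d y * ‖deriv g y‖) then 1 else 0 := by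
  have K1 := H.K1
  set ρ := min τ (ε / (36 / τ + 52 * K))
  have ρ0 : 0 < ρ := lt_min hτ (by positivity)
  have ρ1 : ρ ≤ τ := min_le_left _ _
  have ρ2 : ρ * (36 / τ + 52 * K) ≤ ε := (le_div_iff₀ (by positivity)).1 (min_le_right _ _)
  set Z := τ ^ 2 + ρ ^ 2 with hZ
  have Z0 : 0 < Z := by positivity
  let β : ℝ → ℝ := fun s => 4 * ρ ^ 2 * (Z⁻¹ * s - Real.log (s + ρ ^ 2) + (Real.log Z - τ ^ 2 / Z))
  have β0 : ∀ s, 0 ≤ s → 0 ≤ β s := fun s hs => mul_nonneg (by positivity) (by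
    have := Real.log_le_sub_one_of_pos (show 0 < (s + ρ ^ 2) / Z by positivity)
    rw [Real.log_div (by positivity) Z0.ne', show (s + ρ ^ 2) / Z - 1 = Z⁻¹ * s - τ ^ 2 / Z by
      field_simp; ring] at this
    linarith)
  have βz : β (τ ^ 2) = 0 := by simp only [β, ← hZ]; field_simp; ring
  refine ⟨ρ, ρ0, 4 * ρ ^ 2 * (Real.log Z - Real.log (ρ ^ 2)), fun y => β (sg d g τ y),
    continuousOn_const.mul (((continuousOn_const.mul (H.csg hτ)).sub (((H.csg hτ).add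
      continuousOn_const).log fun y _ => (add_pos_of_nonneg_of_pos (sg_nonneg y)
        (pow_pos ρ0 2)).ne')).add continuousOn_const), fun y _ => ⟨β0 _ (sg_nonneg y), ?_⟩,
    fun x y e => by simp only [sg, e.1, e.2.1, e.2.2.1], fun y hy => ?_⟩
  · have s0 := sg_nonneg (d := d) (g := g) (τ := τ) y
    have := Real.log_le_log (by positivity) (show ρ ^ 2 ≤ sg d g τ y + ρ ^ 2 by linarith)
    have := mul_le_mul_of_nonneg_left (sg_le (d := d) (g := g) hτ y) (inv_pos.2 Z0).le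
    refine mul_le_mul_of_nonneg_left ?_ (by positivity)
    rw [div_eq_inv_mul]
    linarith
  have hd := H.pos y hy
  have an := H.ang y hy
  obtain ⟨_, _, k, -⟩ := H.jet y hy
  rcases le_or_gt ‖g y‖ (τ * (d y * ‖deriv g y‖)) with h | h
  · have h0 := H.ne' hy h
    have n0 := norm_pos_iff.2 h0
    set t := ‖g y‖ / (d y * ‖deriv g y‖) with ht
    have t0 : 0 ≤ t := by positivity
    have t1 : t ≤ τ := by rw [ht, div_le_iff₀ (by positivity)]; exact h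
    obtain ⟨b, a, γ, j, g1, g2, j1, j2⟩ := H.ss_jet hy h0 ht (by
      nlinarith [mul_le_mul_of_nonneg_left (pow_le_pow_left₀ t0 t1 2) (zero_le_one.trans H.C1)])
    have st : ss d g y = t ^ 2 := ss_eq y
    have J := (((j.smul Z⁻¹).sub ((j.add_const (ρ ^ 2)).log (by rw [st]; positivity))).add_const
      (Real.log Z - τ ^ 2 / Z)).smul (4 * ρ ^ 2)
    refine (J.uj.touch (W := fun y => β (sg d g τ y)) ?_ (by rw [sg_in hτ h])).mono ?_
    · filter_upwards [an.deriv.continuousAt.eventually_ne h0, H.opn.mem_nhds hy] with x hx hS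
      rcases le_total ‖g x‖ (τ * (d x * ‖deriv g x‖)) with e | e
      · rw [sg_in hτ e]
      · have := H.pos x hS
        have := norm_pos_iff.2 hx
        rw [sg_out hτ (norm_pos_iff.1 (lt_of_lt_of_le (by positivity) e)) (by positivity) e, βz]
        exact β0 _ (by rw [ss_eq]; positivity)
    · rw [st, le_div_iff₀ (by positivity)]
      refine num2 K1 hτ h1 ρ0 ρ1 ρ2 t0 t1 g1 g2 j1 j2 (by positivity) ?_
      split_ifs with h
      · exact .inr ⟨rfl, by rw [ht, div_le_iff₀ (by positivity)]; exact h⟩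
      · exact .inl rfl
  · refine ((UJ.const 0 y).congr ?_).mono ?_
    · filter_upwards [(continuousAt_const.mul (k.continuousAt.mul
        an.deriv.continuousAt.norm)).eventually_lt an.continuousAt.norm h, H.opn.mem_nhds hy]
        with x hx hS
      have := H.pos x hS
      have hx : τ * (d x * ‖deriv g x‖) < ‖g x‖ := hx
      rw [sg_out hτ (norm_pos_iff.1 (lt_of_le_of_lt (by positivity) hx)) this.le hx.le, βz]
    · beta_reduce
      rw [if_neg fun e : ‖g y‖ ≤ ρ * _ => h.not_ge (e.trans (by gcongr)), sub_zero]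
      positivity

end Cr

end Vale.Agent.P097C.OC
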