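import Vale.Agent.P097C.Occ1

/-!
# P097C: the barrier built from the jets of `Q`
-/

set_option linter.all false

open Filter Topology
open scoped ComplexConjugate

namespace Vale.Agent.P097C.OC

variable {S : Set ℂ} {d : ℂ → ℝ} {g Q F : ℂ → ℂ} {K C τ : ℝ} {y : ℂ}

lemma num3 {D p f f' β N a ρ : ℝ} (D0 : 0 < D) (p0 : 0 ≤ p) (f0 : 0 ≤ f) (f1 : 0 ≤ f')
    (N0 : 0 ≤ N) (h1 : D * β ≤ N * p) (h2 : |D ^ 2 * a| ≤ N ^ 2 * p) (h3 : |ρ| ≤ β * (2 * f * f')) :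
    2 * (p * D ^ 2 * f' ^ 2) - 3 * N ^ 2 * (p * f ^ 2) ≤
      D ^ 2 * (p * (4 * f' ^ 2) + f ^ 2 * a + 2 * ρ) ∧
    D ^ 2 * (p * (4 * f' ^ 2) + f ^ 2 * a + 2 * ρ) ≤
      6 * (p * D ^ 2 * f' ^ 2) + 3 * N ^ 2 * (p * f ^ 2) := by
  have e1 : D ^ 2 * |ρ| ≤ p * (N ^ 2 * f ^ 2 + D ^ 2 * f' ^ 2) :=
    calc D ^ 2 * |ρ| ≤ D ^ 2 * (β * (2 * f * f')) := by gcongr
      _ = D * β * (2 * f * (D * f')) := by ring
      _ ≤ N * p * (2 * f * (D * f')) := by gcongr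
      _ = p * (2 * (N * f) * (D * f')) := by ring
      _ ≤ _ := mul_le_mul_of_nonneg_left (by nlinarith [sq_nonneg (N * f - D * f')]) p0
  have e2 := mul_le_mul_of_nonneg_left (le_abs_self ρ) (sq_nonneg D)
  have e3 := mul_le_mul_of_nonneg_left (neg_abs_le ρ) (sq_nonneg D)
  have e4 := mul_le_mul_of_nonneg_left (abs_le.1 h2).1 (sq_nonneg f)
  have e5 := mul_le_mul_of_nonneg_left (abs_le.1 h2).2 (sq_nonneg f)
  constructor <;> linarith

lemma num4 {x a : ℕ → ℝ} {l L : ℝ} (x0 : ∀ j, 0 ≤ x j) (l0 : 0 < l) (l1 : l ≤ 1)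
    (hL : l * L ≤ 1 / 2) (k : ℕ) (h : ∀ j < k, 2 * x (j + 1) - L * x j ≤ a j) :
    l ^ k / 2 * ∑ j ∈ Finset.range (k + 1), x j ≤
      x 0 + ∑ j ∈ Finset.range k, l ^ (j + 1) * a j := by
  suffices H : l ^ k / 2 * ∑ j ∈ Finset.range k, x j + l ^ k * x k ≤
      x 0 + ∑ j ∈ Finset.range k, l ^ (j + 1) * a j by
    rw [Finset.sum_range_succ]
    linarith [show 0 ≤ l ^ k * x k from mul_nonneg (by positivity) (x0 k)]
  induction k with
  | zero => simp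
  | succ k ih =>
    have ih := ih fun j hj => h j (hj.trans k.lt_succ_self)
    have p : 0 < l ^ k := by positivity
    have s0 : 0 ≤ ∑ j ∈ Finset.range k, x j := Finset.sum_nonneg fun j _ => x0 j
    have e1 := mul_le_mul_of_nonneg_left (h k k.lt_succ_self) (show 0 ≤ l ^ (k + 1) by positivity)
    have e2 := mul_le_mul_of_nonneg_left hL (mul_nonneg p.le (x0 k))
    have e3 := mul_le_of_le_one_right (mul_nonneg p.le (add_nonneg s0 (x0 k))) l1
    have e4 := mul_nonneg (show 0 ≤ l ^ (k + 1) by positivity) (x0 (k + 1))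
    rw [Finset.sum_range_succ, Finset.sum_range_succ]
    rw [pow_succ] at *
    linarith

lemma num5 {s u q A G a K C i : ℝ} (s0 : 0 ≤ s) (s3 : s ≤ 3) (u0 : 0 ≤ u) (uC : u ≤ (C + 3) ^ 2)
    (uq : q - 2 * s ^ 2 ≤ 2 * u) (i1 : i ≤ 1) (a1 : 2 * u - 3 * (2 * K) ^ 2 * s ≤ a)
    (a2 : a ≤ 6 * u + 3 * (2 * K) ^ 2 * s) (G1 : G ≤ 8 * s * u + 2 * (2 * K) ^ 2 * s ^ 2) :
    2 * i * s + (2 * s * a + 2 * G - a) - A ≤
      (28 * (C + 3) ^ 2 + 132 * K ^ 2 + 8) * s - (q + A) := by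
  have e1 := mul_le_mul_of_nonneg_left a2 s0
  have e2 := mul_le_mul_of_nonneg_left uC s0
  have e3 := mul_le_mul_of_nonneg_left s3 s0
  have e4 := mul_le_mul_of_nonneg_left e3 (sq_nonneg K)
  have e5 := mul_le_mul_of_nonneg_left i1 s0
  linarith

namespace Cr

variable (H : Cr S d g Q K C)
include H

lemma pow_jet (hy : y ∈ S) {n : ℕ} (hn : 2 ≤ n) : ∃ b a, EJ (fun x => d x ^ n) y b a ∧
    d y * ‖b‖ ≤ n * K * d y ^ n ∧ |d y ^ 2 * a| ≤ (n * K) ^ 2 * d y ^ n := by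
  obtain ⟨m, rfl⟩ := Nat.exists_eq_add_of_le' hn
  obtain ⟨b, a, j, hb, ha⟩ := H.jet y hy
  have hd := H.pos y hy
  refine ⟨_, _, j.comp (E1.pow (m + 2) _), ?_, ?_⟩
  · rw [norm_mul, Complex.norm_real, Real.norm_of_nonneg (by positivity)]
    calc _ = ((m + 2 : ℕ) : ℝ) * ‖b‖ * d y ^ (m + 2) := by
          simp only [show m + 2 - 1 = m + 1 from rfl]; ring
      _ ≤ _ := by gcongr
  · have e : d y ^ 2 * (((m + 2 : ℕ) : ℝ) * d y ^ (m + 2 - 1) * a +
        ((m + 2 : ℕ) : ℝ) * (((m + 2 - 1 : ℕ) : ℝ) * d y ^ (m + 2 - 1 - 1)) * ‖b‖ ^ 2) =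
        ((m : ℝ) + 2) * d y ^ (m + 2) * (a * d y + (m + 1) * ‖b‖ ^ 2) := by
      simp only [show m + 2 - 1 = m + 1 from rfl, show m + 1 - 1 = m from rfl]
      push_cast
      ring
    rw [e, abs_mul, abs_of_nonneg (by positivity)]
    have : |a * d y + (m + 1) * ‖b‖ ^ 2| ≤ K ^ 2 + (m + 1) * K ^ 2 := by
      refine (abs_add_le _ _).trans (add_le_add (by rwa [abs_mul, abs_of_pos hd]) ?_)
      rw [abs_of_nonneg (by positivity)]
      gcongr
    refine (mul_le_mul_of_nonneg_left this (by positivity)).trans_eq ?_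
    push_cast
    ring

lemma tj (hy : y ∈ S) {n : ℕ} (hn : 2 ≤ n) (hF : AnalyticAt ℂ F y) :
    ∃ b a, EJ (fun x => d x ^ n * ‖F x‖ ^ 2) y b a ∧
      2 * (d y ^ (n + 2) * ‖deriv F y‖ ^ 2) - 3 * (n * K) ^ 2 * (d y ^ n * ‖F y‖ ^ 2) ≤
        d y ^ 2 * a ∧
      d y ^ 2 * a ≤ 6 * (d y ^ (n + 2) * ‖deriv F y‖ ^ 2) + 3 * (n * K) ^ 2 * (d y ^ n * ‖F y‖ ^ 2) ∧
      d y ^ 2 * ‖b‖ ^ 2 ≤ 8 * (d y ^ n * ‖F y‖ ^ 2) * (d y ^ (n + 2) * ‖deriv F y‖ ^ 2) +
        2 * (n * K) ^ 2 * (d y ^ n * ‖F y‖ ^ 2) ^ 2 := by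
  obtain ⟨b, a, j, hb, ha⟩ := H.pow_jet hy hn
  have hd := H.pos y hy
  have K1 := H.K1
  have n1 : ‖2 * conj (F y) * deriv F y‖ = 2 * ‖F y‖ * ‖deriv F y‖ := by simp
  have := num3 hd (show 0 ≤ d y ^ n by positivity) (norm_nonneg (F y)) (norm_nonneg (deriv F y))
    (by positivity) hb ha (ρ := (b * conj (2 * conj (F y) * deriv F y)).re)
    ((Complex.abs_re_le_norm _).trans_eq (by rw [norm_mul, Complex.norm_conj, n1]))
  rw [pow_add]
  refine ⟨_, _, j.mul (EJ.normSq hF), this.1, this.2, ?_⟩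
  have e : d y * ‖((d y ^ n : ℝ) : ℂ) * (2 * conj (F y) * deriv F y) + ((‖F y‖ ^ 2 : ℝ) : ℂ) * b‖ ≤
      2 * (d y ^ n * ‖F y‖ * (d y * ‖deriv F y‖)) + n * K * (d y ^ n * ‖F y‖ ^ 2) := by
    refine (mul_le_mul_of_nonneg_left (norm_add_le _ _) hd.le).trans ?_
    rw [norm_mul, norm_mul _ b, n1, Complex.norm_real, Complex.norm_real,
      Real.norm_of_nonneg (by positivity), Real.norm_of_nonneg (by positivity)]
    linarith [mul_le_mul_of_nonneg_left hb (sq_nonneg ‖F y‖)]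
  rw [← mul_pow]
  refine (pow_le_pow_left₀ (by positivity) e 2).trans ?_
  linarith [sq_nonneg (2 * (d y ^ n * ‖F y‖ * (d y * ‖deriv F y‖)) - n * K * (d y ^ n * ‖F y‖ ^ 2))]

open Classical in
/-- the barrier made of the jets of `Q` -/
lemma bar3 (hτ : 0 < τ) (h1 : 40 * K * τ ≤ 1)
    (hc : ∀ j, ∃ Cj, ∀ y ∈ S, d y ^ (j + 2) * ‖iteratedDeriv j Q y‖ ≤ Cj) {Λ r R : ℝ} (hΛ : 1 ≤ Λ)
    (hr : r ≤ Real.exp (-(2 * Λ))) (hR : Real.exp (2 * Λ) ≤ R) (k : ℕ) : ∃ κ μ, 0 ≤ κ ∧ 0 < μ ∧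
    Bar S d g Q fun y => (κ * if r ≤ St d g τ (6 * K ^ 2) y ∧ St d g τ (6 * K ^ 2) y ≤ R then
      min ((d y * ‖deriv g y‖ / ‖g y‖) ^ 2) 1 else 0) - μ *
      if g y ≠ 0 ∧ |Real.log ‖g y‖| ≤ Λ ∧ d y * ‖deriv g y‖ ≤ ‖g y‖ then
        ∑ j ∈ Finset.range (k + 1), d y ^ (2 * j + 4) * ‖iteratedDeriv j Q y‖ ^ 2 else 0 := by
  choose Cj hCj using hc
  have K1 := H.K1
  have C1 := H.C1
  set B₀ := ∑ j ∈ Finset.range k, Cj j ^ 2
  have B0 : 0 ≤ B₀ := Finset.sum_nonneg fun _ _ => sq_nonneg _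
  set L := 3 * ((2 * k + 4) * K) ^ 2
  have L0 : 0 ≤ L := by positivity
  set l := 1 / (2 * L + B₀ + 1) with hl
  have l0 : 0 < l := by positivity
  have l1 : l ≤ 1 := (div_le_one (by positivity)).2 (by linarith)
  have l2 : l * L ≤ 1 / 2 := by
    rw [hl, one_div_mul_eq_div, div_le_iff₀ (by positivity)]
    linarith
  have l3 : l * B₀ ≤ 1 := by
    rw [hl, one_div_mul_eq_div, div_le_one (by positivity)]
    linarith
  let x : ℕ → ℂ → ℝ := fun j y => d y ^ (2 * j + 4) * ‖iteratedDeriv j Q y‖ ^ 2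
  let s : ℂ → ℝ := fun y => d y ^ 2 * ‖deriv g y / g y‖ ^ 2
  let T : ℂ → ℝ := fun y => ∑ j ∈ Finset.range k, l ^ (j + 1) * x j y
  let v : ℂ → ℝ := fun y => (Λ⁻¹ * Real.log ‖g y‖) ^ 2 + (s y ^ 2 - s y) - T y + -1
  let B : Set ℂ := {y | (d y * ‖deriv g y‖) ^ 2 < 3 * ‖g y‖ ^ 2}
  have se : ∀ y, s y = (d y * ‖deriv g y‖) ^ 2 / ‖g y‖ ^ 2 := fun y => by
    simp only [s, norm_div]
    ring
  have s0 : ∀ y, 0 ≤ s y := fun y => by positivity
  have gB : ∀ y ∈ B, g y ≠ 0 := fun y hy e => by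
    have : (d y * ‖deriv g y‖) ^ 2 < 3 * ‖g y‖ ^ 2 := hy
    rw [e, norm_zero] at this
    linarith [sq_nonneg (d y * ‖deriv g y‖)]
  have x0 : ∀ y ∈ S, ∀ j, 0 ≤ x j y := fun y hy j => by have := H.pos y hy; positivity
  have T0 : ∀ y ∈ S, 0 ≤ T y := fun y hy =>
    Finset.sum_nonneg fun j _ => mul_nonneg (by positivity) (x0 y hy j)
  have T1 : ∀ y ∈ S, T y ≤ 1 := fun y hy => by
    refine le_trans ?_ l3
    rw [Finset.mul_sum]
    refine Finset.sum_le_sum fun j _ => mul_le_mul (pow_le_of_le_one l0.le l1 j.succ_ne_zero) ?_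
      (x0 y hy j) l0.le
    have := H.pos y hy
    refine le_of_eq_of_le ?_ (pow_le_pow_left₀ (by positivity) (hCj j y hy) 2)
    simp only [x]
    ring
  have aQ : ∀ j, ∀ y ∈ S, AnalyticAt ℂ (iteratedDeriv j Q) y := fun j y hy => by
    rw [iteratedDeriv_eq_iterate]
    exact (H.anQ y hy).iterated_deriv j
  have cB : ∀ y ∈ S, ∀ c : ℝ, ContinuousAt (fun y => (d y * ‖deriv g y‖) ^ 2) y ∧
      ContinuousAt (fun y => c * ‖g y‖ ^ 2) y := fun y hy c =>
    ⟨(H.cD.continuousAt (H.opn.mem_nhds hy)).pow 2,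
      continuousAt_const.mul ((H.ang y hy).continuousAt.norm.pow 2)⟩
  have jv : ∀ y ∈ S, y ∈ B → ∃ b a, EJ v y b a ∧ d y ^ 2 * a ≤
      (28 * (C + 3) ^ 2 + 132 * K ^ 2 + 8) * s y - l ^ k / 2 * ∑ j ∈ Finset.range (k + 1), x j y := by
    intro y hy hB
    have hd := H.pos y hy
    have g0 := gB y hB
    have n0 := norm_pos_iff.2 g0
    have an := H.ang y hy
    have s3 : s y ≤ 3 := by
      rw [se, div_le_iff₀ (by positivity)]
      exact le_of_lt hB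
    obtain ⟨b, a, j, j1, j2, j3⟩ := H.tj hy le_rfl (an.deriv.div an g0)
    choose b' a' k1 k2 _ using fun j => H.tj hy (show 2 ≤ 2 * j + 4 by omega) (aQ j y hy)
    have eh : deriv (deriv g / g) y = Q y - (deriv g y / g y) ^ 2 := by
      rw [deriv_div an.deriv.differentiableAt an.differentiableAt g0, H.ode y hy]
      field_simp
    refine ⟨_, _, (((((EJ.logNorm an g0).smul Λ⁻¹).sq.add (j.sq.sub j)).sub
      (EJ.sum (Finset.range k) fun j _ => (k1 j).smul (l ^ (j + 1)))).add_const (-1)), ?_⟩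
    have e1 := num4 (x0 y hy) l0 l1 l2 k (a := fun j => d y ^ 2 * a' j) fun j hj => by
      refine le_trans (sub_le_sub (le_of_eq ?_) (mul_le_mul_of_nonneg_right ?_ (x0 y hy j))) (k2 j)
      · rw [← iteratedDeriv_succ]
        rfl
      · have : (j : ℝ) ≤ k := by exact_mod_cast hj.le
        simp only [L]
        push_cast
        gcongr
    have q1 : d y ^ (2 + 2) * ‖deriv (deriv g / g) y‖ ^ 2 ≤ (C + 3) ^ 2 := by
      rw [eh, pow_add, ← sq, ← mul_pow]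
      refine pow_le_pow_left₀ (by positivity) ((mul_le_mul_of_nonneg_left (norm_sub_le _ _)
        (by positivity)).trans ?_) 2
      rw [norm_pow]
      linarith [H.bd y hy, show d y ^ 2 * ‖deriv g y / g y‖ ^ 2 ≤ 3 from s3]
    have q2 : x 0 y - 2 * s y ^ 2 ≤ 2 * (d y ^ (2 + 2) * ‖deriv (deriv g / g) y‖ ^ 2) := by
      have : ‖Q y‖ ≤ ‖deriv (deriv g / g) y‖ + ‖deriv g y / g y‖ ^ 2 := by
        rw [eh, ← norm_pow]
        exact norm_le_norm_sub_add _ _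
      have := pow_le_pow_left₀ (norm_nonneg _) this 2
      have : ‖Q y‖ ^ 2 ≤ 2 * ‖deriv (deriv g / g) y‖ ^ 2 + 2 * (‖deriv g y / g y‖ ^ 2) ^ 2 := by
        linarith [sq_nonneg (‖deriv (deriv g / g) y‖ - ‖deriv g y / g y‖ ^ 2)]
      have := mul_le_mul_of_nonneg_left this (show 0 ≤ d y ^ 4 by positivity)
      simp only [x, s, iteratedDeriv_zero]
      linarith
    have e2 := num5 (A := ∑ j ∈ Finset.range k, l ^ (j + 1) * (d y ^ 2 * a' j)) (s0 y) s3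
      (by positivity) q1 q2 (pow_le_one₀ (by positivity) (inv_le_one_of_one_le₀ hΛ) (n := 2))
      j1 j2 j3
    refine le_trans (le_of_eq ?_) (e2.trans (sub_le_sub_left e1 _))
    have : ∑ j ∈ Finset.range k, l ^ (j + 1) * (d y ^ 2 * a' j) =
        d y ^ 2 * ∑ j ∈ Finset.range k, l ^ (j + 1) * a' j := by
      rw [Finset.mul_sum]
      exact Finset.sum_congr rfl fun _ _ => by ring
    rw [this, norm_mul, Complex.norm_real, Real.norm_of_nonneg (by positivity)]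
    simp only [s, Pi.div_apply]
    ring
  set κ := 28 * (C + 3) ^ 2 + 132 * K ^ 2 + 8
  have κ0 : 0 ≤ κ := by positivity
  refine ⟨3 * κ, l ^ k / 2, by positivity, by positivity, 3,
    fun y => 3 + paste B (fun _ => 0) v y, continuousOn_const.add (paste_cont continuousOn_const
      (fun y hy => ?_) fun y hy => ?_), fun y hy => ⟨?_, add_le_of_nonpos_right (paste_le _ _ _ _)⟩,
    fun y z e => ?_, fun y hy => ?_⟩
  · obtain ⟨_, _, j, -⟩ := jv y hy.1 hy.2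
    exact j.continuousAt.continuousWithinAt
  · by_cases hB : y ∈ B
    · exact .inl (mem_nhdsWithin_of_mem_nhds ((cB y hy 3).1.eventually_lt (cB y hy 3).2 hB))
    · have hB : 3 * ‖g y‖ ^ 2 ≤ (d y * ‖deriv g y‖) ^ 2 := not_lt.1 hB
      have : 2 * ‖g y‖ ^ 2 < (d y * ‖deriv g y‖) ^ 2 := by
        have := H.pos y hy
        rcases H.nd y hy with h | h <;> have := norm_pos_iff.2 h
        · linarith [show 0 < ‖g y‖ ^ 2 by positivity]
        · linarith [show 0 < (d y * ‖deriv g y‖) ^ 2 by positivity]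
      refine .inr ?_
      filter_upwards [mem_nhdsWithin_of_mem_nhds ((cB y hy 2).2.eventually_lt (cB y hy 2).1 this),
        self_mem_nhdsWithin] with z hz hS hB
      have := norm_pos_iff.2 (gB z hB)
      have : 2 ≤ s z := by
        rw [se, le_div_iff₀ (by positivity)]
        exact le_of_lt hz
      have := T1 z hS
      have := sq_nonneg (Λ⁻¹ * Real.log ‖g z‖)
      show 0 ≤ v z
      simp only [v]
      nlinarith
  · have : -3 ≤ paste B (fun _ => 0) v y := by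
      by_cases hB : y ∈ B
      · rw [paste_in hB]
        refine le_min (by norm_num) ?_
        have := T1 y hy
        have := sq_nonneg (Λ⁻¹ * Real.log ‖g y‖)
        have := sq_nonneg (s y - 1 / 2)
        simp only [v]
        linarith
      · rw [paste_out hB]
        norm_num
    linarith
  · have e1 : y ∈ B ↔ z ∈ B := by simp only [B, Set.mem_setOf_eq, e.1, e.2.1, e.2.2.1]
    have e2 : v y = v z := by simp only [v, s, T, x, e.1, e.2.1, e.2.2.1, e.2.2.2]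
    simp only [paste, e1, e2]
  have hd := H.pos y hy
  beta_reduce
  refine ((UJ.const 3 y).add (a' := _ / d y ^ 2) ?_).mono (zero_add _).le
  by_cases hz : y ∈ B ∧ v y ≤ 0
  · obtain ⟨b, a, j, j1⟩ := jv y hy hz.1
    refine (j.uj.touch (Eventually.mono ((cB y hy 3).1.eventually_lt (cB y hy 3).2 hz.1)
      fun x hx => (paste_in hx).trans_le (min_le_right _ _))
      ((paste_in hz.1).trans (min_eq_right hz.2))).mono ?_
    rw [le_div_iff₀' (by positivity)]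
    have g0 := norm_pos_iff.2 (gB y hz.1)
    have s3 : s y ≤ 3 := by
      rw [se, div_le_iff₀ (by positivity)]
      exact le_of_lt hz.1
    have w1 : |Real.log ‖g y‖| ≤ 2 * Λ := by
      have h := hz.2
      have := T1 y hy
      have := sq_nonneg (s y - 1 / 2)
      have : (Λ⁻¹ * Real.log ‖g y‖) ^ 2 ≤ 2 ^ 2 := by
        simp only [v] at h
        linarith
      have := abs_le_of_sq_le_sq this zero_le_two
      rwa [abs_mul, abs_of_pos (by positivity), inv_mul_le_iff₀' (by positivity)] at this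
    have w2 : St d g τ (6 * K ^ 2) y ≤ ‖g y‖ := (H.St_le hy hτ h1).trans (max_le le_rfl (by
      have : d y * ‖deriv g y‖ ≤ 2 * ‖g y‖ := by
        refine (sq_le_sq₀ (by positivity) (by positivity)).1 ?_
        have : (d y * ‖deriv g y‖) ^ 2 < 3 * ‖g y‖ ^ 2 := hz.1
        linarith [sq_nonneg ‖g y‖]
      have : τ ≤ 1 / 2 := by nlinarith
      nlinarith))
    rw [if_pos ⟨hr.trans (((Real.le_log_iff_exp_le g0).1 (abs_le.1 w1).1).trans (le_max_left _ _)),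
      w2.trans (((Real.log_le_iff_le_exp g0).1 (abs_le.1 w1).2).trans hR)⟩, div_pow, ← se]
    refine j1.trans (sub_le_sub ?_ (mul_le_mul_of_nonneg_left ?_ (by positivity)))
    · rw [mul_comm 3, mul_assoc]
      refine mul_le_mul_of_nonneg_left ?_ κ0
      rw [mul_min_of_nonneg _ _ zero_le_three]
      exact le_min (by linarith [s0 y]) (by linarith)
    · split_ifs
      exacts [le_rfl, Finset.sum_nonneg fun j _ => x0 y hy j]
  · refine ((UJ.const 0 y).touch (.of_forall (paste_le B _ v))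
      (paste_eq fun h1 => (not_le.1 fun h2 => hz ⟨h1, h2⟩).le)).mono ?_
    suffices h : ¬(g y ≠ 0 ∧ |Real.log ‖g y‖| ≤ Λ ∧ d y * ‖deriv g y‖ ≤ ‖g y‖) by
      rw [if_neg h, mul_zero, sub_zero]
      split_ifs <;> positivity
    rintro ⟨g0, w1, w2⟩
    have g0 := norm_pos_iff.2 g0
    have w3 := pow_le_pow_left₀ (by positivity) w2 2
    refine hz ⟨show (d y * ‖deriv g y‖) ^ 2 < 3 * ‖g y‖ ^ 2 by
      linarith [show 0 < ‖g y‖ ^ 2 by positivity], ?_⟩
    have s1 : s y ≤ 1 := by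
      rw [se, div_le_one (by positivity)]
      exact w3
    have : (Λ⁻¹ * Real.log ‖g y‖) ^ 2 ≤ 1 := by
      rw [sq_le_one_iff_abs_le_one, abs_mul, abs_of_pos (by positivity),
        inv_mul_le_iff₀' (by positivity), one_mul]
      exact w1
    have := T0 y hy
    have := mul_le_of_le_one_right (s0 y) s1
    simp only [v]
    linarith

open Classical in
/-- **occupation of the moderate band** -/
theorem occ0 (hc : ∀ j, ∃ Cj, ∀ y ∈ S, d y ^ (j + 2) * ‖iteratedDeriv j Q y‖ ≤ Cj) {A ε c d₁ : ℝ}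
    {k : ℕ} (hA : 1 ≤ A) (hε : 0 < ε) (c0 : 0 < c)
    (hn : ∀ y ∈ S, d y < d₁ → ‖g y‖ ≤ A → d y * ‖deriv g y‖ ≤ ‖g y‖ →
      c ≤ ∑ j ∈ Finset.range (k + 1), d y ^ (2 * j + 4) * ‖iteratedDeriv j Q y‖ ^ 2) :
    Bar S d g Q fun y => ε - if (A⁻¹ ≤ ‖g y‖ ∧ ‖g y‖ ≤ A) ∧ d y < d₁ then 1 else 0 := by
  have K1 := H.K1
  have C1 := H.C1
  set τ := 1 / (40 * K + 2 * C) with eτ
  have hτ : 0 < τ := by positivity
  have h1 : 40 * K * τ ≤ 1 := by
    rw [eτ, mul_one_div, div_le_one (by positivity)]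
    linarith
  have h2 : 2 * C * τ ^ 2 ≤ 1 := by
    have : 2 * C * τ ≤ 1 := by
      rw [eτ, mul_one_div, div_le_one (by positivity)]
      linarith
    have : τ ≤ 1 := by nlinarith
    nlinarith
  obtain ⟨ρ, ρ0, b2⟩ := H.bar2 hτ h1 h2 (half_pos hε)
  set Λ := Real.log A + 1
  have l0 := Real.log_nonneg hA
  set R := max (Real.exp (2 * Λ)) (A * τ / ρ + A)
  obtain ⟨κ, μ, κ0, μ0, b3⟩ := H.bar3 hτ h1 hc (Λ := Λ) (R := R) (le_add_of_nonneg_left l0) le_rfl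
    (le_max_left _ _) k
  have b1 := H.bar1 hτ h1 h2 (half_pos hε) (κ := (μ * c)⁻¹ * κ + 1) (by positivity)
    (Real.exp_pos (-(2 * Λ))) (R := R) (lt_max_of_lt_left (Real.exp_pos _))
  refine ((b1.add b2).add (b3.smul (k := (μ * c)⁻¹) (by positivity))).mono fun y hy => ?_
  have hd := H.pos y hy
  set w := if Real.exp (-(2 * Λ)) ≤ St d g τ (6 * K ^ 2) y ∧ St d g τ (6 * K ^ 2) y ≤ R then
    min ((d y * ‖deriv g y‖ / ‖g y‖) ^ 2) 1 else 0 with hw
  set i := if ‖g y‖ ≤ ρ * (d y * ‖deriv g y‖) then (1 : ℝ) else 0 with hi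
  set σ := if g y ≠ 0 ∧ |Real.log ‖g y‖| ≤ Λ ∧ d y * ‖deriv g y‖ ≤ ‖g y‖ then
    ∑ j ∈ Finset.range (k + 1), d y ^ (2 * j + 4) * ‖iteratedDeriv j Q y‖ ^ 2 else 0 with hσ
  have w0 : 0 ≤ w := by rw [hw]; split_ifs <;> positivity
  have i0 : 0 ≤ i := by rw [hi]; split_ifs <;> positivity
  have σ0 : 0 ≤ σ / c := by rw [hσ]; split_ifs <;> positivity
  have e : (μ * c)⁻¹ * (κ * w - μ * σ) = (μ * c)⁻¹ * κ * w - σ / c := by field_simp
  rw [e]
  suffices h : (A⁻¹ ≤ ‖g y‖ ∧ ‖g y‖ ≤ A) ∧ d y < d₁ → 1 ≤ w ∨ 1 ≤ i ∨ 1 ≤ σ / c by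
    split_ifs with h'
    · rcases h h' with h | h | h <;> linarith
    · linarith
  rintro ⟨⟨a1, a2⟩, a3⟩
  have g0 : 0 < ‖g y‖ := (inv_pos.2 (by positivity)).trans_le a1
  have lg : |Real.log ‖g y‖| ≤ Λ := by
    have u1 := Real.log_le_log (by positivity) a1
    have u2 := Real.log_le_log g0 a2
    rw [Real.log_inv] at u1
    exact abs_le.2 ⟨by simp only [Λ]; linarith, by simp only [Λ]; linarith⟩
  rcases le_or_gt (d y * ‖deriv g y‖) ‖g y‖ with h | h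
  · refine .inr (.inr ?_)
    rw [hσ, if_pos ⟨norm_pos_iff.1 g0, lg, h⟩, one_le_div c0]
    exact hn y hy a3 a2 h
  rcases le_or_gt (St d g τ (6 * K ^ 2) y) R with h' | h'
  · refine .inl ?_
    rw [hw, if_pos ⟨((Real.le_log_iff_exp_le g0).1 (by
      linarith [(abs_le.1 lg).1, show 0 ≤ Λ by positivity])).trans (le_max_left _ _), h'⟩]
    exact le_min (one_le_pow₀ ((one_le_div g0).2 h.le)) le_rfl
  · refine .inr (.inl ?_)
    have u := ((le_max_right _ _).trans_lt h').trans_le (H.St_le hy hτ h1)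
    have p : 0 ≤ A * τ / ρ := by positivity
    have u : A * τ / ρ < τ * (d y * ‖deriv g y‖) := by
      rcases lt_max_iff.1 u with u | u <;> linarith
    rw [div_lt_iff₀ ρ0] at u
    rw [hi, if_pos (a2.trans (le_of_mul_le_mul_left (by linarith) hτ))]

end Cr

end Vale.Agent.P097C.OC
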