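import Vale.Agent.P097C.Dd

/-!
# P097C: pasting, Jensen barrier, minimum principle on a strip
-/

open Filter Topology Set Metric

namespace Vale.Agent.P097C

theorem paste' : Spec_PASTE := by
  intro n r ρ Y hY T L a hL ha
  have key : ∀ T : Finset (ZMod n), ∃ D : ℂ → ℝ, Bar (St ρ) D ∧ ∀ x ∈ St ρ, UJ D x 0 ∧
      (∀ j ∈ T, D x ≤ dd r (Y x j)) ∧ ∀ u ≤ 1, (∀ j ∈ T, u ≤ dd r (Y x j)) → u ≤ D x := by
    classical
    intro T
    induction T using Finset.induction_on with
    | empty => exact ⟨fun _ => 1, Bar.const one_pos.le, fun x _ => ⟨UJ.const _ _, by simp, by simp⟩⟩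
    | insert i T hi ih =>
      obtain ⟨D, h1, h2⟩ := ih
      refine ⟨fun x => min (D x) (dd r (Y x i)), h1.min (hY.bar (dd_bar r) i), fun x hx => ?_⟩
      obtain ⟨k1, k2, k3⟩ := h2 x hx
      have k4 : UJ (fun x => dd r (Y x i)) x 0 :=
        ((dd_uj r _).pull (hY.anY i x hx)).mono (by nlinarith [sq_nonneg ‖deriv (fun x => Y x i) x‖])
      refine ⟨(le_total (D x) (dd r (Y x i))).elim (fun e => k1.min_left e) fun e => k4.min_right e, fun j hj => ?_,
        fun u hu h => le_min (k3 u hu fun j hj => h j (Finset.mem_insert_of_mem hj))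
          (h i (Finset.mem_insert_self _ _))⟩
      rcases Finset.mem_insert.1 hj with rfl | hj
      exacts [min_le_right _ _, (min_le_left _ _).trans (k2 j hj)]
  obtain ⟨D, h1, h2⟩ := key T
  have e := Real.exp_pos L
  have e1 : Real.exp L * Real.exp (-L) = 1 := by rw [← Real.exp_add]; simp
  refine ⟨fun x => min (a x + 2 * Real.exp (-L)) (Real.exp L * D x),
    (ha.add (Bar.const (by positivity))).min (h1.smul e.le), fun x hx => ?_⟩
  obtain ⟨k1, k2, k3⟩ := h2 x hx
  refine ⟨min_le_left _ _, fun h h' => le_min (by linarith [Real.exp_pos (-L)]) ?_, fun h => ?_⟩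
  · exact e1 ▸ mul_le_mul_of_nonneg_left (k3 _ (Real.exp_le_one_iff.2 (by linarith)) h) e.le
  · rcases le_total (a x + 2 * Real.exp (-L)) (Real.exp L * D x) with h' | h'
    · refine UJ.min_left (((h fun j hj => ?_).add (UJ.const _ x)).mono (by simp)) h'
      have e2 : Real.exp L * Real.exp (-(2 * L)) = Real.exp (-L) := by
        rw [← Real.exp_add]; ring_nf
      refine le_of_mul_le_mul_left ?_ e
      have := mul_le_mul_of_nonneg_left (k2 j hj) e.le
      linarith [ha.2 x hx, Real.exp_pos (-L)]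
    · exact UJ.min_right (by simpa using k1.smul e.le) h'

theorem jen : Spec_JEN := by
  intro n r ρ Y hY F T L M K hF h0 hL hM hK
  set η := Real.exp (-(K * M)) with hη
  have η0 : 0 < η := Real.exp_pos _
  have KM : 1 ≤ K * M := one_le_mul_of_one_le_of_one_le hK hM
  have l2 : Real.log 2 < 1 := by linarith [Real.log_two_lt_d9]
  have l0 : 0 < Real.log 2 := Real.log_pos one_lt_two
  set D := M + 1 + K * M - Real.log 2 / 2 with hD
  have D0 : 0 < D := by linarith
  set u : ℂ → ℝ := fun x => M + 1 + 1 / 2 * -Real.log (‖F x‖ ^ 2 + η ^ 2) with hu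
  have p : ∀ x, 0 < ‖F x‖ ^ 2 + η ^ 2 := fun x => by positivity
  have uc : ContinuousOn u (St ρ) := continuousOn_const.add (continuousOn_const.mul
    (((hF.continuousOn.norm.pow 2).add continuousOn_const).log fun x _ => (p x).ne').neg)
  obtain ⟨W, h1, h2⟩ := paste' n r ρ Y hY T L (fun x => D⁻¹ * max (u x) 0) hL
    (Bar.smul (inv_pos.2 D0).le ⟨fun y hy => Tendsto.max (uc y hy) tendsto_const_nhds,
      fun _ _ => le_max_right _ _⟩)
  refine ⟨W, h1, (h2 0 (St_zero hY.ρ0)).1.trans (add_le_add_left ?_ _), fun x hx => ⟨fun hW hl => ?_,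
    fun hb => (h2 x hx).2.2 fun hl => ?_⟩⟩
  · have n0 : 0 < ‖F 0‖ := norm_pos_iff.2 h0
    have : 2 * Real.log ‖F 0‖ ≤ Real.log (‖F 0‖ ^ 2 + η ^ 2) := by
      rw [show 2 * Real.log ‖F 0‖ = Real.log (‖F 0‖ ^ 2) by simp]
      exact Real.log_le_log (by positivity) (by nlinarith)
    have h3 : max (u 0) 0 ≤ M + 1 + |Real.log ‖F 0‖| := max_le
      (by simp only [hu]; linarith [neg_abs_le (Real.log ‖F 0‖)]) (by positivity)
    rw [inv_mul_eq_div]
    exact div_le_div₀ (by positivity) h3 (by linarith) (by linarith)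
  · by_contra hc
    refine absurd ((h2 x hx).2.1 hl ?_) (not_le.2 hW)
    rw [inv_mul_eq_div, one_le_div D0]
    refine le_max_of_le_left ?_
    have : Real.log (‖F x‖ ^ 2 + η ^ 2) ≤ Real.log (2 * η ^ 2) :=
      Real.log_le_log (p x) (by nlinarith [norm_nonneg (F x), not_le.1 hc])
    rw [Real.log_mul two_ne_zero (by positivity), Real.log_pow, hη, Real.log_exp] at this
    simp only [hu, hD]
    push_cast at this
    linarith
  · have u0 : 0 < u x := by
      have e1 : η ≤ Real.exp M := Real.exp_le_exp.2 (by linarith)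
      have : Real.log (‖F x‖ ^ 2 + η ^ 2) ≤ Real.log (2 * Real.exp M ^ 2) :=
        Real.log_le_log (p x) (by nlinarith [norm_nonneg (F x), hb hl])
      rw [Real.log_mul two_ne_zero (by positivity), Real.log_pow, Real.log_exp] at this
      simp only [hu]
      push_cast at this
      linarith
    have j := ((UJ.const (M + 1) x).add ((EJ.jensen (hF x hx) (p x).ne').uj.smul
      (k := 1 / 2) (by norm_num))).mono (a' := 0) (by
        have : 0 ≤ 4 * η ^ 2 * ‖deriv F x‖ ^ 2 / (‖F x‖ ^ 2 + η ^ 2) ^ 2 := by positivity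
        linarith)
    have := (j.congr (W' := fun x => max (u x) 0) ?_).smul (inv_pos.2 D0).le
    · simpa using this
    filter_upwards [(uc.continuousAt ((St_open ρ).mem_nhds hx)).eventually (lt_mem_nhds u0)] with z hz
    exact (max_eq_left hz.le).symm

theorem minp' : Spec_MINP := by
  intro A W T hA hT hW hs hm z₀ hz₀
  have T0 : 0 ≤ T := (abs_nonneg _).trans (hT z₀ hz₀)
  set k := (T + 1)⁻¹ with hk
  have k0 : 0 < k := by positivity
  let H : ℂ → ℝ := fun z => (Complex.cosh (k * (z - z₀.re))).re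
  have hH : ∀ z, H z = Real.cosh (k * (z.re - z₀.re)) * Real.cos (k * z.im) := fun z => by
    have : (k * (z - z₀.re) : ℂ) = (k * (z.re - z₀.re) : ℝ) + (k * z.im : ℝ) * Complex.I := by
      apply Complex.ext <;> simp
    simp only [H, this, Complex.cosh_add, Complex.cosh_mul_I, Complex.sinh_mul_I,
      ← Complex.ofReal_cosh, ← Complex.ofReal_sinh, ← Complex.ofReal_cos, ← Complex.ofReal_sin]
    simp [-Complex.ofReal_cosh, -Complex.ofReal_sinh, -Complex.ofReal_cos, -Complex.ofReal_sin]
  have hT' : ∀ z ∈ closure A, |z.im| ≤ T := fun z hz =>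
    closure_minimal hT (isClosed_le (f := fun z : ℂ => |z.im|) (by fun_prop) continuous_const) hz
  have hc : ∀ z ∈ closure A, 1 / 2 ≤ Real.cos (k * z.im) := fun z hz => by
    have h1 : |k * z.im| ≤ 1 := by
      rw [abs_mul, abs_of_pos k0, hk, inv_mul_le_iff₀ (by positivity)]
      linarith [hT' z hz]
    nlinarith [Real.one_sub_sq_div_two_le_cos (x := k * z.im), sq_abs (k * z.im), abs_nonneg (k * z.im)]
  refine le_of_forall_pos_le_add fun ε hε => ?_
  set R := (2 / ε + 1) / k with hR
  have R0 : 0 < R := by positivity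
  let B := A ∩ {z | |z.re - z₀.re| < R}
  have hB : IsOpen B := hA.inter (isOpen_lt (by fun_prop) continuous_const)
  have cB : closure B ⊆ closure A := closure_mono inter_subset_left
  have Hc : Continuous H := by fun_prop
  have := minp (W := fun z => W z + ε * H z) hB (isBounded_iff_forall_norm_le.2 ⟨|z₀.re| + R + T,
      fun z hz => (Complex.norm_le_abs_re_add_abs_im z).trans (add_le_add (by
        have : |z.re - z₀.re| < R := hz.2
        linarith [abs_sub_abs_le_abs_sub z.re z₀.re]) (hT z hz.1))⟩)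
    ((hW.1.mono cB).add (by fun_prop)) (fun z hz => by
      simpa using (hs z hz.1).add ((EJ.re (F := fun z => Complex.cosh (k * (z - z₀.re)))
        (z := z) (by fun_prop)).uj.smul hε.le)) (m := 1) (fun z hz => ?_) z₀
    (subset_closure ⟨hz₀, by simpa using R0⟩)
  · have h1 : H z₀ ≤ 1 := by rw [hH]; simpa using Real.cos_le_one _
    nlinarith
  · have hz1 := cB hz.1
    have h1 := hc z hz1
    have h2 := Real.one_le_cosh (k * (z.re - z₀.re))
    rw [hH]
    by_cases hzA : z ∈ A
    · have h3 : R ≤ |z.re - z₀.re| := not_lt.1 fun h => hz.2 (by rw [hB.interior_eq]; exact ⟨hzA, h⟩)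
      have h4 : 2 / ε + 1 ≤ |k * (z.re - z₀.re)| := by
        rw [abs_mul, abs_of_pos k0, ← div_le_iff₀' k0]; exact h3
      have h5 : 2 / ε ≤ Real.cosh (k * (z.re - z₀.re)) := by
        rw [← Real.cosh_abs]
        have := (Real.self_le_sinh_iff.2 (abs_nonneg (k * (z.re - z₀.re)))).trans
          (Real.sinh_lt_cosh _).le
        linarith
      rw [div_le_iff₀ hε] at h5
      nlinarith [hW.2 z hz1]
    · have := hm z ⟨hz1, by rwa [hA.interior_eq]⟩
      nlinarith [mul_nonneg hε.le (mul_nonneg (zero_le_one.trans h2) (by linarith : 0 ≤ Real.cos (k * z.im)))]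

end Vale.Agent.P097C
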