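import Vale.Agent.P097C.Jet

/-!
# P097C: potentials, gluing, elementary barriers
-/

set_option linter.all false

open Filter Topology Asymptotics
open scoped ComplexConjugate

namespace Vale.Agent.P097C

variable {W W' u v f f' : ℂ → ℝ} {z b b' : ℂ} {a a' k : ℝ} {β : ℝ → ℝ} {s β₁ β₂ : ℝ} {F : ℂ → ℂ}
  {A A' : Set ℂ}

lemma E1.inv (hs : s ≠ 0) : E1 (fun t => t⁻¹) s (-(s ^ 2)⁻¹) (2 / s ^ 3) :=
  E1.of_deriv (β' := fun t => -(t ^ 2)⁻¹) ((eventually_ne_nhds hs).mono fun _ => hasDerivAt_inv)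
    (((hasDerivAt_pow 2 s).inv (pow_ne_zero 2 hs)).neg.congr_deriv (by field_simp; simp; ring))

lemma E1.rpow (p : ℝ) (hs : 0 < s) :
    E1 (fun t => t ^ p) s (p * s ^ (p - 1)) (p * ((p - 1) * s ^ (p - 1 - 1))) :=
  E1.of_deriv (β' := fun t => p * t ^ (p - 1))
    ((eventually_ne_nhds hs.ne').mono fun _ ht => Real.hasDerivAt_rpow_const (.inl ht))
    ((Real.hasDerivAt_rpow_const (.inl hs.ne')).const_mul p)

lemma E1.pow (n : ℕ) (s : ℝ) :
    E1 (fun t => t ^ n) s (n * s ^ (n - 1)) (n * ((n - 1 : ℕ) * s ^ (n - 1 - 1))) :=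
  E1.of_deriv (β' := fun t => n * t ^ (n - 1)) (.of_forall fun _ => hasDerivAt_pow n _)
    ((hasDerivAt_pow (n - 1) s).const_mul _)

lemma E1.of_contDiffAt (h : ContDiffAt ℝ 2 β s) : E1 β s (deriv β s) (deriv (deriv β) s) :=
  E1.of_deriv ((h.eventually (by simp)).mono fun _ ht =>
    (ht.differentiableAt (by simp)).hasDerivAt)
    ((h.derivWithin (m := 1) le_rfl).differentiableAt one_ne_zero).hasDerivAt

lemma E1.congr {γ : ℝ → ℝ} (h : E1 β s β₁ β₂) (e : β =ᶠ[𝓝 s] γ) : E1 γ s β₁ β₂ := by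
  have t : Tendsto (fun h : ℝ => s + h) (𝓝 0) (𝓝 s) := by
    simpa using (tendsto_const_nhds (x := s)).add (tendsto_id (x := 𝓝 (0 : ℝ)))
  refine IsLittleO.congr' h ?_ EventuallyEq.rfl
  filter_upwards [t.eventually e] with h e1
  rw [e1, e.eq_of_nhds]

namespace EJ

theorem add_const (h : EJ u z b a) (k : ℝ) : EJ (fun x => u x + k) z b a := by
  simpa using h.add (const k z)

theorem const_sub (h : EJ u z b a) (k : ℝ) : EJ (fun x => k - u x) z (-b) (-a) := by
  simpa using (const k z).sub h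

theorem log (h : EJ u z b a) (h0 : u z ≠ 0) : EJ (fun x => Real.log (u x)) z (b / u z)
    (a / u z - ‖b‖ ^ 2 / u z ^ 2) :=
  (h.comp (E1.log h0)).cast (by push_cast; ring) (by ring)

theorem inv (h : EJ u z b a) (h0 : u z ≠ 0) : EJ (fun x => (u x)⁻¹) z (-b / u z ^ 2)
    (-a / u z ^ 2 + 2 * ‖b‖ ^ 2 / u z ^ 3) :=
  (h.comp (E1.inv h0)).cast (by push_cast; ring) (by ring)

theorem exp (h : EJ u z b a) : EJ (fun x => Real.exp (u x)) z (Real.exp (u z) * b)
    (Real.exp (u z) * (a + ‖b‖ ^ 2)) :=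
  (h.comp (E1.exp _)).cast rfl (by ring)

theorem sq (h : EJ u z b a) : EJ (fun x => u x ^ 2) z (2 * u z * b) (2 * u z * a + 2 * ‖b‖ ^ 2) :=
  (h.comp (E1.sq _)).cast (by push_cast; ring) rfl

/-- the clock: `log (v + k)` pays `|b|² / (v + k)²` -/
theorem clock (h : EJ v z b 0) (h0 : v z + k ≠ 0) :
    EJ (fun x => Real.log (v x + k)) z (b / (v z + k : ℝ)) (-(‖b‖ ^ 2 / (v z + k) ^ 2)) :=
  ((h.add_const k).log h0).cast rfl (by ring)

/-- the mass: `v / (v + k)` pays `2 k |b|² / (v + k)³` -/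
theorem frac (h : EJ v z b 0) (h0 : v z + k ≠ 0) : EJ (fun x => v x / (v x + k)) z
    (k * b / (v z + k : ℝ) ^ 2) (-(2 * k * ‖b‖ ^ 2 / (v z + k) ^ 3)) := by
  refine (((((h.add_const k).inv h0).smul k).const_sub 1).congr ?_).cast (by ring) (by ring)
  filter_upwards [(h.add_const k).continuousAt.eventually_ne h0] with x hx
  field_simp
  ring

/-- Jensen: `-log (|F|² + k)` is superharmonic -/
theorem jensen (hF : AnalyticAt ℂ F z) (h0 : ‖F z‖ ^ 2 + k ≠ 0) :
    EJ (fun x => -Real.log (‖F x‖ ^ 2 + k)) z (-(2 * conj (F z) * deriv F z / (‖F z‖ ^ 2 + k : ℝ)))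
      (-(4 * k * ‖deriv F z‖ ^ 2 / (‖F z‖ ^ 2 + k) ^ 2)) := by
  refine (((normSq hF).add_const k).log h0).neg.cast rfl ?_
  simp only [norm_mul, Complex.norm_conj, Complex.norm_ofNat]
  field_simp
  ring

end EJ

/-- the minimum principle for periodic sets -/
theorem minp_per (hA : IsOpen A) (h1 : ∀ z, z + 1 ∈ A ↔ z ∈ A) {T : ℝ} (hb : ∀ z ∈ A, |z.im| ≤ T)
    (hW : Function.Periodic W 1) (hc : ContinuousOn W (closure A)) (hs : ∀ z ∈ A, UJ W z 0) {m : ℝ}
    (hm : ∀ z ∈ frontier A, m ≤ W z) : ∀ z ∈ closure A, m ≤ W z := by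
  intro z0 h0
  by_contra hlt
  have hP : Function.Periodic (fun z => z ∈ closure A) 1 := fun z => by
    have := (Homeomorph.addRight (1 : ℂ)).preimage_closure A
    rw [show (Homeomorph.addRight (1 : ℂ)) ⁻¹' A = A from Set.ext h1] at this
    exact congrFun this z
  have hT : ∀ z ∈ closure A, |z.im| ≤ T := fun z hz =>
    closure_minimal hb (isClosed_le (f := fun z : ℂ => |z.im|) (by fun_prop) continuous_const) hz
  set ε := (m - W z0) / (2 * (T ^ 2 + 1))
  have hε : 0 < ε := div_pos (by linarith) (by positivity)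
  have e0 : ε * (T ^ 2 + 1) = (m - W z0) / 2 := by simp only [ε]; field_simp
  let K := closure A ∩ {z : ℂ | |z.re| ≤ 1}
  have hK : IsCompact K := Metric.isCompact_of_isClosed_isBounded
    (isClosed_closure.inter (isClosed_le (by fun_prop) continuous_const))
    (isBounded_iff_forall_norm_le.2 ⟨1 + T, fun z hz =>
      (Complex.norm_le_abs_re_add_abs_im z).trans (add_le_add hz.2 (hT z hz.1))⟩)
  have red : ∀ z ∈ closure A, z - ⌊z.re⌋ * 1 ∈ K := fun z hz =>
    ⟨(hP.sub_int_mul_eq _).mpr hz, by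
      have := Int.floor_le z.re
      have := Int.lt_floor_add_one z.re
      simp only [Set.mem_setOf_eq, mul_one, Complex.sub_re, Complex.intCast_re, abs_le]
      constructor <;> linarith⟩
  obtain ⟨z, hz, hmin⟩ := hK.exists_isMinOn ⟨_, red z0 h0⟩
    ((hc.add (f := W) (g := fun x => -ε * x.im ^ 2) (by fun_prop)).mono Set.inter_subset_left)
  have hmin' : ∀ x ∈ closure A, W z + -ε * z.im ^ 2 ≤ W x + -ε * x.im ^ 2 := fun x hx => by
    have : W z + -ε * z.im ^ 2 ≤ W (x - ⌊x.re⌋ * 1) + -ε * (x - ⌊x.re⌋ * 1).im ^ 2 :=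
      hmin (red x hx)
    rwa [hW.sub_int_mul_eq, show (x - ⌊x.re⌋ * 1).im = x.im by simp] at this
  have h2 : ε * z.im ^ 2 ≤ ε * T ^ 2 :=
    mul_le_mul_of_nonneg_left (sq_le_sq' (abs_le.1 (hT z hz.1)).1 (abs_le.1 (hT z hz.1)).2) hε.le
  have hzA : z ∈ A := by
    by_contra hn
    have := hm z ⟨hz.1, by rwa [hA.interior_eq]⟩
    nlinarith [mul_nonneg hε.le (sq_nonneg z0.im), hmin' z0 h0]
  obtain ⟨φ, b, k1, k2, k3⟩ := (hs z hzA).add
    ((EJ.im (F := fun x => x) (z := z) analyticAt_id).sq.smul (-ε)).uj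
  have := k1.nonneg (by
    filter_upwards [k2, hA.mem_nhds hzA] with x e hx
    exact k3 ▸ (hmin' x (subset_closure hx)).trans e)
  simp at this
  linarith

/-- pasting: `min u v` on the set `B`, `u` elsewhere -/
noncomputable def paste (B : Set ℂ) (u v : ℂ → ℝ) : ℂ → ℝ :=
  open Classical in fun x => if x ∈ B then min (u x) (v x) else u x

lemma paste_le (B : Set ℂ) (u v : ℂ → ℝ) (x : ℂ) : paste B u v x ≤ u x := by
  unfold paste
  split_ifs
  exacts [min_le_left _ _, le_rfl]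

lemma paste_in {B : Set ℂ} {x : ℂ} (h : x ∈ B) : paste B u v x = min (u x) (v x) := if_pos h

lemma paste_out {B : Set ℂ} {x : ℂ} (h : x ∉ B) : paste B u v x = u x := if_neg h

lemma paste_eq {B : Set ℂ} {x : ℂ} (h : x ∈ B → u x ≤ v x) : paste B u v x = u x := by
  by_cases hx : x ∈ B
  exacts [(paste_in hx).trans (min_eq_left (h hx)), paste_out hx]

lemma UJ.paste {B : Set ℂ} (hB : z ∈ B → B ∈ 𝓝 z) (h : UJ u z a) (h' : z ∈ B → v z ≤ u z → UJ v z a) :
    UJ (paste B u v) z a := by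
  by_cases hz : z ∈ B ∧ v z ≤ u z
  · exact (h' hz.1 hz.2).touch (Eventually.mono (hB hz.1) fun x hx =>
      (paste_in hx).trans_le (min_le_right _ _)) ((paste_in hz.1).trans (min_eq_right hz.2))
  · exact h.touch (.of_forall (paste_le B u v))
      (paste_eq fun h1 => (not_le.1 fun h2 => hz ⟨h1, h2⟩).le)

/-- continuity of the pasted function: `S` is covered by the relative interior of `B` and by a
relatively open set on which `u ≤ v` -/
lemma paste_cont {B S : Set ℂ} (hu : ContinuousOn u S) (hv : ContinuousOn v (S ∩ B))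
    (h : ∀ z ∈ S, B ∈ 𝓝[S] z ∨ ∀ᶠ x in 𝓝[S] z, x ∈ B → u x ≤ v x) :
    ContinuousOn (paste B u v) S := fun z hz => by
  rcases h z hz with h | h
  · have hB := mem_of_mem_nhdsWithin hz h
    have : ContinuousWithinAt v S z :=
      (hv z ⟨hz, hB⟩).mono_of_mem_nhdsWithin (inter_mem self_mem_nhdsWithin h)
    exact ContinuousWithinAt.congr_of_eventuallyEq (f := fun x => min (u x) (v x))
      (Tendsto.min (hu z hz) this) (Eventually.mono h fun x => paste_in) (paste_in hB)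
  · exact (hu z hz).congr_of_eventuallyEq (h.mono fun x => paste_eq)
      (paste_eq (mem_of_mem_nhdsWithin hz h))

namespace Pot

theorem mono (h : Pot A f W) (e : A' ⊆ A) (e' : ∀ z ∈ A', f' z ≤ f z) : Pot A' f' W :=
  ⟨h.cont.mono (closure_mono e), fun z hz => h.nonneg z (closure_mono e hz),
    fun z hz => (h.sup z (e hz)).mono (neg_le_neg (e' z hz))⟩

theorem add (h : Pot A f W) (h' : Pot A f' W') :
    Pot A (fun x => f x + f' x) fun x => W x + W' x :=
  ⟨h.cont.add h'.cont, fun z hz => add_nonneg (h.nonneg z hz) (h'.nonneg z hz),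
    fun z hz => ((h.sup z hz).add (h'.sup z hz)).mono (by linarith)⟩

theorem smul (hk : 0 ≤ k) (h : Pot A f W) : Pot A (fun x => k * f x) fun x => k * W x :=
  ⟨continuousOn_const.mul h.cont, fun z hz => mul_nonneg hk (h.nonneg z hz),
    fun z hz => ((h.sup z hz).smul hk).mono (by linarith)⟩

theorem const (hk : 0 ≤ k) : Pot A (fun _ => 0) fun _ => k :=
  ⟨continuousOn_const, fun _ _ => hk, fun z _ => (UJ.const k z).mono (by simp)⟩

theorem sum {ι : Type*} (S : Finset ι) {f W : ι → ℂ → ℝ} (h : ∀ i ∈ S, Pot A (f i) (W i)) :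
    Pot A (fun x => ∑ i ∈ S, f i x) fun x => ∑ i ∈ S, W i x :=
  ⟨continuousOn_finset_sum _ fun i hi => (h i hi).cont,
    fun z hz => Finset.sum_nonneg fun i hi => (h i hi).nonneg z hz,
    fun z hz => (UJ.sum S fun i hi => (h i hi).sup z hz).mono (by simp)⟩

theorem min (h : Pot A f W) (h' : Pot A f W') : Pot A f fun x => min (W x) (W' x) :=
  ⟨fun z hz => Tendsto.min (h.cont z hz) (h'.cont z hz),
    fun z hz => le_min (h.nonneg z hz) (h'.nonneg z hz), fun z hz =>
      (le_total (W z) (W' z)).elim (h.sup z hz).min_left (h'.sup z hz).min_right⟩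

theorem pull (h : Pot A f W) (hF : ∀ z ∈ A', AnalyticAt ℂ F z) (hc : ContinuousOn F (closure A'))
    (hm : Set.MapsTo F A' A) :
    Pot A' (fun x => f (F x) * ‖deriv F x‖ ^ 2) fun x => W (F x) :=
  have m := hm.closure_of_continuousOn hc
  ⟨h.cont.comp hc m, fun z hz => h.nonneg _ (m hz),
    fun z hz => ((h.sup _ (hm hz)).pull (hF z hz)).mono (by linarith)⟩

/-- Doob: a subharmonic function is added to a potential that pays for its Laplacian -/
theorem doob (h : Pot A f W) (hc : ContinuousOn u (closure A)) (h0 : ∀ z ∈ closure A, 0 ≤ u z)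
    (hu : ∀ z ∈ A, UJ u z (f z)) : Pot A (fun _ => 0) fun x => u x + W x :=
  ⟨hc.add h.cont, fun z hz => add_nonneg (h0 z hz) (h.nonneg z hz),
    fun z hz => ((hu z hz).add (h.sup z hz)).mono (by simp)⟩

end Pot

end Vale.Agent.P097C
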