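import Vale.Agent.P097C.Pot

/-!
# P097C: specifications of the core of case (Cr).  Paper proofs: notes/P097/Cr.md
-/

open Filter Topology Set Metric ComplexConjugate

namespace Vale.Agent.P097C

/-- horizontal strip -/
def St (r : ℝ) : Set ℂ := {y | |y.im| < r}

/-- depth -/
def dd (r : ℝ) (y : ℂ) : ℝ := r ^ 2 - y.im ^ 2

/-- positive real -/
def PR (z : ℂ) : Prop := z.im = 0 ∧ 0 < z.re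

/-- the curve on its strip (Lazutkin parameter), with critical bounds -/
structure SD (r : ℝ) (θ h g Q : ℂ → ℂ) (c C : ℝ) : Prop where
  r0 : 0 < r
  c0 : 0 < c
  anθ : AnalyticOnNhd ℂ θ (St r)
  anh : AnalyticOnNhd ℂ h (St r)
  ang : AnalyticOnNhd ℂ g (St r)
  anQ : AnalyticOnNhd ℂ Q (St r)
  dθ : ∀ y ∈ St r, deriv θ y = g y
  ode : ∀ y ∈ St r, deriv (deriv g) y = Q y * g y
  wr : ∀ y ∈ St r, deriv (deriv h) y * g y - deriv h y * deriv g y + h y * g y ^ 3 = c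
  bg : ∀ y ∈ St r, ‖g y‖ * dd r y ≤ C
  bQ : ∀ y ∈ St r, ‖Q y‖ * dd r y ^ 2 ≤ C
  perθ : ∀ y ∈ St r, θ (y + 1) = θ y + 2 * Real.pi
  perh : ∀ y ∈ St r, h (y + 1) = h y
  reθ : ∀ t : ℝ, (θ t).im = 0
  posg : ∀ t : ℝ, PR (g t)

/-- no calm disc near the boundary of the strip -/
def NoCalm (r : ℝ) (g Q : ℂ → ℂ) : Prop :=
  ∃ ε d₁ : ℝ, 0 < ε ∧ 0 < d₁ ∧ ∀ y₀ : ℂ, |y₀.im| < r → r ^ 2 - y₀.im ^ 2 < d₁ →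
    ¬ ∀ y ∈ ball y₀ ((r - |y₀.im|) / 8),
      ‖Q y‖ * (r - |y₀.im|) ^ 2 ≤ ε ∧ ‖g y‖ * (r - |y₀.im|) ≤ ε

/-- the half angle at the vertex `Y x` between the lines `x - 1 / n` and `x` -/
noncomputable def de (n : ℕ) (φ : ℂ → ℂ) (x : ℂ) : ℂ := (φ x - φ (x - 1 / n)) / 2

/-- normal speed of the vertex -/
noncomputable def sg (c : ℝ) (g : ℂ → ℂ) (n : ℕ) (Y φ : ℂ → ℂ) (x : ℂ) : ℂ :=
  c * Complex.sin (de n φ x) * deriv Y x / g (Y x) ^ 2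

/-- the leaf `w = 1 / n`, `n` odd, continued to the strip `St ρ`, without regular top point
(mirror of `P097Top.LeafD` and `P097Top.NoReg`).
`(φ x, p x)` is the line, `Y x` the vertex between the lines `x - 1 / n` and `x`. -/
structure CL (r ρ c : ℝ) (θ h g : ℂ → ℂ) (n : ℕ) (Y φ p : ℂ → ℂ) : Prop where
  odd : Odd n
  ρ0 : 0 < ρ
  anY : AnalyticOnNhd ℂ Y (St ρ)
  anφ : AnalyticOnNhd ℂ φ (St ρ)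
  anp : AnalyticOnNhd ℂ p (St ρ)
  maps : MapsTo Y (St ρ) (St r)
  perY : ∀ x ∈ St ρ, Y (x + 1) = Y x + 1
  perφ : ∀ x ∈ St ρ, φ (x + 1) = φ x + 2 * Real.pi
  perp : ∀ x ∈ St ρ, p (x + 1) = p x
  th : ∀ x ∈ St ρ, φ x + φ (x - 1 / n) = 2 * θ (Y x)
  pc : ∀ x ∈ St ρ, p x + p (x - 1 / n) = 2 * h (Y x) * Complex.cos (de n φ x)
  ps : ∀ x ∈ St ρ, (p x - p (x - 1 / n)) * g (Y x) = 2 * deriv h (Y x) * Complex.sin (de n φ x)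
  reY : ∀ t : ℝ, (Y t).im = 0
  posY : ∀ t : ℝ, PR (deriv Y t)
  posφ : ∀ t : ℝ, PR (deriv φ t)
  poss : ∀ t : ℝ, PR (Complex.sin (de n φ t))
  wr : ∃ C₀ : ℂ, C₀ ≠ 0 ∧ ∀ x : ℝ, ∑ j ∈ Finset.range n,
    ((sg c g n Y φ (x + j / n))⁻¹ + (sg c g n Y φ (x + (j + 1) / n))⁻¹) / deriv φ (x + j / n) = C₀
  noreg : ∀ (x₀ : ℂ) (σ : ℝ) (Z : ℕ → ℂ → ℂ), |x₀.im| = ρ → 0 < σ →
    (∀ j < n, DifferentiableOn ℂ (Z j) (ball x₀ σ) ∧ MapsTo (Z j) (ball x₀ σ) (St r) ∧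
      EqOn (Z j) (fun x => Y (x + j / n)) (ball x₀ σ ∩ St ρ)) → False

/-- THE CORE -/
def Spec_CORE : Prop := ∀ (r ρ c C : ℝ) (θ h g Q Y φ p : ℂ → ℂ) (n : ℕ),
  SD r θ h g Q c C → NoCalm r g Q → CL r ρ c θ h g n Y φ p → False

/-! ## abstract leaf -/

/-- configurations -/
def Cf (n : ℕ) (r : ℝ) : Set (ZMod n → ℂ) := {y | ∀ i, y i ∈ St r}

/-- the leaf as a curve of configurations; `s j = sin δ_j`, `l j = ℓ_j sin δ_j sin δ_(j+1)` are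
functions of the configuration, `τ j = φ_j'`, `η j = c sin² δ_j Y_j' / g_j²` -/
structure AL (n : ℕ) [NeZero n] (r ρ c : ℝ) (θ h g : ℂ → ℂ) (Y : ℂ → ZMod n → ℂ)
    (s l : ZMod n → (ZMod n → ℂ) → ℂ) (τ η : ZMod n → ℂ → ℂ) : Prop where
  odd : Odd n
  ρ0 : 0 < ρ
  anY : ∀ j, AnalyticOnNhd ℂ (fun x => Y x j) (St ρ)
  maps : MapsTo Y (St ρ) (Cf n r)
  ans : ∀ j, AnalyticOnNhd ℂ (s j) (Cf n r)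
  anl : ∀ j, AnalyticOnNhd ℂ (l j) (Cf n r)
  anτ : ∀ j, AnalyticOnNhd ℂ (τ j) (St ρ)
  anη : ∀ j, AnalyticOnNhd ℂ (η j) (St ρ)
  pers : ∀ j, ∀ y ∈ Cf n r, ∀ m : ZMod n → ℤ, s j (fun i => y i + m i) = s j y
  perl : ∀ j, ∀ y ∈ Cf n r, ∀ m : ZMod n → ℤ, l j (fun i => y i + m i) = l j y
  eqE : ∀ j, ∀ x ∈ St ρ, l j (Y x) * τ j x = s (j + 1) (Y x) * η j x + s j (Y x) * η (j + 1) x
  eqθ : ∀ j, ∀ x ∈ St ρ, τ j x + τ (j - 1) x = 2 * g (Y x j) * deriv (fun x => Y x j) x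
  eqη : ∀ j, ∀ x ∈ St ρ, g (Y x j) ^ 2 * η j x = c * s j (Y x) ^ 2 * deriv (fun x => Y x j) x
  bnd : ∃ B : ℝ, ∀ lam : ℝ, 1 ≤ lam → ∀ y ∈ Cf n r,
    (∀ i, |(θ (y i)).im| ≤ lam ∧ ‖h (y i)‖ ≤ Real.exp lam) →
    ∀ j, ‖s j y‖ ≤ Real.exp (B * lam) ∧ ‖l j y‖ ≤ Real.exp (B * lam)
  re0 : ∀ j, (Y 0 j).im = 0
  pos0 : ∀ j, PR (s j (Y 0)) ∧ PR (l j (Y 0)) ∧ PR (η j 0)
  wron : ∃ C₀ : ℂ, C₀ ≠ 0 ∧ ∀ x ∈ St ρ, (∀ j, η j x ≠ 0) →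
    ∑ j, l j (Y x) / (η j x * η (j + 1) x) = C₀
  noreg : ∀ (x₀ : ℂ) (σ : ℝ) (Z : ℂ → ZMod n → ℂ), |x₀.im| = ρ → 0 < σ →
    (∀ j, AnalyticOnNhd ℂ (fun x => Z x j) (ball x₀ σ)) → EqOn Z Y (ball x₀ σ ∩ St ρ) →
    MapsTo Z (ball x₀ σ) (Cf n r) → False

/-- pole-free quantities on the concrete leaf -/
noncomputable def sA (n : ℕ) (φ : ℂ → ℂ) (x : ℂ) : ℂ := Complex.sin (de n φ x)
noncomputable def Ap (h : ℂ → ℂ) (n : ℕ) (Y φ p : ℂ → ℂ) (x : ℂ) : ℂ :=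
  Complex.cos (de n φ x) * (p x - p (x - 1 / n)) / 2 - h (Y x) * sA n φ x ^ 2
noncomputable def Am (h : ℂ → ℂ) (n : ℕ) (Y φ p : ℂ → ℂ) (x : ℂ) : ℂ :=
  Complex.cos (de n φ x) * (p x - p (x - 1 / n)) / 2 + h (Y x) * sA n φ x ^ 2
noncomputable def lA (h : ℂ → ℂ) (n : ℕ) (Y φ p : ℂ → ℂ) (x : ℂ) : ℂ :=
  sA n φ x * Am h n Y φ p (x + 1 / n) - sA n φ (x + 1 / n) * Ap h n Y φ p x
noncomputable def eA (h : ℂ → ℂ) (n : ℕ) (Y φ p : ℂ → ℂ) (x : ℂ) : ℂ :=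
  sA n φ x * deriv p x - Ap h n Y φ p x * deriv φ x

/-- the differentiated identities -/
structure CX (ρ c : ℝ) (h g : ℂ → ℂ) (n : ℕ) (Y φ p : ℂ → ℂ) : Prop where
  eqE : ∀ x ∈ St ρ, lA h n Y φ p x * deriv φ x =
    sA n φ (x + 1 / n) * eA h n Y φ p x + sA n φ x * eA h n Y φ p (x + 1 / n)
  eqθ : ∀ x ∈ St ρ, deriv φ x + deriv φ (x - 1 / n) = 2 * g (Y x) * deriv Y x
  eqη : ∀ x ∈ St ρ, g (Y x) ^ 2 * eA h n Y φ p x = c * sA n φ x ^ 2 * deriv Y x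

def Spec_ALG1 : Prop := ∀ (r ρ c C : ℝ) (θ h g Q Y φ p : ℂ → ℂ) (n : ℕ),
  SD r θ h g Q c C → CL r ρ c θ h g n Y φ p → CX ρ c h g n Y φ p

/-- lines as functions of the configuration (`n` odd): `F j = φ_j`, `G j = p_j` -/
def Spec_ALG2 : Prop := ∀ (r ρ c C : ℝ) (θ h g Q Y φ p : ℂ → ℂ) (n : ℕ) [NeZero n],
  SD r θ h g Q c C → CL r ρ c θ h g n Y φ p →
  ∃ F G : ZMod n → (ZMod n → ℂ) → ℂ,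
    (∀ j, AnalyticOnNhd ℂ (F j) (Cf n r) ∧ AnalyticOnNhd ℂ (G j) (Cf n r)) ∧
    (∀ j, ∀ x ∈ St ρ, F j (fun i => Y (x + i.val / n)) = φ (x + j.val / n) ∧
      G j (fun i => Y (x + i.val / n)) = p (x + j.val / n)) ∧
    (∀ j, ∀ y ∈ Cf n r, ∀ m : ZMod n → ℤ,
      (∃ k : ℤ, F j (fun i => y i + m i) = F j y + k * (2 * Real.pi) ∧
        ∃ k' : ℤ, θ (y j + m j) = θ (y j) + k' * (2 * Real.pi) ∧ h (y j + m j) = h (y j)) ∧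
      G j (fun i => y i + m i) = G j y) ∧
    ∃ B : ℝ, ∀ lam : ℝ, 1 ≤ lam → ∀ y ∈ Cf n r,
      (∀ i, |(θ (y i)).im| ≤ lam ∧ ‖h (y i)‖ ≤ Real.exp lam) →
      ∀ j, |(F j y).im| ≤ B * lam ∧ ‖G j y‖ ≤ Real.exp (B * lam)

def Spec_ALG : Prop := ∀ (r ρ c C : ℝ) (θ h g Q Y φ p : ℂ → ℂ) (n : ℕ) [NeZero n],
  SD r θ h g Q c C → CL r ρ c θ h g n Y φ p → ∃ Y' s l τ η, AL n r ρ c θ h g Y' s l τ η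

/-! ## the linear systems -/

/-- coefficients of the vertex equation `α (τ_j + τ_(j-1)) + β η_j`: `0` true, `1` flat, `2` pivot -/
def al (c : ℝ) (t : Fin 3) (s : ℂ) : ℂ := if t = 0 then c * s ^ 2 else if t = 1 then 1 else 0
def be (t : Fin 3) (g : ℂ) : ℂ := if t = 0 then -2 * g ^ 3 else if t = 1 then 0 else 1

/-- unknowns `inl j = τ_j`, `inr j = η_j`; rows `inl j` = edge, `inr j` = vertex -/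
def MM {n : ℕ} (c : ℝ) (t : ZMod n → Fin 3) (s l g : ZMod n → ℂ) :
    Matrix (ZMod n ⊕ ZMod n) (ZMod n ⊕ ZMod n) ℂ
  | .inl j, .inl i => if i = j then l j else 0
  | .inl j, .inr i => -(if i = j then s (j + 1) else 0) - if i = j + 1 then s j else 0
  | .inr j, .inl i => al c (t j) (s j) * ((if i = j then 1 else 0) + if i = j - 1 then 1 else 0)
  | .inr j, .inr i => if i = j then be (t j) (g j) else 0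

/-- the pointwise equations -/
structure Eqs {n : ℕ} (c : ℝ) (s l g τ η v : ZMod n → ℂ) : Prop where
  eqE : ∀ j, l j * τ j = s (j + 1) * η j + s j * η (j + 1)
  eqθ : ∀ j, τ j + τ (j - 1) = 2 * g j * v j
  eqη : ∀ j, g j ^ 2 * η j = c * s j ^ 2 * v j

def Spec_DET : Prop := ∀ (n : ℕ) [NeZero n] (c : ℝ) (s l g τ η v : ZMod n → ℂ), Odd n → 0 < c →
  Eqs c s l g τ η v → (∀ j, PR (s j) ∧ PR (l j) ∧ PR (η j) ∧ PR (g j)) →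
  ∀ t : ZMod n → Fin 3, (∃ j, t j ≠ 0) → (MM c t s l g).det ≠ 0

/-- size of the determinants -/
def Spec_ENT : Prop := ∀ (n : ℕ) [NeZero n] (c : ℝ), ∃ k : ℝ, 1 ≤ k ∧ ∀ b : ℝ, 1 ≤ b →
  ∀ (t : ZMod n → Fin 3) (s l g : ZMod n → ℂ), (∀ j, ‖s j‖ ≤ Real.exp b ∧ ‖l j‖ ≤ Real.exp b) →
  (∀ j, t j = 0 → ‖g j‖ ≤ Real.exp b) → ‖(MM c t s l g).det‖ ≤ Real.exp (k * b)

/-- the dominant vertex outside `T` drives everything and is moderate -/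
def Drv {n : ℕ} (T : Finset (ZMod n)) (g v : ZMod n → ℂ) (b : ℝ) : Prop :=
  ∃ i ∉ T, (∀ j, ‖g j * v j‖ ≤ Real.exp b * ‖v i‖) ∧ (∀ j ∉ T, ‖v j‖ ≤ ‖v i‖) ∧
    (v i ≠ 0 → Real.exp (-b) ≤ ‖g i‖ ∧ ‖g i‖ ≤ Real.exp b)

/-- the pattern with one pivot -/
def piv {n : ℕ} (i : ZMod n) : ZMod n → Fin 3 := fun j => if j = i then 2 else 0

def Spec_RIG : Prop := ∀ (n : ℕ) [NeZero n] (c : ℝ), 0 < c → ∃ k : ℝ, 1 ≤ k ∧ ∀ b : ℝ, 1 ≤ b →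
  ∀ s l g τ η v : ZMod n → ℂ, Eqs c s l g τ η v →
  (∀ j, Real.exp (-b) ≤ ‖s j‖ ∧ ‖s j‖ ≤ Real.exp b ∧ ‖l j‖ ≤ Real.exp b) →
  (∀ T : Finset (ZMod n), T ≠ Finset.univ → (∀ j ∈ T, ‖g j‖ ≤ Real.exp b) →
    (∀ t : ZMod n → Fin 3, (∀ j, t j = 0 ↔ j ∈ T) → Real.exp (-b) ≤ ‖(MM c t s l g).det‖) →
    Drv T g v (k * b)) ∧
  ∀ i, (∀ j, ‖g j‖ ≤ Real.exp b) → Real.exp (-b) ≤ ‖(MM c (piv i) s l g).det‖ →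
    ∀ j, ‖η j‖ ≤ Real.exp (k * b) * ‖η i‖

/-! ## barriers on the strip of the curve -/

/-- state -/
noncomputable def TT (r ε : ℝ) (g : ℂ → ℂ) (y : ℂ) : ℝ :=
  ‖g y‖ ^ 2 + ε ^ 2 * dd r y ^ 2 * ‖deriv g y‖ ^ 2

/-- a barrier: continuous, nonnegative -/
def Bar (S : Set ℂ) (W : ℂ → ℝ) : Prop := ContinuousOn W S ∧ ∀ y ∈ S, 0 ≤ W y

def Spec_WU : Prop := ∀ (r c C : ℝ) (θ h g Q : ℂ → ℂ), SD r θ h g Q c C →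
  ∀ (F : Finset ℝ) (ε : ℝ), 0 < ε → ∃ lam₀ : ℝ, ∀ lam ≥ lam₀, ∃ W, Bar (St r) W ∧
    (∀ t ∈ F, W (t : ℝ) ≤ ε) ∧ ∀ y ∈ St r, UJ W y 0 ∧
      (W y < 1 → Real.exp (-2 * lam) * √(dd r y) ≤ TT r 1 g y)

def Spec_ANC : Prop := ∀ (r c C : ℝ) (θ h g Q : ℂ → ℂ), SD r θ h g Q c C →
  ∀ N E E₁ : ℂ → ℂ, AnalyticOnNhd ℂ N (St r) →
  (∀ y ∈ St r, deriv N y * g y - N y * deriv g y = E y) →
  (∀ y ∈ St r, deriv (deriv N) y = Q y * N y + E₁ y ∧ ‖E₁ y‖ ≤ ‖E y‖) →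
  ∀ (F : Finset ℝ) (ε : ℝ), 0 < ε → ∃ lam₀ : ℝ, ∀ lam ≥ lam₀, ∃ W, Bar (St r) W ∧
    (∀ t ∈ F, W (t : ℝ) ≤ ε) ∧ ∀ y ∈ St r, ‖E y‖ ≤ Real.exp lam →
      Real.exp (-2 * lam) * √(dd r y) ≤ TT r 1 g y → W y < 1 → UJ W y 0 ∧
      ‖N y * conj (g y) + (dd r y : ℂ) ^ 2 * deriv N y * conj (deriv g y)‖ ≤
        Real.exp (5 * lam) * TT r 1 g y

def Spec_HB : Prop := ∀ (r c C : ℝ) (θ h g Q : ℂ → ℂ), SD r θ h g Q c C →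
  ∀ (F : Finset ℝ) (ε : ℝ), 0 < ε → ∃ lam₀ : ℝ, ∀ lam ≥ lam₀, ∃ W, Bar (St r) W ∧
    (∀ t ∈ F, W (t : ℝ) ≤ ε) ∧ ∀ y ∈ St r, |(θ y).im| ≤ lam → W y < 1 →
      UJ W y 0 ∧ ‖h y‖ ≤ Real.exp (11 * lam)

/-- occupation of the moderate band (h17's form) -/
def Occ (r : ℝ) (g : ℂ → ℂ) : Prop := ∀ A ε : ℝ, 1 ≤ A → 0 < ε → ∃ (M d₁ : ℝ) (Ξ : ℂ → ℝ), 0 < d₁ ∧
  Bar (St r) Ξ ∧ ∀ y ∈ St r, Ξ y ≤ M ∧ UJ Ξ y (ε / dd r y ^ 2) ∧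
    (A⁻¹ ≤ ‖g y‖ → ‖g y‖ ≤ A → dd r y < d₁ → UJ Ξ y ((ε - 1) / dd r y ^ 2))

def Spec_OCC : Prop := ∀ (r c C : ℝ) (θ h g Q : ℂ → ℂ), SD r θ h g Q c C → NoCalm r g Q → Occ r g

/-- occupation up to depth `N` is `o(N)` -/
def Occ2 (r : ℝ) (g : ℂ → ℂ) : Prop := ∀ A ε : ℝ, 1 ≤ A → 0 < ε → ∃ N₀ : ℝ, ∀ N ≥ N₀, ∃ W : ℂ → ℝ,
  Bar (St r) W ∧ ∀ y ∈ St r, W y ≤ ε * N ∧ UJ W y 0 ∧
    (A⁻¹ ≤ ‖g y‖ → ‖g y‖ ≤ A → UJ W y (-1 / (dd r y + Real.exp (-N)) ^ 2))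

def Spec_OCC2 : Prop := ∀ (r : ℝ) (g : ℂ → ℂ), 0 < r → Occ r g → Occ2 r g

/-! ## barriers on the strip of the leaf -/

/-- a curve of configurations, real at `0` -/
structure Cv {n : ℕ} (r ρ : ℝ) (Y : ℂ → ZMod n → ℂ) : Prop where
  r0 : 0 < r
  ρ0 : 0 < ρ
  anY : ∀ j, AnalyticOnNhd ℂ (fun x => Y x j) (St ρ)
  maps : MapsTo Y (St ρ) (Cf n r)
  re0 : ∀ j, (Y 0 j).im = 0

/-- the vertices of `T` have level at most `L` -/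
def Lev {n : ℕ} (r : ℝ) (y : ZMod n → ℂ) (T : Finset (ZMod n)) (L : ℝ) : Prop :=
  ∀ j ∈ T, Real.exp (-L) ≤ dd r (y j)

/-- pasting: `min (a + 2 e^(-L)) (e^L min (1, d_j))` -/
def Spec_PASTE : Prop := ∀ (n : ℕ) (r ρ : ℝ) (Y : ℂ → ZMod n → ℂ), Cv r ρ Y →
  ∀ (T : Finset (ZMod n)) (L : ℝ) (a : ℂ → ℝ), 0 ≤ L → Bar (St ρ) a → ∃ W, Bar (St ρ) W ∧
    ∀ x ∈ St ρ, W x ≤ a x + 2 * Real.exp (-L) ∧ (Lev r (Y x) T L → 1 ≤ a x → 1 ≤ W x) ∧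
      ((Lev r (Y x) T (2 * L) → UJ a x 0) → UJ W x 0)

def Spec_JEN : Prop := ∀ (n : ℕ) (r ρ : ℝ) (Y : ℂ → ZMod n → ℂ), Cv r ρ Y →
  ∀ (F : ℂ → ℂ) (T : Finset (ZMod n)) (L M K : ℝ), AnalyticOnNhd ℂ F (St ρ) → F 0 ≠ 0 → 0 ≤ L →
  1 ≤ M → 1 ≤ K → ∃ W, Bar (St ρ) W ∧
    W 0 ≤ (M + 1 + |Real.log ‖F 0‖|) / (K * M) + 2 * Real.exp (-L) ∧
    ∀ x ∈ St ρ, (W x < 1 → Lev r (Y x) T L → Real.exp (-(K * M)) ≤ ‖F x‖) ∧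
      ((Lev r (Y x) T (2 * L) → ‖F x‖ ≤ Real.exp M) → UJ W x 0)

/-- rigidity holds at `x` for the levels in `Λ` -/
def DrvAt {n : ℕ} [NeZero n] (r : ℝ) (g : ℂ → ℂ) (Y : ℂ → ZMod n → ℂ) (K lam : ℝ) (Λ : Finset ℝ)
    (x : ℂ) : Prop :=
  ∀ L ∈ Λ, ∀ T : Finset (ZMod n), T ≠ Finset.univ → Lev r (Y x) T L →
    Drv T (fun j => g (Y x j)) (fun j => deriv (fun x => Y x j) x) (K * (lam + L))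

def Spec_WR : Prop := ∀ (n : ℕ) [NeZero n] (r ρ c C : ℝ) (θ h g Q : ℂ → ℂ) (Y : ℂ → ZMod n → ℂ),
  SD r θ h g Q c C → Cv r ρ Y → ∀ K ε : ℝ, 1 ≤ K → 0 < ε → ∃ lam₀ : ℝ, ∀ lam ≥ lam₀,
    ∃ (Λ : Finset ℝ) (W : ℂ → ℝ), Λ.card ≤ n ∧ (∀ L ∈ Λ, lam ≤ L) ∧ Bar (St ρ) W ∧ W 0 ≤ ε ∧
      ∀ x ∈ St ρ, (W x < 1 → ∀ j, |(θ (Y x j)).im| ≤ lam) ∧ (DrvAt r g Y K lam Λ x → UJ W x 0)

def Spec_WFIN : Prop := ∀ (n : ℕ) [NeZero n] (r ρ : ℝ) (g : ℂ → ℂ) (Y : ℂ → ZMod n → ℂ),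
  Occ2 r g → Cv r ρ Y → ∀ ε : ℝ, 0 < ε → ∃ lam₀ : ℝ, ∀ lam ≥ lam₀, ∀ K : ℝ, 1 ≤ K →
    ∃ (Λ : Finset ℝ) (N : ℝ) (W : ℂ → ℝ), Λ.card ≤ n ∧ (∀ L ∈ Λ, lam ≤ L) ∧ lam ≤ N ∧
      Bar (St ρ) W ∧ W 0 ≤ ε ∧ ∀ x ∈ St ρ,
        ((∃ j, dd r (Y x j) ≤ Real.exp (-N)) → 1 ≤ W x) ∧ (DrvAt r g Y K lam Λ x → UJ W x 0)

/-- the determinant along the leaf -/
noncomputable def FF {n : ℕ} [NeZero n] (c : ℝ) (g : ℂ → ℂ) (s l : ZMod n → (ZMod n → ℂ) → ℂ)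
    (t : ZMod n → Fin 3) (y : ZMod n → ℂ) : ℂ :=
  (MM c t (fun j => s j y) (fun j => l j y) fun j => g (y j)).det

/-- tame configurations -/
def Good {n : ℕ} [NeZero n] (r c : ℝ) (g : ℂ → ℂ) (s l : ZMod n → (ZMod n → ℂ) → ℂ) (K lam : ℝ)
    (Λ : Finset ℝ) (y : ZMod n → ℂ) : Prop :=
  (∀ j, Real.exp (-(K * lam)) ≤ ‖s j y‖ ∧ ‖s j y‖ ≤ Real.exp (K * lam) ∧
    ‖l j y‖ ≤ Real.exp (K * lam)) ∧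
  ∀ L ∈ Λ, ∀ t : ZMod n → Fin 3, (∃ j, t j ≠ 0) →
    Lev r y (Finset.univ.filter fun j => t j = 0) L → Real.exp (-(K * (lam + L))) ≤ ‖FF c g s l t y‖

def Spec_TAME : Prop := ∀ (n : ℕ) [NeZero n] (r ρ c C : ℝ) (θ h g Q : ℂ → ℂ) Y s l τ η,
  SD r θ h g Q c C → AL n r ρ c θ h g Y s l τ η → ∀ (ε : ℝ) (m : ℕ), 0 < ε →
  ∃ K lam₀ : ℝ, 1 ≤ K ∧ ∀ lam ≥ lam₀, ∀ Λ : Finset ℝ, Λ.card ≤ m → (∀ L ∈ Λ, lam ≤ L) →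
    ∃ W, Bar (St ρ) W ∧ W 0 ≤ ε ∧ ∀ x ∈ St ρ, (∀ j, |(θ (Y x j)).im| ≤ lam) → W x < 1 →
      UJ W x 0 ∧ Good r c g s l K lam Λ (Y x)

def Spec_GD : Prop := ∀ (n : ℕ) [NeZero n] (r ρ c C : ℝ) (θ h g Q : ℂ → ℂ) Y s l τ η,
  SD r θ h g Q c C → AL n r ρ c θ h g Y s l τ η → ∀ K : ℝ, 1 ≤ K →
  ∃ K' lam₀ : ℝ, 1 ≤ K' ∧ ∀ lam ≥ lam₀, ∀ Λ : Finset ℝ, (∀ L ∈ Λ, lam ≤ L) → ∀ x ∈ St ρ,
    Good r c g s l K lam Λ (Y x) → DrvAt r g Y K' lam Λ x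

/-! ## no exit through the top -/

def Spec_ODE : Prop := ∀ (ι : Type) [Fintype ι] (R : (ι → ℂ) → ι → ℂ) (G : (ι → ℂ) → ℂ)
  (y₀ : ι → ℂ) (N : Set (ι → ℂ)), AnalyticAt ℂ R y₀ → AnalyticAt ℂ G y₀ → G y₀ ≠ 0 → N ∈ 𝓝 y₀ →
  ∃ σ : ℝ, 0 < σ ∧ ∃ V ∈ 𝓝 y₀, ∀ (X : Set ℂ) (Y : ℂ → ι → ℂ) (u : ℂ → ℂ), IsOpen X → Convex ℝ X →
    AnalyticOnNhd ℂ Y X → ContinuousOn u X →
    (∀ x ∈ X, Y x ∈ N → u x ≠ 0 → deriv Y x = u x • R (Y x) ∧ u x ^ 2 = G (Y x)) →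
    ∀ x₁ ∈ X, Y x₁ ∈ V → u x₁ ≠ 0 → ∃ Z : ℂ → ι → ℂ, AnalyticOnNhd ℂ Z (ball x₁ σ) ∧
      EqOn Z Y (ball x₁ σ ∩ X) ∧ MapsTo Z (ball x₁ σ) N

def Spec_TOP : Prop := ∀ (n : ℕ) [NeZero n] (r ρ c C : ℝ) (θ h g Q : ℂ → ℂ) Y s l τ η,
  SD r θ h g Q c C → AL n r ρ c θ h g Y s l τ η → ∀ K lam N : ℝ,
  (∃ M : ℝ, ∀ x ∈ St ρ, Lev r (Y x) Finset.univ N → Good r c g s l K lam {N} (Y x) →
    ‖η 0 x‖ ≤ Real.exp M) ∧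
  ∀ b : ℝ, ∃ ρ' < ρ, ∀ x ∈ St ρ, Lev r (Y x) Finset.univ N → Good r c g s l K lam {N} (Y x) →
    Real.exp (-b) ≤ ‖η 0 x‖ → |x.im| ≤ ρ'

def Spec_MINP : Prop := ∀ (A : Set ℂ) (W : ℂ → ℝ) (T : ℝ), IsOpen A → (∀ z ∈ A, |z.im| ≤ T) →
  Bar (closure A) W → (∀ z ∈ A, UJ W z 0) → (∀ z ∈ frontier A, 1 ≤ W z) → ∀ z ∈ A, 1 ≤ W z

def Spec_ACORE : Prop := ∀ (n : ℕ) [NeZero n] (r ρ c C : ℝ) (θ h g Q : ℂ → ℂ) Y s l τ η,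
  SD r θ h g Q c C → NoCalm r g Q → AL n r ρ c θ h g Y s l τ η → False

theorem core_of (hA : Spec_ALG) (hC : Spec_ACORE) : Spec_CORE :=
  fun r ρ c C θ h g Q Y φ p n hS hN hL =>
    haveI : NeZero n := ⟨hL.odd.pos.ne'⟩
    let ⟨Y', s, l, τ, η, H⟩ := hA r ρ c C θ h g Q Y φ p n hS hL
    hC n r ρ c C θ h g Q Y' s l τ η hS hN H

end Vale.Agent.P097C
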