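import Vale.Agent.P097C.Spec

/-!
# P097C: the subharmonic state function (the file State in a namespace of its own)
-/

set_option linter.all false

open Filter Topology
open scoped ComplexConjugate

namespace Vale.Agent.P097C.SB

/-- the data: a weight `d` on `S` and a solution of `g'' = Q g` with `|Q| d² ≤ C` -/
structure Cr (S : Set ℂ) (d : ℂ → ℝ) (g Q : ℂ → ℂ) (K C : ℝ) : Prop where
  opn : IsOpen S
  K1 : 1 ≤ K
  C1 : 1 ≤ C
  pos : ∀ y ∈ S, 0 < d y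
  jet : ∀ y ∈ S, ∃ b a, EJ d y b a ∧ ‖b‖ ≤ K ∧ |a| * d y ≤ K ^ 2
  ang : ∀ y ∈ S, AnalyticAt ℂ g y
  anQ : ∀ y ∈ S, AnalyticAt ℂ Q y
  ode : ∀ y ∈ S, deriv (deriv g) y = Q y * g y
  bd : ∀ y ∈ S, ‖Q y‖ * d y ^ 2 ≤ C
  nd : ∀ y ∈ S, g y ≠ 0 ∨ deriv g y ≠ 0

noncomputable section

variable (d : ℂ → ℝ) (g : ℂ → ℂ) (τ c : ℝ)

/-- `|g / (d g')|²` -/
def ss (y : ℂ) : ℝ := ‖g y / deriv g y‖ ^ 2 * ((d y)⁻¹) ^ 2

/-- `min (ss, τ²)` -/
def sg (y : ℂ) : ℝ := ‖g y‖ ^ 2 / max ((d y * ‖deriv g y‖) ^ 2) (‖g y‖ ^ 2 / τ ^ 2)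

/-- the state -/
def St (y : ℂ) : ℝ := max ‖g y‖ (τ / 2 * (d y * ‖deriv g y‖) * Real.exp (c * sg d g τ y))

end

variable {S : Set ℂ} {d : ℂ → ℝ} {g Q : ℂ → ℂ} {K C τ c : ℝ} {y : ℂ}

lemma ss_eq (y : ℂ) : ss d g y = (‖g y‖ / (d y * ‖deriv g y‖)) ^ 2 := by
  rw [ss, norm_div, ← mul_pow, mul_comm (d y), ← div_div, div_eq_mul_inv (_ / _)]

lemma sg_nonneg (y : ℂ) : 0 ≤ sg d g τ y :=
  div_nonneg (sq_nonneg _) (le_max_of_le_left (sq_nonneg _))

lemma sg_le (hτ : 0 < τ) (y : ℂ) : sg d g τ y ≤ τ ^ 2 := by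
  refine div_le_of_le_mul₀ (le_max_of_le_left (sq_nonneg _)) (sq_nonneg _) ?_
  rw [← div_le_iff₀' (by positivity)]
  exact le_max_right _ _

lemma sg_in (hτ : 0 < τ) (h : ‖g y‖ ≤ τ * (d y * ‖deriv g y‖)) : sg d g τ y = ss d g y := by
  rw [sg, max_eq_left, ss_eq, div_pow]
  rw [div_le_iff₀' (by positivity), ← mul_pow]
  gcongr

lemma sg_out (hτ : 0 < τ) (h0 : g y ≠ 0) (hd : 0 ≤ d y) (h : τ * (d y * ‖deriv g y‖) ≤ ‖g y‖) :
    sg d g τ y = τ ^ 2 := by
  have := norm_pos_iff.2 h0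
  rw [sg, max_eq_right]
  · field_simp
  · rw [le_div_iff₀' (by positivity), ← mul_pow]
    gcongr

namespace Cr

variable (H : Cr S d g Q K C) (hy : y ∈ S)
include H

lemma cd : ContinuousOn d S := fun y hy =>
  let ⟨_, _, h, _⟩ := H.jet y hy
  h.continuousAt.continuousWithinAt

lemma cg : ContinuousOn g S := fun y hy => (H.ang y hy).continuousAt.continuousWithinAt

lemma cg' : ContinuousOn (deriv g) S := fun y hy =>
  (H.ang y hy).deriv.continuousAt.continuousWithinAt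

lemma cD : ContinuousOn (fun y => d y * ‖deriv g y‖) S := H.cd.mul H.cg'.norm

lemma csg (hτ : 0 < τ) : ContinuousOn (sg d g τ) S := by
  refine (H.cg.norm.pow 2).div (fun y hy => Tendsto.max ((H.cD.pow 2) y hy)
    (((H.cg.norm.pow 2).div_const _) y hy)) fun y hy => ?_
  have := H.pos y hy
  rcases H.nd y hy with h | h
  · exact (lt_max_of_lt_right (by have := norm_pos_iff.2 h; positivity)).ne'
  · exact (lt_max_of_lt_left (by have := norm_pos_iff.2 h; positivity)).ne'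

lemma cSt (hτ : 0 < τ) : ContinuousOn (St d g τ c) S := fun y hy =>
  Tendsto.max (H.cg.norm y hy) (((continuousOn_const.mul H.cD).mul
    (continuousOn_const.mul (H.csg hτ)).rexp) y hy)

include hy

lemma St_pos (hτ : 0 < τ) : 0 < St d g τ c y := by
  have := H.pos y hy
  rcases H.nd y hy with h | h
  · exact lt_max_of_lt_left (norm_pos_iff.2 h)
  · exact lt_max_of_lt_right (by have := norm_pos_iff.2 h; positivity)

lemma ne' (h : ‖g y‖ ≤ τ * (d y * ‖deriv g y‖)) : deriv g y ≠ 0 := fun e =>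
  (H.nd y hy).elim (fun h0 => (norm_pos_iff.2 h0).not_ge (by simpa [e] using h)) fun h0 => h0 e

/-- the jet of `ss` -/
lemma ss_jet (h0 : deriv g y ≠ 0) {t : ℝ} (ht : t = ‖g y‖ / (d y * ‖deriv g y‖))
    (hC : 2 * C * t ^ 2 ≤ 1) : ∃ b a γ, EJ (ss d g) y b a ∧ 1 / 2 ≤ γ ∧ γ ≤ 3 / 2 ∧
      4 * γ ^ 2 - (8 * K ^ 2 * t ^ 2 + 12 * K * t) ≤ d y ^ 2 * a ∧
      d y * ‖b‖ ≤ 2 * γ * t + 2 * K * t ^ 2 := by
  obtain ⟨b, a, j, hb, ha⟩ := H.jet y hy
  have hd := H.pos y hy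
  have K1 := H.K1
  have an : AnalyticAt ℂ (fun x => g x / deriv g x) y := (H.ang y hy).div (H.ang y hy).deriv h0
  set G : ℂ → ℂ := fun x => g x / deriv g x with hG
  have eG : deriv G y = 1 - Q y * G y ^ 2 := by
    rw [hG, deriv_fun_div (H.ang y hy).differentiableAt (H.ang y hy).deriv.differentiableAt h0,
      H.ode y hy]
    field_simp
  have nG : ‖G y‖ = t * d y := by
    rw [ht, hG, norm_div]
    field_simp
  have t0 : 0 ≤ t := ht ▸ by positivity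
  have q : ‖Q y * G y ^ 2‖ ≤ 1 / 2 := by
    rw [norm_mul, norm_pow, nG, mul_pow]
    nlinarith [mul_le_mul_of_nonneg_right (H.bd y hy) (sq_nonneg t)]
  have g1 : 1 / 2 ≤ ‖deriv G y‖ := by
    have := norm_sub_norm_le 1 (Q y * G y ^ 2)
    rw [eG]
    linarith [norm_one (α := ℂ)]
  have g2 : ‖deriv G y‖ ≤ 3 / 2 := by
    have := norm_sub_le 1 (Q y * G y ^ 2)
    rw [eG]
    linarith [norm_one (α := ℂ)]
  set γ := ‖deriv G y‖
  refine ⟨_, _, γ, (EJ.normSq an).mul (j.inv hd.ne').sq, g1, g2, ?_, ?_⟩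
  · have n1 : ‖2 * conj (G y) * deriv G y * conj (2 * ((d y)⁻¹ : ℝ) * (-b / (d y : ℂ) ^ 2))‖ =
        4 * γ * t * ‖b‖ / d y ^ 2 := by
      simp only [norm_mul, Complex.norm_conj, Complex.norm_ofNat, norm_div, norm_neg, norm_pow,
        Complex.norm_real, nG, Real.norm_of_nonneg hd.le, norm_inv]
      field_simp
      ring
    have n2 := (abs_le.1 ((Complex.abs_re_le_norm _).trans n1.le)).1
    have n3 : ‖-b / (d y : ℂ) ^ 2‖ = ‖b‖ / d y ^ 2 := by
      simp [abs_of_pos hd]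
    have n4 : d y ^ 2 * (4 * γ * t * ‖b‖ / d y ^ 2) = 4 * γ * t * ‖b‖ := by field_simp
    have n5 : d y ^ 2 * (‖G y‖ ^ 2 * (2 * (d y)⁻¹ * (-a / d y ^ 2 + 2 * ‖b‖ ^ 2 / d y ^ 3) +
        2 * ‖-b / (d y : ℂ) ^ 2‖ ^ 2) + (d y)⁻¹ ^ 2 * (4 * γ ^ 2)) =
        t ^ 2 * (-2 * (a * d y) + 6 * ‖b‖ ^ 2) + 4 * γ ^ 2 := by
      rw [n3, nG]
      field_simp
      ring
    have n6 : a * d y ≤ K ^ 2 := (mul_le_mul_of_nonneg_right (le_abs_self a) hd.le).trans ha
    have n7 : 4 * γ * t * ‖b‖ ≤ 4 * (3 / 2) * t * K := by gcongr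
    have n8 := mul_le_mul_of_nonneg_left n2 (sq_nonneg (d y))
    rw [mul_neg, n4] at n8
    rw [mul_add, n5, mul_left_comm (d y ^ 2)]
    linarith [mul_le_mul_of_nonneg_left n6 (sq_nonneg t), mul_nonneg (sq_nonneg t) (sq_nonneg ‖b‖),
      mul_nonneg (sq_nonneg t) (sq_nonneg K)]
  · refine (mul_le_mul_of_nonneg_left (norm_add_le _ _) hd.le).trans ?_
    show d y * (‖((‖G y‖ ^ 2 : ℝ) : ℂ) * _‖ + ‖_ * (2 * conj (G y) * deriv G y)‖) ≤ _
    simp only [norm_mul, Complex.norm_conj, Complex.norm_ofNat, norm_div, norm_neg, norm_pow,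
      Complex.norm_real, nG, Real.norm_of_nonneg hd.le, norm_inv, Real.norm_of_nonneg t0]
    have : d y * ((t * d y) ^ 2 * (2 * (d y)⁻¹ * (‖b‖ / d y ^ 2)) +
        (d y)⁻¹ ^ 2 * (2 * (t * d y) * γ)) = 2 * γ * t + 2 * ‖b‖ * t ^ 2 := by
      field_simp
      ring
    refine this.trans_le ?_
    gcongr

variable (hτ : 0 < τ) (h1 : 40 * K * τ ≤ 1) (h2 : 2 * C * τ ^ 2 ≤ 1)
include hτ h1

omit hy in
lemma exp_le (y : ℂ) : Real.exp (6 * K ^ 2 * sg d g τ y) ≤ 2 := by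
  have := sg_le (d := d) (g := g) hτ y
  have K1 := H.K1
  have : 6 * K ^ 2 * sg d g τ y ≤ 1 / 2 := by
    nlinarith [mul_le_mul_of_nonneg_left this (sq_nonneg K), mul_pos (one_pos.trans_le K1) hτ]
  refine (Real.exp_le_exp.2 this).trans ?_
  have := Real.exp_one_lt_three
  have e : Real.exp (1 / 2) ^ 2 = Real.exp 1 := by rw [← Real.exp_nat_mul]; norm_num
  nlinarith [Real.exp_pos (1 / 2)]

lemma St_le : St d g τ (6 * K ^ 2) y ≤ max ‖g y‖ (τ * (d y * ‖deriv g y‖)) := by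
  have := H.pos y hy
  refine max_le_max_left _ ?_
  nlinarith [H.exp_le hτ h1 y, show 0 ≤ τ * (d y * ‖deriv g y‖) by positivity]

include h2

/-- the logarithm of the state is subharmonic and has a bounded gradient -/
lemma st_jet : ∃ φ b a, EJ φ y b a ∧ φ ≤ᶠ[𝓝 y] (fun x => Real.log (St d g τ (6 * K ^ 2) x)) ∧
    φ y = Real.log (St d g τ (6 * K ^ 2) y) ∧ 0 ≤ a ∧ d y * ‖b‖ ≤ 2 / τ + 2 * K + C ∧
    min ((d y * ‖deriv g y‖ / ‖g y‖) ^ 2) 1 ≤ d y ^ 2 * (a + ‖b‖ ^ 2) := by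
  have hd := H.pos y hy
  have K1 := H.K1
  have C1 := H.C1
  have an := H.ang y hy
  have p := H.St_pos (c := 6 * K ^ 2) hy hτ
  rcases le_or_gt (τ / 2 * (d y * ‖deriv g y‖) * Real.exp (6 * K ^ 2 * sg d g τ y)) ‖g y‖ with h | h
  · have e : St d g τ (6 * K ^ 2) y = ‖g y‖ := max_eq_left h
    rw [e] at p
    refine ⟨_, _, _, EJ.logNorm an (norm_pos_iff.1 p), ?_, by rw [e], le_rfl, ?_, ?_⟩
    · filter_upwards [an.continuousAt.eventually_ne (norm_pos_iff.1 p)] with x hx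
      exact Real.log_le_log (norm_pos_iff.2 hx) (le_max_left _ _)
    · have : 1 ≤ Real.exp (6 * K ^ 2 * sg d g τ y) :=
        Real.one_le_exp (mul_nonneg (by positivity) (sg_nonneg y))
      have h3 : τ / 2 * (d y * ‖deriv g y‖) ≤ ‖g y‖ :=
        (le_mul_of_one_le_right (by positivity) this).trans h
      have : d y * ‖deriv g y / g y‖ ≤ 2 / τ := by
        rw [norm_div, ← mul_div_assoc, div_le_div_iff₀ p hτ]
        linarith
      linarith
    · refine (min_le_left _ _).trans_eq ?_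
      rw [norm_div]
      ring
  · have h3 : ‖g y‖ < τ * (d y * ‖deriv g y‖) := by
      nlinarith [H.exp_le hτ h1 y, show 0 ≤ τ * (d y * ‖deriv g y‖) by positivity]
    have h0 := H.ne' hy h3.le
    have n0 := norm_pos_iff.2 h0
    set t := ‖g y‖ / (d y * ‖deriv g y‖) with ht
    have t0 : 0 ≤ t := by positivity
    have t1 : t ≤ τ := by rw [ht, div_le_iff₀ (by positivity)]; exact h3.le
    obtain ⟨b, a, γ, j, g1, g2, j1, j2⟩ := H.ss_jet hy h0 ht (by
      nlinarith [mul_le_mul_of_nonneg_left (pow_le_pow_left₀ t0 t1 2) (zero_le_one.trans C1)])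
    obtain ⟨b', a', k, k1, k2⟩ := H.jet y hy
    have ev : ∀ᶠ x in 𝓝 y, Real.log (τ / 2 * (d x * ‖deriv g x‖) * Real.exp (6 * K ^ 2 * sg d g τ x))
        = Real.log (d x) + Real.log ‖deriv g x‖ + 6 * K ^ 2 * ss d g x + Real.log (τ / 2) ∧
        0 < τ / 2 * (d x * ‖deriv g x‖) * Real.exp (6 * K ^ 2 * sg d g τ x) := by
      filter_upwards [an.continuousAt.norm.eventually_lt (continuousAt_const.mul
        (k.continuousAt.mul an.deriv.continuousAt.norm)) h3, H.opn.mem_nhds hy] with x hx hS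
      have := H.pos x hS
      have := norm_pos_iff.2 (H.ne' hS hx.le)
      refine ⟨?_, by positivity⟩
      rw [Real.log_mul (by positivity) (by positivity), Real.log_mul (by positivity) (by positivity),
        Real.log_mul (by positivity) (by positivity), Real.log_exp, sg_in hτ hx.le]
      ring
    have kt : K * t ≤ 1 / 40 := by nlinarith
    have kt0 : 0 ≤ K * t := by positivity
    have A : 1 ≤ d y ^ 2 * (a' / d y - ‖b'‖ ^ 2 / d y ^ 2 + 0 + 6 * K ^ 2 * a) := by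
      have e : d y ^ 2 * (a' / d y - ‖b'‖ ^ 2 / d y ^ 2 + 0 + 6 * K ^ 2 * a) =
          a' * d y - ‖b'‖ ^ 2 + 6 * K ^ 2 * (d y ^ 2 * a) := by field_simp; ring
      have : 1 / 2 ≤ d y ^ 2 * a := by nlinarith
      have := mul_le_mul_of_nonneg_right (neg_abs_le a') hd.le
      have := pow_le_pow_left₀ (norm_nonneg _) k1 2
      nlinarith
    refine ⟨_, _, _, (((k.log hd.ne').add (EJ.logNorm an.deriv h0)).add (j.smul (6 * K ^ 2))).add_const
      (Real.log (τ / 2)), ev.mono fun x hx => hx.1 ▸ Real.log_le_log hx.2 (le_max_right _ _),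
      by rw [← ev.self_of_nhds.1, St, max_eq_right h.le], ?_, ?_, (min_le_right _ _).trans ?_⟩
    · exact (mul_nonneg_iff_of_pos_left (by positivity)).1 (zero_le_one.trans A)
    · have e1 : d y * ‖b' / (d y : ℂ)‖ ≤ K := by
        rw [norm_div, Complex.norm_real, Real.norm_of_nonneg hd.le, mul_div_cancel₀ _ hd.ne']
        exact k1
      have e2 : d y * ‖deriv (deriv g) y / deriv g y‖ ≤ C := by
        have : d y * ‖deriv (deriv g) y / deriv g y‖ = ‖Q y‖ * d y ^ 2 * t := by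
          rw [H.ode y hy, norm_div, norm_mul, ht]
          field_simp
        have := H.bd y hy
        nlinarith
      have e3 : d y * ‖((6 * K ^ 2 : ℝ) : ℂ) * b‖ ≤ K := by
        rw [norm_mul, Complex.norm_real, Real.norm_of_nonneg (by positivity), mul_left_comm]
        have : 6 * K * (2 * γ * t + 2 * K * t ^ 2) ≤ 1 := by nlinarith
        nlinarith
      have := mul_le_mul_of_nonneg_left (norm_add₃_le (a := b' / (d y : ℂ))
        (b := deriv (deriv g) y / deriv g y) (c := ((6 * K ^ 2 : ℝ) : ℂ) * b)) hd.le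
      have : 0 < 2 / τ := by positivity
      linarith
    · rw [mul_add]
      exact le_add_of_le_of_nonneg A (by positivity)

end Cr

/-- the jet of the depth -/
lemma dd_jet (r : ℝ) (y : ℂ) : ∃ b : ℂ, EJ (dd r) y b (-2) ∧ ‖b‖ = 2 * |y.im| := by
  refine ⟨_, (((EJ.im (F := fun x => x) (z := y) analyticAt_id).sq).const_sub (r ^ 2)).cast rfl
    (by simp), by simp⟩

lemma st_open (r : ℝ) : IsOpen (P097C.St r) :=
  isOpen_lt (continuous_abs.comp Complex.continuous_im) continuous_const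

lemma dd_pos {r : ℝ} {y : ℂ} (hy : y ∈ P097C.St r) : 0 < dd r y :=
  sub_pos.2 (sq_lt_sq' (abs_lt.1 hy).1 (abs_lt.1 hy).2)

lemma dd_le (r : ℝ) (y : ℂ) : dd r y ≤ r ^ 2 := sub_le_self _ (sq_nonneg _)

lemma nd_of {r c C : ℝ} {θ h g Q : ℂ → ℂ} (H : SD r θ h g Q c C) {y : ℂ} (hy : y ∈ P097C.St r) :
    g y ≠ 0 ∨ deriv g y ≠ 0 := by
  by_contra k
  push Not at k
  have := H.wr y hy
  rw [k.1, k.2] at this
  have c0 : (c : ℂ) ≠ 0 := Complex.ofReal_ne_zero.2 H.c0.ne'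
  exact c0 (by rw [← this]; ring)

theorem cr_of {r c C : ℝ} {θ h g Q : ℂ → ℂ} (H : SD r θ h g Q c C) :
    Cr (P097C.St r) (dd r) g Q (2 * r + 1) (max C 1) := by
  have r0 := H.r0
  refine ⟨st_open r, by linarith, le_max_right _ _, fun y => dd_pos, fun y hy => ?_, H.ang, H.anQ,
    H.ode, fun y hy => (H.bQ y hy).trans (le_max_left _ _), fun y => nd_of H⟩
  obtain ⟨b, h1, h2⟩ := dd_jet r y
  have h3 : |y.im| < r := hy
  have h4 := dd_le r y
  refine ⟨b, _, h1, by linarith, ?_⟩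
  rw [abs_neg, abs_two]
  nlinarith

end Vale.Agent.P097C.SB
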