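import Vale.Agent.P097C.Pot

/-!
# P097C: the tame step from a bounded occupation potential
-/

set_option linter.all false

open Filter Topology

namespace Vale.Agent.P097C

lemma UJ.paste' {B : Set ℂ} {u v : ℂ → ℝ} {z : ℂ} {a : ℝ} (hB : z ∈ B → B ∈ 𝓝 z)
    (h : (z ∈ B → u z < v z) → UJ u z a) (h' : z ∈ B → v z ≤ u z → UJ v z a) :
    UJ (Vale.Agent.P097C.paste B u v) z a := by
  by_cases hz : z ∈ B ∧ v z ≤ u z
  · exact (h' hz.1 hz.2).touch (Eventually.mono (hB hz.1) fun x hx =>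
      (paste_in hx).trans_le (min_le_right _ _)) ((paste_in hz.1).trans (min_eq_right hz.2))
  · have k : z ∈ B → u z < v z := fun h1 => not_le.1 fun h2 => hz ⟨h1, h2⟩
    exact (h k).touch (.of_forall (paste_le B u v)) (paste_eq fun h1 => (k h1).le)

lemma le_paste {B : Set ℂ} {u v : ℂ → ℝ} {x : ℂ} {m : ℝ} (h : m ≤ u x) (h' : m ≤ v x) :
    m ≤ paste B u v x := by
  by_cases hx : x ∈ B
  · rw [paste_in hx]; exact le_min h h'
  · rw [paste_out hx]; exact h

lemma tame_norm (b s : ℂ) (k : ℝ) : ‖b‖ ^ 2 / 2 - k ^ 2 * ‖s‖ ^ 2 ≤ ‖b + k * s‖ ^ 2 := by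
  have h : ‖b‖ ≤ ‖b + k * s‖ + |k| * ‖s‖ := by
    have := norm_sub_le (b + k * s) (k * s)
    simpa [Complex.norm_real] using this
  have h2 : ‖b‖ ^ 2 ≤ (‖b + k * s‖ + |k| * ‖s‖) ^ 2 := pow_le_pow_left₀ (norm_nonneg _) h 2
  nlinarith [sq_nonneg (‖b + k * s‖ - |k| * ‖s‖), sq_abs k]

namespace Tame

noncomputable def kk (c M : ℝ) : ℝ := c / 3 * Real.exp (-(M / c ^ 2))

noncomputable def V1 (c M : ℝ) (v S : ℂ → ℝ) (x : ℂ) : ℝ :=
  2 * c ^ 2 * Real.log (v x + kk c M * S x) + (M - c ^ 2 * Real.log c)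

noncomputable def V0 (c M : ℝ) (v S X : ℂ → ℝ) (x : ℂ) : ℝ :=
  c ^ 2 * Real.log (v x + kk c M * S x) + c ^ 2 * Real.log (S x) + X x

noncomputable def V (c M : ℝ) (v S X : ℂ → ℝ) : ℂ → ℝ :=
  paste {x | kk c M * S x < v x} (V1 c M v S) (V0 c M v S X)

noncomputable def Th (c M δ T : ℝ) (v S X : ℂ → ℝ) (x : ℂ) : ℝ :=
  paste {x | S x < δ} (fun _ => 4 * c ^ 2 * Real.log (δ / 2) + 2 * c ^ 2 * Real.log (kk c M))
    (fun x => V c M v S X x + 2 * c ^ 2 * Real.log (S x)) x +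
    (4 * c ^ 2 * T - 2 * c ^ 2 * Real.log (kk c M))

noncomputable def dd (c M δ : ℝ) : ℝ :=
  Real.exp (Real.log (δ / 2) + (Real.log (kk c M) - Real.log 2) / 2 -
    (M - c ^ 2 * Real.log c) / (4 * c ^ 2))

variable {c M δ T : ℝ} {v S X : ℂ → ℝ} {z : ℂ} {A : Set ℂ}

lemma kk_pos (hc : 0 < c) : 0 < kk c M := by unfold kk; positivity

lemma kk_le (hc : 0 < c) (hM : 0 ≤ M) : 3 * kk c M ≤ c := by
  have : Real.exp (-(M / c ^ 2)) ≤ 1 := Real.exp_le_one_iff.2 (by
    have : 0 ≤ M / c ^ 2 := by positivity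
    linarith)
  unfold kk
  nlinarith

lemma log_kk (hc : 0 < c) : c ^ 2 * Real.log (3 * kk c M) = c ^ 2 * Real.log c - M := by
  have : 3 * kk c M = c * Real.exp (-(M / c ^ 2)) := by unfold kk; ring
  rw [this, Real.log_mul hc.ne' (Real.exp_ne_zero _), Real.log_exp]
  field_simp
  ring

lemma V_ge (hc : 0 < c) (hc1 : c ≤ 1) (hM : 0 ≤ M) (hv : 0 < v z) (hS : 0 < S z) (hX : 0 ≤ X z) :
    2 * c ^ 2 * (Real.log (S z) + Real.log (kk c M)) ≤ V c M v S X z := by
  have hk := kk_pos (M := M) hc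
  have hk3 := kk_le hc hM
  have l1 : Real.log (S z) + Real.log (kk c M) ≤ Real.log (v z + kk c M * S z) := by
    rw [← Real.log_mul hS.ne' hk.ne']
    exact Real.log_le_log (by positivity) (by linarith)
  have l2 : Real.log c ≤ 0 := Real.log_nonpos hc.le hc1
  have l3 : Real.log (kk c M) ≤ 0 := Real.log_nonpos hk.le (by linarith)
  have c2 : 0 < c ^ 2 := by positivity
  refine le_paste ?_ ?_
  · unfold V1; nlinarith
  · unfold V0; nlinarith

lemma V_le (hc : 0 < c) (hc1 : c ≤ 1) (hM : 0 ≤ M) (hv : 0 < v z) (hvS : v z ≤ S z) :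
    V c M v S X z ≤ 2 * c ^ 2 * (Real.log (S z) + Real.log 2) + (M - c ^ 2 * Real.log c) := by
  have hk := kk_pos (M := M) hc
  have hk3 := kk_le hc hM
  have hS : 0 < S z := hv.trans_le hvS
  have l1 : Real.log (v z + kk c M * S z) ≤ Real.log (S z) + Real.log 2 := by
    rw [← Real.log_mul hS.ne' two_ne_zero]
    exact Real.log_le_log (by positivity) (by nlinarith)
  have c2 : 0 < c ^ 2 := by positivity
  refine (paste_le _ _ _ _).trans ?_
  unfold V1; nlinarith

lemma V_cont {K : Set ℂ} (hc : 0 < c) (hv : ContinuousOn v K) (hS : ContinuousOn S K)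
    (hX : ContinuousOn X K) (hp : ∀ z ∈ K, 0 < v z ∧ 0 < S z ∧ 0 ≤ X z) :
    ContinuousOn (V c M v S X) K := by
  have hk := kk_pos (M := M) hc
  have h1 : ContinuousOn (fun x => Real.log (v x + kk c M * S x)) K :=
    (hv.add (continuousOn_const.mul hS)).log fun x hx =>
      (add_pos (hp x hx).1 (mul_pos hk (hp x hx).2.1)).ne'
  have h2 : ContinuousOn (fun x => Real.log (S x)) K := hS.log fun x hx => (hp x hx).2.1.ne'
  refine paste_cont ((continuousOn_const.mul h1).add continuousOn_const)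
    ((((continuousOn_const.mul h1).add (continuousOn_const.mul h2)).add hX).mono
      Set.inter_subset_left) fun z hz => ?_
  by_cases h : kk c M * S z < v z
  · exact .inl (((continuousOn_const.mul hS) z hz).eventually_lt (hv z hz) h)
  · have h' : v z < 2 * kk c M * S z := by have := (hp z hz).2.1; nlinarith
    refine .inr ?_
    filter_upwards [(hv z hz).eventually_lt ((continuousOn_const.mul hS) z hz) h',
      self_mem_nhdsWithin] with x e hx _
    obtain ⟨p1, p2, p3⟩ := hp x hx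
    have l1 : Real.log (v x + kk c M * S x) ≤ Real.log (3 * kk c M) + Real.log (S x) := by
      rw [← Real.log_mul (by positivity) p2.ne']
      exact Real.log_le_log (by positivity) (by simp only [Pi.mul_apply] at e; linarith)
    have := log_kk (M := M) hc
    have c2 : 0 < c ^ 2 := by positivity
    unfold V1 V0
    nlinarith

lemma V_sup {b s : ℂ} {i : ℝ} (hc : 0 < c) (hM : 0 ≤ M) (hv : EJ v z b 0) (hS : EJ S z s 0)
    (hv0 : 0 < v z) (hvS : v z ≤ S z) (hXM : X z ≤ M) (hi : 0 ≤ i) (hi1 : i ≤ 1)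
    (hX : UJ X z ((c ^ 2 / 8 - i) * ‖b‖ ^ 2 / v z ^ 2)) :
    UJ (fun x => V c M v S X x + 2 * c ^ 2 * Real.log (S x)) z (-(i * ‖b‖ ^ 2 / S z ^ 2)) := by
  have hk := kk_pos (M := M) hc
  have hk3 := kk_le hc hM
  have hS0 : 0 < S z := hv0.trans_le hvS
  have c2 : 0 < c ^ 2 := by positivity
  set k := kk c M with hkd
  have hw : 0 < v z + k * S z := by positivity
  have e1 := (hv.add (hS.smul k)).log (u := fun x => v x + k * S x) hw.ne'
  have e2 := hS.log hS0.ne'
  have n1 := tame_norm b s k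
  have key : UJ (V c M v S X) z (-(i * ‖b‖ ^ 2 / S z ^ 2) + 2 * c ^ 2 * (‖s‖ ^ 2 / S z ^ 2)) := by
    refine UJ.paste' (fun h => (continuousAt_const.mul hS.continuousAt).eventually_lt
      hv.continuousAt h) (fun h => ?_) fun h _ => ?_
    · have hlt : v z + k * S z ≤ c * S z := by
        by_cases hB : k * S z < v z
        · have := h hB
          unfold V1 V0 at this
          rw [← hkd] at this
          have l1 : Real.log (v z + k * S z) < Real.log (c * S z) := by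
            rw [Real.log_mul hc.ne' hS0.ne']
            by_contra hn
            push Not at hn
            nlinarith
          exact ((Real.log_lt_log_iff hw (by positivity)).1 l1).le
        · nlinarith
      refine ((e1.smul (2 * c ^ 2)).add_const (M - c ^ 2 * Real.log c)).uj.mono ?_
      have q1 : ‖b + k * s‖ ^ 2 / (c * S z) ^ 2 ≤ ‖b + k * s‖ ^ 2 / (v z + k * S z) ^ 2 :=
        div_le_div_of_nonneg_left (by positivity) (by positivity) (pow_le_pow_left₀ hw.le hlt 2)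
      have q2 : 2 * c ^ 2 * (‖b + k * s‖ ^ 2 / (c * S z) ^ 2) = 2 * ‖b + k * s‖ ^ 2 / S z ^ 2 := by
        field_simp
      have q3 : (i * ‖b‖ ^ 2 - 2 * c ^ 2 * ‖s‖ ^ 2) / S z ^ 2 ≤ 2 * ‖b + k * s‖ ^ 2 / S z ^ 2 := by
        refine div_le_div_of_nonneg_right ?_ (by positivity)
        have : k ^ 2 ≤ c ^ 2 := pow_le_pow_left₀ hk.le (by linarith) 2
        nlinarith [sq_nonneg ‖s‖, sq_nonneg ‖b‖]
      have q4 : (i * ‖b‖ ^ 2 - 2 * c ^ 2 * ‖s‖ ^ 2) / S z ^ 2 =
          i * ‖b‖ ^ 2 / S z ^ 2 - 2 * c ^ 2 * (‖s‖ ^ 2 / S z ^ 2) := by ring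
      simp only [mul_zero, add_zero, zero_div, zero_sub]
      nlinarith
    · have hB : k * S z < v z := h
      refine ((((e1.smul (c ^ 2)).add (e2.smul (c ^ 2))).uj).add hX).mono ?_
      have q1 : ‖b‖ ^ 2 / 2 / (2 * v z) ^ 2 ≤ ‖b‖ ^ 2 / 2 / (v z + k * S z) ^ 2 :=
        div_le_div_of_nonneg_left (by positivity) (by positivity)
          (pow_le_pow_left₀ hw.le (by linarith) 2)
      have q2 : k ^ 2 * ‖s‖ ^ 2 / (v z + k * S z) ^ 2 ≤ k ^ 2 * ‖s‖ ^ 2 / (k * S z) ^ 2 :=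
        div_le_div_of_nonneg_left (by positivity) (by positivity)
          (pow_le_pow_left₀ (by positivity) (by linarith) 2)
      have q3 : k ^ 2 * ‖s‖ ^ 2 / (k * S z) ^ 2 = ‖s‖ ^ 2 / S z ^ 2 := by field_simp
      have q4 : (‖b‖ ^ 2 / 2 - k ^ 2 * ‖s‖ ^ 2) / (v z + k * S z) ^ 2 ≤
          ‖b + k * s‖ ^ 2 / (v z + k * S z) ^ 2 := div_le_div_of_nonneg_right n1 (by positivity)
      have q5 : i * ‖b‖ ^ 2 / S z ^ 2 ≤ i * ‖b‖ ^ 2 / v z ^ 2 :=
        div_le_div_of_nonneg_left (by positivity) (by positivity) (pow_le_pow_left₀ hv0.le hvS 2)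
      have q6 : (c ^ 2 / 8 - i) * ‖b‖ ^ 2 / v z ^ 2 =
          c ^ 2 * (‖b‖ ^ 2 / 2 / (2 * v z) ^ 2) - i * ‖b‖ ^ 2 / v z ^ 2 := by field_simp; ring
      have q7 : 0 ≤ ‖s‖ ^ 2 / S z ^ 2 := by positivity
      rw [sub_div] at q4
      simp only [mul_zero, add_zero, zero_div, zero_sub]
      nlinarith
  refine (key.add (e2.smul (2 * c ^ 2)).uj).mono ?_
  simp only [zero_div, zero_sub]
  linarith

open Classical in
/-- the potential of one vertex -/
lemma Th_pot {b s : ℂ → ℂ} {md : ℂ → Prop} (hc : 0 < c) (hc1 : c ≤ 1) (hM : 0 ≤ M) (hδ : 0 < δ)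
    (hT : Real.exp (-T) ≤ δ / 2) (hv : ContinuousOn v (closure A))
    (hS : ContinuousOn S (closure A)) (hX : ContinuousOn X (closure A))
    (hp : ∀ z ∈ closure A, 0 < v z ∧ v z ≤ S z ∧ Real.exp (-T) ≤ S z ∧ 0 ≤ X z ∧ X z ≤ M)
    (jv : ∀ z ∈ A, EJ v z (b z) 0) (jS : ∀ z ∈ A, EJ S z (s z) 0)
    (jX : ∀ z ∈ A, S z < δ →
      UJ X z ((c ^ 2 / 8 - if md z then 1 else 0) * ‖b z‖ ^ 2 / v z ^ 2)) :
    Pot A (fun z => if md z ∧ S z < dd c M δ then ‖b z‖ ^ 2 / S z ^ 2 else 0)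
      (Th c M δ T v S X) := by
  have c2 : 0 < c ^ 2 := by positivity
  have hS0 : ∀ z ∈ closure A, 0 < S z := fun z hz => (hp z hz).1.trans_le (hp z hz).2.1
  refine ⟨?_, fun z hz => ?_, fun z hz => ?_⟩
  · refine ContinuousOn.add (paste_cont continuousOn_const ?_ fun z hz => ?_) continuousOn_const
    · exact ((V_cont hc hv hS hX fun z hz => ⟨(hp z hz).1, hS0 z hz, (hp z hz).2.2.2.1⟩).add
        (continuousOn_const.mul (hS.log fun x hx => (hS0 x hx).ne'))).mono Set.inter_subset_left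
    · by_cases h : S z < δ
      · exact .inl ((hS z hz).eventually_lt continuousWithinAt_const h)
      · refine .inr ?_
        filter_upwards [continuousWithinAt_const.eventually_lt (hS z hz)
          (show δ / 2 < S z by linarith), self_mem_nhdsWithin] with x e hx _
        have := V_ge (X := X) hc hc1 hM (hp x hx).1 (hS0 x hx) (hp x hx).2.2.2.1
        have l := Real.log_le_log (by positivity) e.le
        nlinarith
  · have l1 : -T ≤ Real.log (δ / 2) := by
      rw [← Real.log_exp (-T)]; exact Real.log_le_log (Real.exp_pos _) hT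
    have l2 : -T ≤ Real.log (S z) := by
      rw [← Real.log_exp (-T)]; exact Real.log_le_log (Real.exp_pos _) (hp z hz).2.2.1
    have := V_ge (X := X) hc hc1 hM (hp z hz).1 (hS0 z hz) (hp z hz).2.2.2.1
    have := le_paste (B := {x | S x < δ}) (x := z)
      (u := fun _ => 4 * c ^ 2 * Real.log (δ / 2) + 2 * c ^ 2 * Real.log (kk c M))
      (v := fun x => V c M v S X x + 2 * c ^ 2 * Real.log (S x))
      (m := -(4 * c ^ 2 * T - 2 * c ^ 2 * Real.log (kk c M))) (by nlinarith) (by nlinarith)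
    unfold Th
    linarith
  · obtain ⟨p1, p2, p3, p4, p5⟩ := hp z (subset_closure hz)
    have p0 := p1.trans_le p2
    refine ((UJ.paste' (fun h => (jS z hz).continuousAt.eventually_lt continuousAt_const h)
      (fun h => ?_) fun h _ => ?_).add (UJ.const _ z)).mono (add_zero _).le
    · refine (UJ.const _ z).mono ?_
      rw [if_neg, neg_zero]
      rintro ⟨-, h2⟩
      have l1 : Real.log (S z) < _ := (Real.log_lt_iff_lt_exp p0).2 h2
      have l2 : Real.log c ≤ 0 := Real.log_nonpos hc.le hc1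
      have hk := kk_pos (M := M) hc
      have hk3 := kk_le hc hM
      have l3 : Real.log (kk c M) ≤ Real.log 2 := Real.log_le_log hk (by linarith)
      have l4 : 0 ≤ (M - c ^ 2 * Real.log c) / (4 * c ^ 2) := div_nonneg (by nlinarith) (by positivity)
      have l5 : S z < δ := by
        have : Real.log (S z) < Real.log (δ / 2) := by linarith
        have := (Real.log_lt_log_iff p0 (by positivity)).1 this
        linarith
      have l6 := h l5
      have l7 := V_le (X := X) hc hc1 hM p1 p2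
      have l8 : 4 * c ^ 2 * ((M - c ^ 2 * Real.log c) / (4 * c ^ 2)) = M - c ^ 2 * Real.log c := by
        field_simp
      nlinarith
    · refine (V_sup hc hM (jv z hz) (jS z hz) p1 p2 p5 (by split_ifs <;> norm_num)
        (by split_ifs <;> norm_num) (jX z hz h)).mono (neg_le_neg ?_)
      by_cases hm : md z
      · simp only [hm, true_and, if_true, one_mul]
        split_ifs
        exacts [le_rfl, by positivity]
      · simp [hm]

lemma Th_le (hc : 0 < c) (hδ : 0 < δ) (hδ2 : δ ≤ 2) (x : ℂ) : Th c M δ T v S X x ≤ 4 * c ^ 2 * T := by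
  have l : Real.log (δ / 2) ≤ 0 := Real.log_nonpos (by positivity) (by linarith)
  have c2 : 0 < c ^ 2 := by positivity
  have := paste_le {x | S x < δ}
    (fun _ => 4 * c ^ 2 * Real.log (δ / 2) + 2 * c ^ 2 * Real.log (kk c M))
    (fun x => V c M v S X x + 2 * c ^ 2 * Real.log (S x)) x
  unfold Th
  nlinarith

lemma Th_congr {x y : ℂ} (h1 : v x = v y) (h2 : S x = S y) (h3 : X x = X y) :
    Th c M δ T v S X x = Th c M δ T v S X y := by
  simp only [Th, V, paste, V1, V0, Set.mem_setOf_eq, h1, h2, h3]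

end Tame

open Classical in
/-- TAME: rigidity and a bounded occupation potential make `∑ v → 0` improbable -/
theorem tame (n : ℕ) {B ε : ℝ} (hB : 0 < B) (hε : 0 < ε) : ∃ η > 0, ∀ M δ R : ℝ, 0 ≤ M → 0 < δ →
    0 < R → ∃ T₀ > 0, ∀ T ≥ T₀, ∀ (ι : Type) (C : Finset ι) (A : Set ℂ) (v X : ι → ℂ → ℝ)
      (b : ι → ℂ → ℂ) (md : ι → ℂ → Prop), C.Nonempty → C.card ≤ n →
      (∀ j ∈ C, ContinuousOn (v j) (closure A)) → (∀ j ∈ C, ContinuousOn (X j) (closure A)) →
      (∀ j ∈ C, ∀ z ∈ closure A, 0 < v j z ∧ v j z ≤ R ∧ 0 ≤ X j z ∧ X j z ≤ M) →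
      (∀ j ∈ C, ∀ z ∈ A, EJ (v j) z (b j z) 0) →
      (∀ j ∈ C, ∀ z ∈ A, v j z < δ →
        UJ (X j) z ((η - if md j z then 1 else 0) * ‖b j z‖ ^ 2 / v j z ^ 2)) →
      (∀ z ∈ A, ∑ i ∈ C, v i z < δ → ∀ j ∈ C,
        ‖b j z‖ ^ 2 ≤ B * ∑ i ∈ C, if md i z then ‖b i z‖ ^ 2 else 0) →
      ∃ W : ℂ → ℝ, Pot A (fun _ => 0) W ∧
        (∀ z ∈ closure A, ∑ i ∈ C, v i z ≤ Real.exp (-T) → 1 ≤ W z) ∧
        (∀ z ∈ closure A, W z ≤ ε - Real.log (∑ i ∈ C, v i z) / T) ∧
        ∀ x y, (∀ j ∈ C, v j x = v j y) → (∀ j ∈ C, X j x = X j y) → W x = W y := by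
  set D : ℝ := n ^ 2 * B with hD
  have D0 : 0 ≤ D := by positivity
  obtain ⟨c, hc, hc1, hcε⟩ : ∃ c : ℝ, 0 < c ∧ c ≤ 1 ∧ D * (n * (4 * c ^ 2)) ≤ ε / 2 := by
    refine ⟨min 1 (ε / (8 * (D * n + 1))), by positivity, min_le_left _ _, ?_⟩
    have h1 := min_le_left 1 (ε / (8 * (D * n + 1)))
    have h2 := min_le_right 1 (ε / (8 * (D * n + 1)))
    have h0 : 0 < min 1 (ε / (8 * (D * n + 1))) := by positivity
    generalize min 1 (ε / (8 * (D * n + 1))) = c at *
    rw [le_div_iff₀ (by positivity)] at h2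
    have : 0 ≤ D * n := by positivity
    have : c ^ 2 ≤ c := by nlinarith
    nlinarith
  refine ⟨c ^ 2 / 8, by positivity, fun M δ₀ R hM hδ₀ hR => ?_⟩
  set δ := min δ₀ 2
  have hδ : 0 < δ := by positivity
  set d := Tame.dd c M δ
  have hd : 0 < d := Real.exp_pos _
  have hdδ : d ≤ δ := by
    have hk := Tame.kk_pos (M := M) hc
    have hk3 := Tame.kk_le hc hM
    have l3 : Real.log (Tame.kk c M) ≤ Real.log 2 := Real.log_le_log hk (by linarith)
    have l2 : Real.log c ≤ 0 := Real.log_nonpos hc.le hc1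
    have l4 : 0 ≤ (M - c ^ 2 * Real.log c) / (4 * c ^ 2) :=
      div_nonneg (by nlinarith [sq_nonneg c]) (by positivity)
    have : d ≤ Real.exp (Real.log (δ / 2)) := Real.exp_le_exp.2 (by linarith)
    rw [Real.exp_log (by positivity)] at this
    linarith
  set C₀ : ℝ := Real.log (n * R + 1) + Real.log 2
  set G₀ : ℝ := n / (2 * d ^ 2) * (n * R ^ 2)
  have l0 : 0 ≤ Real.log (n * R + 1) := Real.log_nonneg (by nlinarith [Nat.cast_nonneg (α := ℝ) n])
  have l2 : 0 < Real.log 2 := Real.log_pos one_lt_two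
  have G0 : 0 ≤ G₀ := by positivity
  refine ⟨max (2 * (C₀ + G₀) / ε) |Real.log (δ / 2)|, lt_max_of_lt_left (by positivity),
    fun T hT ι C A v X b md hC hn cv cX hp jv jX rig => ?_⟩
  have T1 : 2 * (C₀ + G₀) / ε ≤ T := (le_max_left _ _).trans hT
  have T0 : 0 < T := lt_of_lt_of_le (by positivity) T1
  have T2 : Real.exp (-T) ≤ δ / 2 := by
    rw [← Real.exp_log (show 0 < δ / 2 by positivity)]
    exact Real.exp_le_exp.2 (by linarith [neg_abs_le (Real.log (δ / 2)), (le_max_right _ _).trans hT])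
  have hn' : (C.card : ℝ) ≤ n := by exact_mod_cast hn
  set κ := Real.exp (-T)
  have κ0 : 0 < κ := Real.exp_pos _
  have κ1 : κ ≤ 1 := by linarith [min_le_right δ₀ 2]
  let S : ℂ → ℝ := fun x => ∑ i ∈ C, v i x + κ
  have cS : ContinuousOn S (closure A) := (continuousOn_finset_sum _ cv).add continuousOn_const
  have sp : ∀ z ∈ closure A, 0 < ∑ i ∈ C, v i z := fun z hz =>
    Finset.sum_pos (fun i hi => (hp i hi z hz).1) hC
  have vS : ∀ j ∈ C, ∀ z ∈ closure A, v j z ≤ ∑ i ∈ C, v i z := fun j hj z hz =>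
    Finset.single_le_sum (f := fun i => v i z) (fun i hi => (hp i hi z hz).1.le) hj
  have S0 : ∀ z ∈ closure A, 0 < S z := fun z hz => add_pos (sp z hz) κ0
  have jS : ∀ z ∈ A, EJ S z (∑ i ∈ C, b i z) 0 := fun z hz =>
    ((EJ.sum C fun i hi => jv i hi z hz).add_const κ).cast rfl (by simp)
  have P : ∀ j ∈ C, Pot A (fun z => if md j z ∧ S z < d then ‖b j z‖ ^ 2 / S z ^ 2 else 0)
      (Tame.Th c M δ T (v j) S (X j)) := fun j hj =>
    Tame.Th_pot hc hc1 hM hδ T2 (cv j hj) cS (cX j hj)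
      (fun z hz => ⟨(hp j hj z hz).1, (vS j hj z hz).trans (le_add_of_nonneg_right κ0.le),
        le_add_of_nonneg_left (sp z hz).le, (hp j hj z hz).2.2⟩) (jv j hj) jS
      fun z hz h => jX j hj z hz (by
        have := vS j hj z (subset_closure hz)
        have : S z = ∑ i ∈ C, v i z + κ := rfl
        linarith [min_le_left δ₀ 2])
  have Q : ∀ j ∈ C, Pot A (fun z => 2 * ‖b j z‖ ^ 2) fun z => R ^ 2 - v j z ^ 2 := fun j hj =>
    ⟨continuousOn_const.sub ((cv j hj).pow 2), fun z hz => sub_nonneg.2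
      (pow_le_pow_left₀ (hp j hj z hz).1.le (hp j hj z hz).2.1 2), fun z hz =>
        ((jv j hj z hz).sq.const_sub (R ^ 2)).uj.mono (by simp)⟩
  have Z := (((Pot.sum C P).smul D0).add ((Pot.sum C Q).smul
    (show 0 ≤ (n : ℝ) / (2 * d ^ 2) by positivity))).mono subset_rfl
    (f' := fun z => ‖∑ i ∈ C, b i z‖ ^ 2 / S z ^ 2) fun z hz => by
      have s0 := S0 z (subset_closure hz)
      have cs : ‖∑ i ∈ C, b i z‖ ^ 2 ≤ n * ∑ i ∈ C, ‖b i z‖ ^ 2 :=
        (pow_le_pow_left₀ (norm_nonneg _) (norm_sum_le _ _) 2).trans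
          (sq_sum_le_card_mul_sum_sq.trans (mul_le_mul_of_nonneg_right hn' (by positivity)))
      by_cases h : S z < d
      · have r := rig z hz (by
          have : S z = ∑ i ∈ C, v i z + κ := rfl
          linarith [min_le_left δ₀ 2])
        set m := ∑ i ∈ C, if md i z then ‖b i z‖ ^ 2 else 0 with hm
        have m0 : 0 ≤ m := Finset.sum_nonneg fun i _ => by split_ifs <;> positivity
        have r2 : ∑ i ∈ C, ‖b i z‖ ^ 2 ≤ n * (B * m) :=
          (Finset.sum_le_card_nsmul _ _ _ r).trans (by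
            rw [nsmul_eq_mul]; exact mul_le_mul_of_nonneg_right hn' (by positivity))
        have e : (∑ i ∈ C, if md i z ∧ S z < d then ‖b i z‖ ^ 2 / S z ^ 2 else 0) = m / S z ^ 2 := by
          rw [hm, Finset.sum_div]
          exact Finset.sum_congr rfl fun i _ => by by_cases hi : md i z <;> simp [hi, h]
        rw [e]
        refine le_add_of_le_of_nonneg ?_ (by positivity)
        rw [← mul_div_assoc]
        refine div_le_div_of_nonneg_right ?_ (by positivity)
        have := mul_le_mul_of_nonneg_left r2 (Nat.cast_nonneg (α := ℝ) n)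
        rw [hD]; nlinarith
      · refine le_add_of_nonneg_of_le (mul_nonneg D0 (Finset.sum_nonneg fun i _ => by
          split_ifs <;> positivity)) ?_
        rw [← Finset.mul_sum]
        calc _ ≤ (n * ∑ i ∈ C, ‖b i z‖ ^ 2) / d ^ 2 := div_le_div₀ (by positivity) cs (by positivity)
              (pow_le_pow_left₀ hd.le (not_lt.1 h) 2)
          _ = _ := by field_simp
  have uS : ∀ z ∈ closure A, Real.log (S z) ≤ Real.log (n * R + 1) := fun z hz =>
    Real.log_le_log (S0 z hz) (add_le_add ((Finset.sum_le_card_nsmul _ _ R fun i hi =>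
      (hp i hi z hz).2.1).trans (by
        rw [nsmul_eq_mul]; exact mul_le_mul_of_nonneg_right hn' hR.le)) κ1)
  have Z' := (Z.doob (u := fun x => C₀ - Real.log (S x))
    (continuousOn_const.sub (cS.log fun x hx => (S0 x hx).ne'))
    (fun z hz => by have := uS z hz; simp only [C₀]; linarith) fun z hz =>
      (((jS z hz).log (S0 z (subset_closure hz)).ne').const_sub C₀).uj.mono (by simp)).smul
    (inv_pos.2 T0).le
  refine ⟨_, Z'.mono subset_rfl fun z _ => by simp, fun z hz h => ?_, fun z hz => ?_,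
    fun x y h1 h2 => ?_⟩
  · have := Z.nonneg z hz
    have l : Real.log (S z) ≤ Real.log 2 + -T := by
      rw [← Real.log_exp (-T), ← Real.log_mul two_ne_zero κ0.ne']
      exact Real.log_le_log (S0 z hz) (by simp only [S]; linarith)
    rw [inv_mul_eq_div, le_div_iff₀ T0]
    simp only [C₀]
    linarith
  · have l : Real.log (∑ i ∈ C, v i z) ≤ Real.log (S z) :=
      Real.log_le_log (sp z hz) (le_add_of_nonneg_right κ0.le)
    have a1 : ∑ i ∈ C, Tame.Th c M δ T (v i) S (X i) z ≤ n * (4 * c ^ 2 * T) :=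
      (Finset.sum_le_card_nsmul _ _ _ fun i _ => Tame.Th_le hc hδ (min_le_right _ _) z).trans (by
        rw [nsmul_eq_mul]; exact mul_le_mul_of_nonneg_right hn' (by positivity))
    have a2 : ∑ i ∈ C, (R ^ 2 - v i z ^ 2) ≤ n * R ^ 2 :=
      (Finset.sum_le_card_nsmul _ _ (R ^ 2) fun i _ => sub_le_self _ (sq_nonneg _)).trans (by
        rw [nsmul_eq_mul]; exact mul_le_mul_of_nonneg_right hn' (by positivity))
    have a3 := mul_le_mul_of_nonneg_left a1 D0
    have a4 := mul_le_mul_of_nonneg_left a2 (show 0 ≤ (n : ℝ) / (2 * d ^ 2) by positivity)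
    have a5 := mul_le_mul_of_nonneg_right hcε T0.le
    rw [div_le_iff₀ hε] at T1
    rw [inv_mul_eq_div, div_le_iff₀ T0, sub_mul, div_mul_cancel₀ _ T0.ne']
    simp only [G₀] at T1
    nlinarith
  · have e : S x = S y := by simp only [S]; rw [Finset.sum_congr rfl h1]
    have e1 : ∑ i ∈ C, Tame.Th c M δ T (v i) S (X i) x = ∑ i ∈ C, Tame.Th c M δ T (v i) S (X i) y :=
      Finset.sum_congr rfl fun i hi => Tame.Th_congr (h1 i hi) e (h2 i hi)
    have e2 : ∑ i ∈ C, (R ^ 2 - v i x ^ 2) = ∑ i ∈ C, (R ^ 2 - v i y ^ 2) :=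
      Finset.sum_congr rfl fun i hi => by rw [h1 i hi]
    simp only [e, e1, e2]

open Classical in
/-- TAME on the strip `|Im y| < r`: `Ξ` is the occupation potential (`d y = r² - (Im y)²`),
`e j = ±1` is the side approached by the vertex `j`, `v j = r - e j * Im (Y j)` -/
theorem tame_strip (n : ℕ) {B ε r : ℝ} (hB : 0 < B) (hε : 0 < ε) (hr : 0 < r) : ∃ η > 0,
    ∀ (M d₁ δ : ℝ) (Ξ : ℂ → ℝ) (md : ℂ → Prop), 0 < d₁ → 0 < δ → ContinuousOn Ξ {y | |y.im| < r} →
    (∀ y : ℂ, |y.im| < r → 0 ≤ Ξ y ∧ Ξ y ≤ M) →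
    (∀ y : ℂ, |y.im| < r → UJ Ξ y ((η - if md y ∧ r ^ 2 - y.im ^ 2 < d₁ then 1 else 0) /
      (r ^ 2 - y.im ^ 2) ^ 2)) →
    ∃ T₀ > 0, ∀ T ≥ T₀, ∀ (ι : Type) (C : Finset ι) (A : Set ℂ) (Y : ι → ℂ → ℂ) (e : ι → ℝ),
      C.Nonempty → C.card ≤ n → (∀ j ∈ C, e j = 1 ∨ e j = -1) →
      (∀ j ∈ C, ContinuousOn (Y j) (closure A)) → (∀ j ∈ C, ∀ z ∈ A, AnalyticAt ℂ (Y j) z) →
      (∀ j ∈ C, ∀ z ∈ closure A, |(Y j z).im| < r) →
      (∀ z ∈ A, ∑ i ∈ C, (r - e i * (Y i z).im) < δ → ∀ j ∈ C, ‖deriv (Y j) z‖ ^ 2 ≤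
        B * ∑ i ∈ C, if md (Y i z) then ‖deriv (Y i) z‖ ^ 2 else 0) →
      ∃ W : ℂ → ℝ, Pot A (fun _ => 0) W ∧
        (∀ z ∈ closure A, ∑ i ∈ C, (r - e i * (Y i z).im) ≤ Real.exp (-T) → 1 ≤ W z) ∧
        (∀ z ∈ closure A, W z ≤ ε - Real.log (∑ i ∈ C, (r - e i * (Y i z).im)) / T) ∧
        ∀ x y, (∀ j ∈ C, (Y j x).im = (Y j y).im) → (∀ j ∈ C, Ξ (Y j x) = Ξ (Y j y)) →
          W x = W y := by
  obtain ⟨η, hη, H⟩ := tame n hB hε
  refine ⟨η / 4, by positivity, fun M d₁ δ Ξ md hd hδ cΞ bΞ jΞ => ?_⟩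
  have hM : 0 ≤ M := (bΞ 0 (by simpa using hr)).1.trans (bΞ 0 (by simpa using hr)).2
  obtain ⟨T₀, hT₀, H⟩ := H (4 * r ^ 2 * M) (min δ (min r (d₁ / (2 * r)))) (2 * r) (by positivity)
    (by positivity) (by positivity)
  refine ⟨T₀, hT₀, fun T hT ι C A Y e hC hn he cY aY hY rig => ?_⟩
  have nb : ∀ j ∈ C, ∀ z, ‖-((e j : ℂ) * (-Complex.I * deriv (Y j) z))‖ ^ 2 = ‖deriv (Y j) z‖ ^ 2 :=
    fun j hj z => by rcases he j hj with h | h <;> simp [h]
  obtain ⟨W, h1, h2, h3, h4⟩ := H T hT ι C A (fun j z => r - e j * (Y j z).im)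
    (fun j z => 4 * r ^ 2 * Ξ (Y j z)) (fun j z => -((e j : ℂ) * (-Complex.I * deriv (Y j) z)))
    (fun j z => md (Y j z)) hC hn
    (fun j hj => continuousOn_const.sub (continuousOn_const.mul
      (Complex.continuous_im.comp_continuousOn (cY j hj))))
    (fun j hj => continuousOn_const.mul (cΞ.comp (cY j hj) (hY j hj)))
    (fun j hj z hz => by
      have := abs_lt.1 (hY j hj z hz)
      have := bΞ _ (hY j hj z hz)
      refine ⟨?_, ?_, by nlinarith [sq_nonneg r], by nlinarith [sq_nonneg r]⟩ <;>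
        rcases he j hj with h | h <;> simp only [h] <;> linarith)
    (fun j hj z hz => (((EJ.im (aY j hj z hz)).smul (e j)).const_sub r).cast rfl (by simp))
    (fun j hj z hz hv => by
      have k := abs_lt.1 (hY j hj z (subset_closure hz))
      refine (((jΞ _ (hY j hj z (subset_closure hz))).pull (aY j hj z hz)).smul
        (show 0 ≤ 4 * r ^ 2 by positivity)).mono ?_
      rw [nb j hj]
      simp only [lt_min_iff] at hv
      obtain ⟨-, v1, v2⟩ := hv
      have hd' : r ^ 2 - (Y j z).im ^ 2 =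
          (r - e j * (Y j z).im) * (2 * r - (r - e j * (Y j z).im)) := by
        rcases he j hj with h | h <;> simp only [h] <;> ring
      have v0 : 0 < r - e j * (Y j z).im := by
        rcases he j hj with h | h <;> simp only [h] <;> linarith
      rw [hd']
      generalize r - e j * (Y j z).im = v at *
      generalize ‖deriv (Y j) z‖ ^ 2 = q, sq_nonneg ‖deriv (Y j) z‖ = hq
      rw [lt_div_iff₀ (by positivity)] at v2
      have w0 : 0 < 2 * r - v := by linarith
      have s1 : 4 * r ^ 2 * (η / 4) / (v * (2 * r - v)) ^ 2 ≤ η / v ^ 2 := by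
        rw [div_le_div_iff₀ (by positivity) (by positivity)]
        have : r ^ 2 ≤ (2 * r - v) ^ 2 := pow_le_pow_left₀ hr.le (by linarith) 2
        have := mul_le_mul_of_nonneg_left this (show 0 ≤ η * v ^ 2 by positivity)
        nlinarith
      have s2 : 1 / v ^ 2 ≤ 4 * r ^ 2 / (v * (2 * r - v)) ^ 2 := by
        rw [div_le_div_iff₀ (by positivity) (by positivity)]
        have : (2 * r - v) ^ 2 ≤ (2 * r) ^ 2 := pow_le_pow_left₀ w0.le (by linarith) 2
        have := mul_le_mul_of_nonneg_left this (show 0 ≤ v ^ 2 by positivity)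
        nlinarith
      have t1 := mul_le_mul_of_nonneg_right s1 hq
      have t2 := mul_le_mul_of_nonneg_right s2 hq
      by_cases hm : md (Y j z)
      · rw [if_pos ⟨hm, by nlinarith⟩, if_pos hm]
        calc _ = 4 * r ^ 2 * (η / 4) / (v * (2 * r - v)) ^ 2 * q -
            4 * r ^ 2 / (v * (2 * r - v)) ^ 2 * q := by ring
          _ ≤ η / v ^ 2 * q - 1 / v ^ 2 * q := by linarith
          _ = _ := by ring
      · rw [if_neg fun h => hm h.1, if_neg hm]
        calc _ = 4 * r ^ 2 * (η / 4) / (v * (2 * r - v)) ^ 2 * q := by ring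
          _ ≤ η / v ^ 2 * q := t1
          _ = _ := by ring)
    (fun z hz hs j hj => by
      rw [nb j hj, Finset.sum_congr rfl fun i hi => by rw [nb i hi]]
      exact rig z hz (hs.trans_le (min_le_left _ _)) j hj)
  exact ⟨W, h1, h2, h3, fun x y a b => h4 x y (fun j hj => by rw [a j hj]) fun j hj => by
    rw [b j hj]⟩

end Vale.Agent.P097C
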